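import Vale.Agent.P234.Spec0

/-! Module C: the exponential map of a complete metric without conjugate points is a covering. -/

open scoped Manifold ContDiff Topology unitInterval
open Set Filter

namespace Vale.Agent.P234
open Vale.Agent.P255 (koszul chr riem covD GeoAt JacAt loc locVec IsGeodesic IsJacobi Metric ip OStmt)

variable [Dim]

namespace Cv

theorem equivOf (A : En →L[ℝ] En) (h : Function.Injective A) :
    ∃ e : En ≃L[ℝ] En, (e : En →L[ℝ] En) = A :=
  ⟨(LinearEquiv.ofInjectiveEndo (A : En →ₗ[ℝ] En) h).toContinuousLinearEquiv, by ext; rfl⟩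

variable {M : Type} [TopologicalSpace M] [ChartedSpace En M] {g : M → Bil}

theorem gloc (hc : ChartFacts g) (x : M) (u v : En) :
    locB g x (chartAt En x x) u v = g x u v := by
  have := hc.pull x x (mem_chart_source En x) u v
  rwa [hc.self x] at this

theorem gsymm (hc : ChartFacts g) (x : M) (u v : En) : g x u v = g x v u := by
  rw [← gloc hc, ← gloc hc]
  exact (hc.cm x).symm _ (mem_chart_target En x) u v

theorem gpos (hc : ChartFacts g) (x : M) (u : En) (hu : u ≠ 0) : 0 < g x u u := by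
  rw [← gloc hc]
  exact (hc.cm x).pos _ (mem_chart_target En x) u hu

theorem gnn (hc : ChartFacts g) (x : M) (u : En) : 0 ≤ g x u u := by
  by_cases hu : u = 0
  · simp [hu]
  · exact (gpos hc x u hu).le

theorem gamgm (hc : ChartFacts g) (x : M) (u v : En) : |2 * g x u v| ≤ g x u u + g x v v := by
  have h1 := gnn hc x (u + v)
  have h2 := gnn hc x (u - v)
  have h3 := gsymm hc x u v
  simp only [map_add, map_sub, add_apply, sub_apply] at h1 h2
  rw [abs_le]
  constructor <;> linarith

/-- local form of the Gauss lemma computation -/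
theorem gauss_loc (hA : AStmt) (hc : ChartFacts g) (hg : GeoFacts g) {γ : ℝ → M} {J : ℝ → En}
    (hγ : IsGeodesic (un g) γ) (hJ : IsJacobi (un g) γ J) (a : M) (s : ℝ)
    (hs : γ s ∈ (chartAt En a).source) :
    HasDerivAt (fun r => g (γ r) (J r) (vel γ r))
      (locB g a (chartAt En a (γ s))
        (covD (ub (locB g a)) (fun r => chartAt En a (γ r)) (locVec a γ J) s)
        (deriv (fun r => chartAt En a (γ r)) s)) s := by
  obtain ⟨-, -, -, -, hC, -⟩ := hA
  have hgeo := hγ.2 a s hs
  have hjac := hJ a s hs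
  rw [loc_un] at hgeo hjac
  have h1 := hC _ _ (hc.cm a) (fun r => chartAt En a (γ r)) (locVec a γ J)
    (deriv fun r => chartAt En a (γ r)) s ((chartAt En a).map_source hs) hgeo.1 hjac.1 hgeo.2.1
  rw [hgeo.2.2, map_zero, add_zero] at h1
  refine h1.congr_of_eventuallyEq ?_
  filter_upwards [hγ.1.continuousAt.preimage_mem_nhds ((chartAt En a).open_source.mem_nhds hs)]
    with r hr
  rw [hg.dv γ hγ a r hr, locVec_eq, hc.pull a _ hr]

theorem gauss_two (hA : AStmt) (hc : ChartFacts g) (hg : GeoFacts g) {γ : ℝ → M} {J : ℝ → En}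
    (hγ : IsGeodesic (un g) γ) (hJ : IsJacobi (un g) γ J) (s : ℝ) :
    HasDerivAt (deriv fun r => g (γ r) (J r) (vel γ r)) 0 s := by
  have hA' := hA
  obtain ⟨-, -, -, -, hC, hS⟩ := hA'
  obtain ⟨a, hs⟩ : ∃ a, γ s ∈ (chartAt En a).source := ⟨_, mem_chart_source En _⟩
  have hgeo := hγ.2 a s hs
  have hjac := hJ a s hs
  rw [loc_un] at hgeo hjac
  have h1 := hC _ _ (hc.cm a) (fun r => chartAt En a (γ r))
    (covD (ub (locB g a)) (fun r => chartAt En a (γ r)) (locVec a γ J))
    (deriv fun r => chartAt En a (γ r)) s ((chartAt En a).map_source hs) hgeo.1 hjac.2.1 hgeo.2.1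
  rw [hgeo.2.2, map_zero, add_zero, eq_neg_of_add_eq_zero_left hjac.2.2, map_neg, neg_apply,
    hS _ _ (hc.cm a) _ ((chartAt En a).map_source hs), neg_zero] at h1
  refine h1.congr_of_eventuallyEq ?_
  filter_upwards [hγ.1.continuousAt.preimage_mem_nhds ((chartAt En a).open_source.mem_nhds hs)]
    with r hr
  exact (gauss_loc hA hc hg hγ hJ a r hr).deriv

/-- the Gauss lemma -/
theorem gauss (hA : AStmt) (hc : ChartFacts g) (hg : GeoFacts g) {γ : ℝ → M} {J : ℝ → En}
    (hγ : IsGeodesic (un g) γ) (hJ : IsJacobi (un g) γ J) {p : M} (h0 : γ 0 = p) (hJ0 : J 0 = 0) :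
    g (γ 1) (J 1) (vel γ 1) = g p (deriv (locVec p γ J) 0) (vel γ 0) := by
  subst h0
  set h : ℝ → ℝ := fun r => g (γ r) (J r) (vel γ r) with hh
  have hd : ∀ s, HasDerivAt h (deriv h s) s := fun s =>
    (gauss_loc hA hc hg hγ hJ (γ s) s (mem_chart_source En _)).differentiableAt.hasDerivAt
  have h2 : ∀ s, deriv h s = deriv h 0 := fun s =>
    is_const_of_deriv_eq_zero (fun s => (gauss_two hA hc hg hγ hJ s).differentiableAt)
      (fun s => (gauss_two hA hc hg hγ hJ s).deriv) s 0
  have h3 : ∀ s, HasDerivAt (fun r => h r - r * deriv h 0) 0 s := fun s => by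
    have := (hd s).sub ((hasDerivAt_id s).mul_const (deriv h 0))
    rw [h2 s, one_mul, sub_self] at this
    exact this
  have h4 := is_const_of_deriv_eq_zero (fun s => (h3 s).differentiableAt)
    (fun s => (h3 s).deriv) 1 0
  have h5 : h 0 = 0 := by simp [hh, hJ0]
  have h6 : h 1 = deriv h 0 := by
    simp only [one_mul, zero_mul, h5] at h4
    linarith
  change h 1 = _
  rw [h6, (gauss_loc hA hc hg hγ hJ (γ 0) 0 (mem_chart_source En _)).deriv, gloc hc]
  obtain ⟨Γ, hΓ⟩ := hA.1 _ _ (hc.cm (γ 0))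
  have h7 : locVec (γ 0) γ J 0 = 0 := by rw [locVec_eq, hJ0, map_zero]
  simp only [covD]
  rw [hΓ.eq _ (mem_chart_target En _), h7, map_zero, add_zero]
  rfl

end Cv

end Vale.Agent.P234
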