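import Vale.Agent.P234.Spec
import Vale.Agent.P234.B0
import Vale.Agent.P234.C0

/-! Elementary facts on `Riem`. -/

open scoped Manifold ContDiff Topology
open Set Filter

namespace Vale.Agent.P234

variable [Dim] {M : Type} [MetricSpace M] [ChartedSpace En M]

theorem cst_comm (z y : M) : cst z y = cst y z := by rw [cst, cst, dist_comm]

theorem continuous_cst : Continuous fun w : M × M => cst w.1 w.2 := by
  unfold cst; fun_prop

/-- `(a+b)²/2 ≤ a²/(2λ) + b²/(2(1-λ))` along the triangle inequality -/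
theorem cst_tri (z m y : M) {l : ℝ} (h0 : 0 < l) (h1 : l < 1) :
    cst z y ≤ cst z m / l + cst m y / (1 - l) := by
  have ht := dist_triangle z m y
  have h2 : dist z y ^ 2 ≤ (dist z m + dist m y) ^ 2 := by gcongr
  have h3 : 0 < 1 - l := by linarith
  simp only [cst]
  have : (dist z m + dist m y) ^ 2 / 2 ≤ dist z m ^ 2 / 2 / l + dist m y ^ 2 / 2 / (1 - l) := by
    rw [div_add_div _ _ h0.ne' h3.ne', le_div_iff₀ (by positivity)]
    nlinarith [sq_nonneg ((1 - l) * dist z m - l * dist m y)]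
  linarith

namespace Riem
variable (R : Riem M)

theorem g_symm (x : M) (u v : En) : R.g x u v = R.g x v u := Cv.gsymm R.cf x u v
theorem g_pos (x : M) {u : En} (hu : u ≠ 0) : 0 < R.g x u u := Cv.gpos R.cf x u hu
theorem g_nn (x : M) (u : En) : 0 ≤ R.g x u u := Cv.gnn R.cf x u
theorem nr_nn (x : M) (u : En) : 0 ≤ R.nr x u := Real.sqrt_nonneg _
theorem nr_sq (x : M) (u : En) : R.nr x u ^ 2 = R.g x u u := Real.sq_sqrt (R.g_nn x u)
@[simp] theorem nr_zero (x : M) : R.nr x 0 = 0 := by simp [nr]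
theorem nr_pos (x : M) {u : En} (hu : u ≠ 0) : 0 < R.nr x u := Real.sqrt_pos.2 (R.g_pos x hu)
theorem nr_eq_zero {x : M} {u : En} (h : R.nr x u = 0) : u = 0 := by
  by_contra hu; exact (R.nr_pos x hu).ne' h

theorem nr_smul (x : M) (a : ℝ) (u : En) : R.nr x (a • u) = |a| * R.nr x u := by
  have : R.g x (a • u) (a • u) = a ^ 2 * R.g x u u := by simp; ring
  rw [nr, this, Real.sqrt_mul (sq_nonneg a), Real.sqrt_sq_eq_abs, nr]

theorem nr_neg (x : M) (u : En) : R.nr x (-u) = R.nr x u := by simp [nr]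

/-- Cauchy-Schwarz -/
theorem abs_g_le (x : M) (u v : En) : |R.g x u v| ≤ R.nr x u * R.nr x v := by
  have h : ∀ t : ℝ, 0 ≤ R.g x u u * (t * t) + 2 * R.g x u v * t + R.g x v v := fun t => by
    have := R.g_nn x (t • u + v)
    simp only [map_add, map_smul, ContinuousLinearMap.add_apply, ContinuousLinearMap.smul_apply,
      smul_eq_mul, R.g_symm x v u] at this
    linarith
  have hd := discrim_le_zero h
  rw [discrim] at hd
  refine abs_le_of_sq_le_sq' ?_ (mul_nonneg (R.nr_nn x u) (R.nr_nn x v)) |> abs_le.2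
  rw [mul_pow, nr_sq, nr_sq]; nlinarith

theorem g_le (x : M) (u v : En) : R.g x u v ≤ R.nr x u * R.nr x v :=
  (le_abs_self _).trans (R.abs_g_le x u v)

theorem nr_add_le (x : M) (u v : En) : R.nr x (u + v) ≤ R.nr x u + R.nr x v := by
  refine abs_le_of_sq_le_sq' ?_ (add_nonneg (R.nr_nn x u) (R.nr_nn x v)) |>.2
  have := R.g_le x u v
  rw [add_sq, nr_sq, nr_sq, nr_sq]
  simp only [map_add, ContinuousLinearMap.add_apply, R.g_symm x v u]
  linarith

/-- equality in Cauchy-Schwarz -/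
theorem eq_of_g_ge {x : M} {u v : En} (h1 : R.nr x u = R.nr x v)
    (h2 : R.nr x u * R.nr x v ≤ R.g x u v) : u = v := by
  by_contra hne
  have := R.g_pos x (sub_ne_zero.2 hne)
  simp only [map_sub, ContinuousLinearMap.sub_apply, R.g_symm x v u] at this
  rw [← R.nr_sq x u, ← R.nr_sq x v] at this
  rw [h1] at h2 this
  nlinarith

theorem geo_zero (x : M) (v : En) : R.geo x v 0 = x := (R.fam x v).2.1
theorem vl_zero (x : M) (v : En) : R.vl x v 0 = v := (R.fam x v).2.2
theorem geo_cont (x : M) (v : En) : Continuous (R.geo x v) := (R.fam x v).1.1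

theorem geo_smul' (x : M) (v : En) (a : ℝ) : R.geo x (a • v) = fun s => R.geo x v (a * s) := by
  obtain ⟨r1, r2⟩ := R.gf.rep _ (R.fam x v).1 a 0
  have := R.gf.uniq _ _ (R.fam x (a • v)).1 r1 (by simp [geo_zero]) (by
    rw [r2, (R.fam x _).2.2]; simp [(R.fam x v).2.2])
  simpa using this

theorem ex_smul (x : M) (v : En) (s : ℝ) : R.ex x (s • v) = R.geo x v s := by
  simp only [ex, geo_smul', mul_one]

@[simp] theorem ex_zero (x : M) : R.ex x 0 = x := by
  have := R.ex_smul x 0 0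
  rwa [smul_zero, geo_zero] at this

theorem vl_smul (x : M) (v : En) (a s : ℝ) : R.vl x (a • v) s = a • R.vl x v (a * s) := by
  have := (R.gf.rep _ (R.fam x v).1 a 0).2 s
  simp only [add_zero] at this
  rw [vl, geo_smul', this, vl]

/-- flow property -/
theorem flow' (x : M) (v : En) (s : ℝ) :
    R.geo (R.geo x v s) (R.vl x v s) = fun t => R.geo x v (s + t) := by
  obtain ⟨r1, r2⟩ := R.gf.rep _ (R.fam x v).1 1 s
  have := R.gf.uniq _ _ (R.fam (R.geo x v s) (R.vl x v s)).1 r1 (by simp [geo_zero]) (by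
    rw [r2, (R.fam _ _).2.2]; simp [vl])
  simpa [add_comm] using this

theorem flow (x : M) (v : En) (s t : ℝ) :
    R.ex (R.geo x v s) (t • R.vl x v s) = R.geo x v (s + t) := by
  rw [ex_smul, flow']

theorem vl_flow (x : M) (v : En) (s t : ℝ) :
    R.vl (R.geo x v s) (R.vl x v s) t = R.vl x v (s + t) := by
  have := (R.gf.rep _ (R.fam x v).1 1 s).2 t
  simp only [one_mul, one_smul] at this
  rw [vl, flow']
  simpa [add_comm, vl] using this

theorem speed (x : M) (v : En) (s : ℝ) :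
    R.g (R.geo x v s) (R.vl x v s) (R.vl x v s) = R.g x v v := by
  have := R.gf.speed _ (R.fam x v).1 s
  rwa [geo_zero, (R.fam x v).2.2] at this

theorem nr_vl (x : M) (v : En) (s : ℝ) : R.nr (R.geo x v s) (R.vl x v s) = R.nr x v := by
  rw [nr, speed, nr]

/-- the reversed geodesic -/
theorem ex_rev (x : M) (v : En) (t : ℝ) :
    R.ex (R.ex x v) (t • -R.vl x v 1) = R.geo x v (1 - t) := by
  rw [smul_neg, ← neg_smul, ex, ex]
  exact R.flow x v 1 (-t)

theorem vl_rev (x : M) (v : En) : R.vl (R.ex x v) (-R.vl x v 1) 1 = -v := by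
  rw [← neg_one_smul ℝ (R.vl x v 1), vl_smul, ex, vl_flow]
  simp [vl_zero]

theorem zero_mem_Ib (x : M) : (0 : En) ∈ R.Ib x := by simp [Ib]

theorem cst_of_Ib {x : M} {v : En} (h : v ∈ R.Ib x) : cst x (R.ex x v) = R.g x v v / 2 := by
  rw [cst, h, nr_sq]

theorem smul_mem_Ib (hN : R.Near) {x : M} {v : En} (h : v ∈ R.Ib x) {a : ℝ} (h0 : 0 ≤ a)
    (h1 : a ≤ 1) : a • v ∈ R.Ib x := by
  have := hN.seg x v h 0 a le_rfl h0 h1
  rw [geo_zero, sub_zero] at this
  change dist _ _ = _
  rw [ex_smul, this, nr_smul, abs_of_nonneg h0]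

theorem smul_mem_Io {x : M} {v : En} (h : v ∈ R.Ib x) {a : ℝ} (h0 : 0 ≤ a) (h1 : a < 1) :
    a • v ∈ R.Io x := by
  rcases h0.eq_or_lt with rfl | h0
  · exact ⟨2, by norm_num, by simpa using R.zero_mem_Ib x⟩
  · exact ⟨a⁻¹, (one_lt_inv₀ h0).2 h1, by rwa [smul_smul, inv_mul_cancel₀ h0.ne', one_smul]⟩

theorem Io_subset_Ib (hN : R.Near) (x : M) : R.Io x ⊆ R.Ib x := by
  rintro v ⟨a, ha, h⟩
  have := R.smul_mem_Ib hN h (a := a⁻¹) (by positivity) (inv_le_one_of_one_le₀ ha.le)
  rwa [smul_smul, inv_mul_cancel₀ (by positivity), one_smul] at this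

theorem good_zero (hS : R.Sm) (x : M) : R.Good x 0 :=
  ⟨by rw [NC, hS.dex0]; exact Function.injective_id, R.zero_mem_Ib x, fun w hw h => by
    have : dist x (R.ex x w) = R.nr x w := hw
    rw [h, ex_zero, dist_self] at this
    exact R.nr_eq_zero this.symm⟩

theorem nr_le_diam [CompactSpace M] {x : M} {v : En} (h : v ∈ R.Ib x) :
    R.nr x v ≤ Metric.diam (univ : Set M) := by
  rw [← show dist x (R.ex x v) = R.nr x v from h]
  exact Metric.dist_le_diam_of_mem isCompact_univ.isBounded (mem_univ _) (mem_univ _)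

theorem convex_nr_le (x : M) (r : ℝ) : Convex ℝ {v | R.nr x v ≤ r} := by
  intro u hu v hv a b ha hb hab
  have := R.nr_add_le x (a • u) (b • v)
  rw [nr_smul, nr_smul, abs_of_nonneg ha, abs_of_nonneg hb] at this
  simp only [mem_setOf_eq] at *
  have h1 := mul_le_mul_of_nonneg_left hu ha
  have h2 := mul_le_mul_of_nonneg_left hv hb
  have : a * r + b * r = r := by rw [← add_mul, hab, one_mul]
  linarith

theorem nr_le_diam' [CompactSpace M] {x : M} {v : En} (h : v ∈ convexHull ℝ (R.Ib x)) :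
    R.nr x v ≤ Metric.diam (univ : Set M) :=
  convexHull_min (fun _ hw => R.nr_le_diam hw) (R.convex_nr_le x _) h

variable [IsManifold 𝓘(ℝ, En) ∞ M]

include R in
theorem Di_self (a : M) (u : En) : Di a (chartAt En a a) u = u := by
  have := Bm.DiD (mem_chart_source En a) u
  rwa [R.cf.self] at this

theorem exc_D {a x : M} (hx : x ∈ (chartAt En a).source) (v : En) :
    R.exc a (chartAt En a x, D a x v) = R.ex x v := by
  simp only [exc]
  rw [Bm.DiD hx, (chartAt En a).left_inv hx]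

theorem exc_self (x : M) (v : En) : R.exc x (chartAt En x x, v) = R.ex x v := by
  have := R.exc_D (mem_chart_source En x) v
  rwa [R.cf.self] at this

theorem Cc_self (x : M) (v ξ : En) :
    R.Cc x (chartAt En x x, v, ξ) = cst (R.ex x ξ) (R.ex x v) := by
  simp only [Cc, exc_self]

end Riem

variable [IsManifold 𝓘(ℝ, En) ∞ M]

@[simp] theorem tm_proj (z : M) (v : En) : (tm z v).proj = z := rfl
@[simp] theorem tv_tm (z : M) (v : En) : tv (tm z v) = v := rfl
@[simp] theorem tm_eta (p : TM M) : tm p.proj (tv p) = p := rfl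

theorem tm_inj {z z' : M} {v v' : En} : tm z v = tm z' v' ↔ z = z' ∧ v = v' :=
  ⟨fun h => ⟨congrArg (fun p : TM M => p.proj) h, congrArg tv h⟩, fun h => by rw [h.1, h.2]⟩

theorem unl_lift {a : M} {p : TM M} (hp : p.proj ∈ (chartAt En a).source) :
    unl a (lift a p) = p := by
  simp only [unl, lift]
  rw [Bm.DiD hp, (chartAt En a).left_inv hp, tm_eta]

theorem lift_unl {a : M} {w : En × En} (hw : w.1 ∈ (chartAt En a).target) :
    lift a (unl a w) = w := by
  simp only [unl, lift, tm_proj, tv_tm]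
  rw [Bm.DDi hw, (chartAt En a).right_inv hw]

end Vale.Agent.P234
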