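import Vale.Agent.P234.Spec
import Vale.Agent.P234.B0
import Vale.Agent.P234.C0

/-! Module B of P234: local branches of the logarithm. -/

open scoped Manifold ContDiff Topology
open Set Filter

namespace Vale.Agent.P234

variable [Dim]

namespace Brx

/-- solving `F (y, u) = m` for `u` -/
lemma solve {F : En × En → En} {w : En × En} (hF : ContDiffAt ℝ ∞ F w)
    (hi : Function.Injective (fderiv ℝ F w ∘L .inr ℝ En En)) :
    ∃ σ : En × En → En, ContDiffAt ℝ ∞ σ (w.1, F w) ∧ σ (w.1, F w) = w.2 ∧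
      (∀ᶠ s in 𝓝 (w.1, F w), F (s.1, σ s) = s.2) ∧ ∀ᶠ w' in 𝓝 w, σ (w'.1, F w') = w'.2 := by
  let A : (En × En) × En →L[ℝ] En × En :=
    ((ContinuousLinearMap.fst ℝ En En).comp (ContinuousLinearMap.fst ℝ (En × En) En)).prod
      (ContinuousLinearMap.snd ℝ (En × En) En)
  let B : (En × En) × En →L[ℝ] En :=
    (ContinuousLinearMap.snd ℝ En En).comp (ContinuousLinearMap.fst ℝ (En × En) En)
  let u : (En × En) × En := ((w.1, F w), w.2)
  have hF' : ContDiffAt ℝ ∞ F (A u) := hF
  have h0 : ContDiffAt ℝ ∞ (fun s => F (A s) - B s) u :=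
    (hF'.comp u A.contDiff.contDiffAt).sub B.contDiff.contDiffAt
  have n0 : (∞ : WithTop ℕ∞) ≠ 0 := by simp
  have hd : HasFDerivAt (fun s => F (A s) - B s) (fderiv ℝ F w ∘L A - B) u :=
    ((hF'.differentiableAt n0).hasFDerivAt.comp u A.hasFDerivAt).sub B.hasFDerivAt
  have hv : (fderiv ℝ (fun s => F (A s) - B s) u ∘L .inr ℝ (En × En) En).IsInvertible := by
    obtain ⟨e, he⟩ := Cv.equivOf _ hi
    refine ⟨e, ?_⟩
    rw [he, hd.fderiv]
    ext1 ξ
    simp [A, B]
  have z : F (A u) - B u = 0 := sub_self _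
  refine ⟨h0.implicitFunction n0 hv, h0.contDiffAt_implicitFunction n0 hv,
    h0.implicitFunction_apply_self n0 hv, ?_, ?_⟩
  · filter_upwards [h0.eventually_apply_implicitFunction n0 hv] with s hs
    exact sub_eq_zero.1 (hs.trans z)
  · have t : Tendsto (fun w' : En × En => (((w'.1, F w'), w'.2) : (En × En) × En)) (𝓝 w) (𝓝 u) :=
      (continuousAt_fst.prodMk hF.continuousAt).prodMk continuousAt_snd
    filter_upwards [t.eventually (h0.eventually_apply_eq_iff_implicitFunction n0 hv)] with w' hw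
    exact hw.1 ((sub_self _).trans z.symm)

lemma inj_ev {F : En × En → En} {w : En × En} (hF : ContDiffAt ℝ ∞ F w)
    (hi : Function.Injective (fderiv ℝ F w ∘L .inr ℝ En En)) :
    ∀ᶠ w' in 𝓝 w, Function.Injective (fderiv ℝ F w' ∘L .inr ℝ En En) := by
  have c : ContinuousAt (fun v => fderiv ℝ F v ∘L .inr ℝ En En) w :=
    ((hF.fderiv_right (m := 0) (by simp)).continuousAt).clm_comp continuousAt_const
  obtain ⟨e, he⟩ := Cv.equivOf _ hi
  filter_upwards [c.eventually_mem (he ▸ ContinuousLinearEquiv.nhds e)] with v hv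
  obtain ⟨e', he'⟩ := hv
  rw [← he']
  exact e'.injective

variable {M : Type} [MetricSpace M] [ChartedSpace En M] [IsManifold 𝓘(ℝ, En) ∞ M] {R : Riem M}

lemma exc_lift {a z : M} (hz : z ∈ (chartAt En a).source) (v : En) :
    R.exc a (chartAt En a z, D a z v) = R.ex z v := by
  unfold Riem.exc
  simp only
  rw [Bm.DiD hz, (chartAt En a).left_inv hz]

lemma part (hS : R.Sm) {a b z : M} {v : En} (hz : z ∈ (chartAt En a).source)
    (hb : R.ex z v ∈ (chartAt En b).source) (ξ : En) :
    (fderiv ℝ (fun w => chartAt En b (R.exc a w)) (chartAt En a z, D a z v) ∘L .inr ℝ En En)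
      (D a z ξ) = D b (R.ex z v) (R.dex z v ξ) := by
  have n0 : (∞ : WithTop ℕ∞) ≠ 0 := by simp
  have hs := hS.sm a (chartAt En a z, D a z v) ((chartAt En a).map_source hz)
  have hl : HasFDerivAt (fun u : En => ((chartAt En a z, D a z u) : En × En))
      (ContinuousLinearMap.inr ℝ En En ∘L D a z) v :=
    (hasFDerivAt_prodMk_right (chartAt En a z) (D a z v)).comp v (D a z).hasFDerivAt
  have h1 := ((hs.2 b (by rw [exc_lift hz]; exact hb)).differentiableAt n0).hasFDerivAt.comp v hl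
  have h2 := ((hs.2 (R.ex z v) (by
    rw [exc_lift hz]; exact mem_chart_source _ _)).differentiableAt n0).comp v hl.differentiableAt
  have h3 := hs.1.comp (f := fun u : En => ((chartAt En a z, D a z u) : En × En)) hl.continuousAt
  simp only [Function.comp_def, exc_lift hz] at h1 h2 h3
  have hτ : DifferentiableAt ℝ (fun y => chartAt En b ((chartAt En (R.ex z v)).symm y))
      (chartAt En (R.ex z v) (R.ex z v)) := by
    refine ((R.cf.sm (R.ex z v) b).contDiffAt ?_).differentiableAt n0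
    refine ((chartAt En (R.ex z v)).symm.isOpen_inter_preimage (chartAt En b).open_source).mem_nhds
      ⟨mem_chart_target _ _, ?_⟩
    rw [mem_preimage, (chartAt En (R.ex z v)).left_inv (mem_chart_source _ _)]
    exact hb
  have h4 := hτ.hasFDerivAt.comp v h2.hasFDerivAt
  have h5 : (fun u => chartAt En b (R.ex z u)) =ᶠ[𝓝 v]
      (fun y => chartAt En b ((chartAt En (R.ex z v)).symm y)) ∘
        fun u => chartAt En (R.ex z v) (R.ex z u) := by
    filter_upwards [h3.eventually_mem
      ((chartAt En (R.ex z v)).open_source.mem_nhds (mem_chart_source _ _))] with u hu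
    simp only [Function.comp_apply, (chartAt En (R.ex z v)).left_inv hu]
  have h6 := h1.unique (h4.congr_of_eventuallyEq h5)
  rw [R.cf.chg (R.ex z v) b _ (mem_chart_source _ _) hb, R.cf.self]
  exact DFunLike.congr_fun h6 ξ

lemma nc_iff (hS : R.Sm) {a b z : M} {v : En} (hz : z ∈ (chartAt En a).source)
    (hb : R.ex z v ∈ (chartAt En b).source) : R.NC z v ↔ Function.Injective
      (fderiv ℝ (fun w => chartAt En b (R.exc a w)) (chartAt En a z, D a z v) ∘L .inr ℝ En En) := by
  have e := funext (part hS hz hb)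
  constructor
  · intro h
    refine Function.Injective.of_comp_right (g := D a z) ?_ (R.cf.bij a z hz).2
    rw [Function.comp_def, e]
    exact (R.cf.bij b _ hb).1.comp h
  · intro h
    have h2 := h.comp (R.cf.bij a z hz).1
    rw [Function.comp_def, e] at h2
    exact Function.Injective.of_comp (f := D b (R.ex z v)) h2

/-- the data of a branch in the chart at `a` -/
structure Bd (R : Riem M) (a x : M) (v : En) (σ : En × En → En) : Prop where
  sm : ContDiffAt ℝ ∞ σ (chartAt En a x, chartAt En (R.ex x v) (R.ex x v))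
  pt : σ (chartAt En a x, chartAt En (R.ex x v) (R.ex x v)) = D a x v
  rt : ∀ᶠ s in 𝓝 (chartAt En a x, chartAt En (R.ex x v) (R.ex x v)),
    R.exc a (s.1, σ s) = (chartAt En (R.ex x v)).symm s.2
  lf : ∀ᶠ p in 𝓝 (tm x v), p.proj ∈ (chartAt En a).source ∧
    σ (chartAt En a p.proj, chartAt En (R.ex x v) (R.ex p.proj (tv p))) = D a p.proj (tv p)

lemma lift_ev (hT : R.Top) {a x : M} (hx : x ∈ (chartAt En a).source) (v : En) :
    (∀ᶠ p in 𝓝 (tm x v), p.proj ∈ (chartAt En a).source) ∧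
      Tendsto (lift a) (𝓝 (tm x v)) (𝓝 (chartAt En a x, D a x v)) := by
  have h1 : {p : TM M | p.proj ∈ (chartAt En a).source} ∈ 𝓝 (tm x v) :=
    ((chartAt En a).open_source.preimage hT.cproj).mem_nhds hx
  exact ⟨h1, (hT.clift a).continuousAt h1⟩

lemma branch (hS : R.Sm) (hT : R.Top) {a x : M} {v : En} (hx : x ∈ (chartAt En a).source)
    (h : R.NC x v) : ∃ σ, Bd R a x v σ := by
  have hs := hS.sm a (chartAt En a x, D a x v) ((chartAt En a).map_source hx)
  have hb : R.exc a (chartAt En a x, D a x v) ∈ (chartAt En (R.ex x v)).source := by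
    rw [exc_lift hx]; exact mem_chart_source _ _
  obtain ⟨σ, h1, h2, h3, h4⟩ := solve (hs.2 _ hb) ((nc_iff hS hx (mem_chart_source _ _)).1 h)
  simp only [exc_lift hx] at h1 h2 h3
  refine ⟨σ, h1, h2, ?_, ?_⟩
  · have t : Tendsto (fun s : En × En => (s.1, σ s))
        (𝓝 (chartAt En a x, chartAt En (R.ex x v) (R.ex x v))) (𝓝 (chartAt En a x, D a x v)) := by
      rw [← h2]; exact continuousAt_fst.prodMk h1.continuousAt
    filter_upwards [h3, t.eventually (hs.1.eventually_mem
      ((chartAt En (R.ex x v)).open_source.mem_nhds hb))] with s a1 a2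
    rw [← a1, (chartAt En (R.ex x v)).left_inv a2]
  · filter_upwards [(lift_ev hT hx v).1, (lift_ev hT hx v).2.eventually h4] with p a1 a2
    refine ⟨a1, ?_⟩
    rw [← exc_lift a1]
    exact a2

lemma ncopen (hS : R.Sm) (hT : R.Top) : IsOpen {p : TM M | R.NC p.proj (tv p)} := by
  refine isOpen_iff_mem_nhds.2 fun p hp => ?_
  have hx := mem_chart_source En p.proj
  have hs := hS.sm p.proj (_, D p.proj p.proj (tv p)) ((chartAt En p.proj).map_source hx)
  have hb : R.exc p.proj (chartAt En p.proj p.proj, D p.proj p.proj (tv p)) ∈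
      (chartAt En (R.ex p.proj (tv p))).source := by
    rw [exc_lift hx]; exact mem_chart_source _ _
  have h1 := inj_ev (hs.2 _ hb) ((nc_iff hS hx (mem_chart_source _ _)).1 hp)
  filter_upwards [(lift_ev hT hx (tv p)).1, (lift_ev hT hx (tv p)).2.eventually h1,
    hT.cex.continuousAt.eventually_mem ((chartAt En (R.ex p.proj (tv p))).open_source.mem_nhds
      (mem_chart_source _ _))] with q a1 a2 a3
  exact (nc_iff hS a1 a3).2 a2

lemma linj (hS : R.Sm) (hT : R.Top) (p : TM M) (h : R.NC p.proj (tv p)) :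
    ∃ N ∈ 𝓝 p, ∀ z v w, tm z v ∈ N → tm z w ∈ N → R.ex z v = R.ex z w → v = w := by
  obtain ⟨σ, hσ⟩ := branch hS hT (mem_chart_source En p.proj) h
  refine ⟨_, hσ.lf, fun z v w h1 h2 e => (R.cf.bij p.proj z h1.1).1 ?_⟩
  have a1 : σ (chartAt En p.proj z, chartAt En _ (R.ex z v)) = D p.proj z v := h1.2
  have a2 : σ (chartAt En p.proj z, chartAt En _ (R.ex z w)) = D p.proj z w := h2.2
  rw [← a1, ← a2, e]

lemma mclose (hT : R.Top) {x : M} {v : En} (h : R.Good x v) {N : Set (TM M)}
    (hN : N ∈ 𝓝 (tm x v)) : ∀ᶠ s : M × M in 𝓝 (x, R.ex x v),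
      ∀ w ∈ R.Ib s.1, R.ex s.1 w = s.2 → tm s.1 w ∈ N := by
  obtain ⟨N', h1, h2, h3⟩ := mem_nhds_iff.1 hN
  have hK : IsCompact (({p : TM M | R.nr p.proj (tv p) ≤ R.nr x v + 1} ∩
      {p | dist p.proj (R.ex p.proj (tv p)) = R.nr p.proj (tv p)}) \ N') :=
    ((hT.cpt _).inter_right (isClosed_eq (hT.cproj.dist hT.cex) hT.cnr)).diff h2
  have hC := (hK.image (hT.cproj.prodMk hT.cex)).isClosed.isOpen_compl.mem_nhds
    (x := (x, R.ex x v)) (by
      rintro ⟨⟨z, w⟩, ⟨⟨_, a2⟩, a3⟩, a4⟩
      obtain rfl : z = x := (Prod.ext_iff.1 a4).1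
      have e : w = v := h.2.2 w a2 (Prod.ext_iff.1 a4).2
      exact a3 (by rw [e]; exact h3))
  have hD : ∀ᶠ s : M × M in 𝓝 (x, R.ex x v), dist s.1 s.2 < R.nr x v + 1 :=
    (continuous_fst.dist continuous_snd).continuousAt.eventually_lt continuousAt_const
      (by have : dist x (R.ex x v) = R.nr x v := h.2.1
          simp only [this]; linarith)
  filter_upwards [hC, hD] with s a1 a2 w hw e
  by_contra hn
  have hw' : dist s.1 (R.ex s.1 w) = R.nr s.1 w := hw
  refine a1 ⟨tm s.1 w, ⟨⟨?_, hw⟩, fun k => hn (h1 k)⟩, Prod.ext rfl e⟩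
  change R.nr s.1 w ≤ _
  rw [← hw', e]; exact a2.le

lemma gopen (hS : R.Sm) (hT : R.Top) (hN : R.Near) :
    IsOpen {p : TM M | R.Good p.proj (tv p)} := by
  refine isOpen_iff_mem_nhds.2 fun p hp => ?_
  obtain ⟨N, h1, h2⟩ := linj hS hT p hp.1
  filter_upwards [(ncopen hS hT).mem_nhds hp.1, h1,
    (hT.cproj.prodMk hT.cex).continuousAt.eventually (mclose hT hp h1)] with q a1 a2 a3
  obtain ⟨w, b1, b2⟩ := hN.hr q.proj (R.ex q.proj (tv q))
  have e : w = tv q := h2 _ _ _ (a3 w b1 b2) a2 b2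
  exact ⟨a1, e ▸ b1, fun w' c1 c2 => h2 _ _ _ (a3 w' c1 c2) a2 c2⟩

lemma en_sm {a x : M} {v : En} {σ : En × En → En} (hx : x ∈ (chartAt En a).source)
    (hσ : Bd R a x v σ) : ContDiffAt ℝ ∞ (fun s : En × En => locB R.g a s.1 (σ s) (σ s) / 2)
      (chartAt En a x, chartAt En (R.ex x v) (R.ex x v)) := by
  have h1 : ContDiffAt ℝ ∞ (locB R.g a) (chartAt En a x) :=
    (R.cf.cm a).smooth.contDiffAt ((chartAt En a).open_target.mem_nhds
      ((chartAt En a).map_source hx))
  have h2 := ContDiffAt.comp (g := locB R.g a) (f := Prod.fst)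
    (chartAt En a x, chartAt En (R.ex x v) (R.ex x v)) h1 contDiffAt_fst
  exact ((h2.clm_apply hσ.sm).clm_apply hσ.sm).div_const 2

lemma sm2 (hS : R.Sm) (hT : R.Top) (hN : R.Near) {a x : M} {v : En}
    (hx : x ∈ (chartAt En a).source) (h : R.Good x v) : ContDiffAt ℝ ∞
      (fun s : En × En => cst ((chartAt En a).symm s.1) ((chartAt En (R.ex x v)).symm s.2))
      (chartAt En a x, chartAt En (R.ex x v) (R.ex x v)) := by
  obtain ⟨σ, hσ⟩ := branch hS hT hx h.1
  refine (en_sm hx hσ).congr_of_eventuallyEq ?_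
  have t1 := (chartAt En a).map_source hx
  have t2 := mem_chart_target En (R.ex x v)
  have t : Tendsto (fun s : En × En => ((chartAt En a).symm s.1, (chartAt En (R.ex x v)).symm s.2))
      (𝓝 (chartAt En a x, chartAt En (R.ex x v) (R.ex x v))) (𝓝 (x, R.ex x v)) := by
    have := (((chartAt En a).continuousAt_symm t1).comp_of_eq (f := Prod.fst)
      (x := (chartAt En a x, chartAt En (R.ex x v) (R.ex x v))) continuousAt_fst rfl).prodMk
      (((chartAt En (R.ex x v)).continuousAt_symm t2).comp_of_eq (f := Prod.snd)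
        continuousAt_snd rfl)
    simpa only [ContinuousAt, Function.comp_def, (chartAt En a).left_inv hx,
      (chartAt En (R.ex x v)).left_inv (mem_chart_source _ _)] using this
  filter_upwards [t.eventually (mclose hT h hσ.lf),
    continuousAt_fst.eventually_mem ((chartAt En a).open_target.mem_nhds t1),
    continuousAt_snd.eventually_mem ((chartAt En (R.ex x v)).open_target.mem_nhds t2)]
    with s a1 a2 a3
  obtain ⟨w, b1, b2⟩ := hN.hr ((chartAt En a).symm s.1) ((chartAt En (R.ex x v)).symm s.2)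
  obtain ⟨c1, c2⟩ := a1 w b1 b2
  have c3 : σ (chartAt En a ((chartAt En a).symm s.1), chartAt En (R.ex x v)
    (R.ex ((chartAt En a).symm s.1) w)) = D a ((chartAt En a).symm s.1) w := c2
  have c4 := R.cf.pull a _ c1 w w
  have b1' : dist _ (R.ex _ w) = R.nr _ w := b1
  rw [b2, (chartAt En a).right_inv a2, (chartAt En (R.ex x v)).right_inv a3] at c3
  change locB R.g a (chartAt En a ((chartAt En a).symm s.1)) (D a ((chartAt En a).symm s.1) w)
    (D a ((chartAt En a).symm s.1) w) = R.g ((chartAt En a).symm s.1) w w at c4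
  rw [(chartAt En a).right_inv a2] at c4
  rw [cst, ← b2, b1', Riem.nr, Real.sq_sqrt (Cv.gnn R.cf _ _), ← c4, ← c3]

lemma ex_zero (h1 : R.Near1) (x : M) : R.ex x 0 = x := by
  have h := h1.up x 0 1 0
  rw [(R.fam x 0).2.1, Riem.nr] at h
  simp only [map_zero, Real.sqrt_zero, mul_zero] at h
  exact dist_le_zero.1 h

lemma theta (hS : R.Sm) (h1 : R.Near1) {a x : M} (hx : x ∈ (chartAt En a).source) (v : En) :
    ContDiffAt ℝ ∞ (fun w : En × En × En => (chartAt En a (R.exc a (w.1, w.2.2)),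
      chartAt En (R.ex x v) (R.exc a (w.1, w.2.1)))) (chartAt En a x, D a x v, 0) ∧
    R.exc a (chartAt En a x, 0) = x ∧
    ∀ᶠ w : En × En × En in 𝓝 (chartAt En a x, D a x v, 0),
      R.exc a (w.1, w.2.2) ∈ (chartAt En a).source ∧
        R.exc a (w.1, w.2.1) ∈ (chartAt En (R.ex x v)).source := by
  have t1 := (chartAt En a).map_source hx
  have e0 : R.exc a (chartAt En a x, 0) = x := by
    rw [← map_zero (D a x), exc_lift hx, ex_zero h1]
  have s1 := hS.sm a (chartAt En a x, 0) t1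
  have s2 := hS.sm a (chartAt En a x, D a x v) t1
  have m1 : R.exc a (chartAt En a x, 0) ∈ (chartAt En a).source := by rw [e0]; exact hx
  have m2 : R.exc a (chartAt En a x, D a x v) ∈ (chartAt En (R.ex x v)).source := by
    rw [exc_lift hx]; exact mem_chart_source _ _
  have c1 : ContDiffAt ℝ ∞ (fun w : En × En × En => (w.1, w.2.2)) (chartAt En a x, D a x v, 0) := by
    fun_prop
  have c2 : ContDiffAt ℝ ∞ (fun w : En × En × En => (w.1, w.2.1)) (chartAt En a x, D a x v, 0) := by
    fun_prop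
  have d1 := ContDiffAt.comp (f := fun w : En × En × En => (w.1, w.2.2)) _ (s1.2 a m1) c1
  have d2 := ContDiffAt.comp (f := fun w : En × En × En => (w.1, w.2.1)) _ (s2.2 _ m2) c2
  exact ⟨d1.prodMk d2, e0,
    (c1.continuousAt.eventually (s1.1.eventually_mem ((chartAt En a).open_source.mem_nhds m1))).and
    (c2.continuousAt.eventually (s2.1.eventually_mem ((chartAt En _).open_source.mem_nhds m2)))⟩

lemma smc (hS : R.Sm) (hT : R.Top) (h1 : R.Near1) (hN : R.Near) {a x : M} {v : En}
    (hx : x ∈ (chartAt En a).source) (h : R.Good x v) :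
    ContDiffAt ℝ ∞ (R.Cc a) (chartAt En a x, D a x v, 0) := by
  obtain ⟨k1, k2, k3⟩ := theta hS h1 hx v
  refine (ContDiffAt.comp _ (by simpa only [k2, exc_lift hx] using sm2 hS hT hN hx h)
    k1).congr_of_eventuallyEq ?_
  filter_upwards [k3] with w hw
  simp only [Function.comp_apply, (chartAt En a).left_inv hw.1, (chartAt En _).left_inv hw.2,
    Riem.Cc]

lemma br (hS : R.Sm) (hT : R.Top) (h1 : R.Near1) {a x : M} {v : En}
    (hx : x ∈ (chartAt En a).source) (h : R.NC x v) : ∃ B : En × En × En → ℝ,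
    ContDiffAt ℝ ∞ B (chartAt En a x, D a x v, 0) ∧
    ∀ N ∈ 𝓝 (tm x v), ∀ᶠ w in 𝓝 ((chartAt En a x, D a x v, 0) : En × En × En),
      ∃ v', tm (R.exc a (w.1, w.2.2)) v' ∈ N ∧
        R.ex (R.exc a (w.1, w.2.2)) v' = R.exc a (w.1, w.2.1) ∧
        B w = R.nr (R.exc a (w.1, w.2.2)) v' ^ 2 / 2 := by
  obtain ⟨σ, hσ⟩ := branch hS hT hx h
  obtain ⟨k1, k2, k3⟩ := theta hS h1 hx v
  refine ⟨_, ContDiffAt.comp _ (by simpa only [k2, exc_lift hx] using en_sm hx hσ) k1,
    fun N hN => ?_⟩
  have t := k1.continuousAt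
  simp only [ContinuousAt, k2, exc_lift hx] at t
  have t2 : Tendsto (fun s : En × En => unl a (s.1, σ s))
      (𝓝 (chartAt En a x, chartAt En (R.ex x v) (R.ex x v))) (𝓝 (tm x v)) := by
    have u1 : ContinuousAt (unl a) (chartAt En a x, D a x v) := (hT.cunl a).continuousAt
      (continuousAt_fst.eventually_mem ((chartAt En a).open_target.mem_nhds
        ((chartAt En a).map_source hx)))
    have u2 : unl a (chartAt En a x, D a x v) = tm x v := by
      unfold unl
      simp only
      rw [Bm.DiD hx, (chartAt En a).left_inv hx]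
    rw [← u2]
    refine u1.tendsto.comp ?_
    rw [← hσ.pt]
    exact continuousAt_fst.prodMk hσ.sm.continuousAt
  filter_upwards [k3, t.eventually hσ.rt, t.eventually (t2.eventually_mem hN)] with w a1 a2 a3
  rw [Function.comp_apply]
  generalize R.exc a (w.1, w.2.2) = z at a1 a2 a3 ⊢
  generalize R.exc a (w.1, w.2.1) = y at a1 a2 a3 ⊢
  simp only [unl, Riem.exc, (chartAt En _).left_inv a1.2, (chartAt En a).left_inv a1.1] at a2 a3
  refine ⟨_, a3, a2, ?_⟩
  rw [Riem.nr, Real.sq_sqrt (Cv.gnn R.cf _ _)]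
  simp only [locB, ContinuousLinearMap.bilinearComp_apply, (chartAt En a).left_inv a1.1]

end Brx

theorem brStmt : BrStmt := fun _ _ _ _ _ _ R hS hT h1 hN =>
  ⟨Brx.ncopen hS hT, Brx.linj hS hT, Brx.gopen hS hT hN,
    fun _ _ _ hx h => Brx.smc hS hT h1 hN hx h,
    fun x _ h => Brx.sm2 hS hT hN (mem_chart_source En x) h,
    fun x v h => by
      have k := Brx.br hS hT h1 (mem_chart_source En x) h
      rw [R.cf.self] at k
      exact k⟩

end Vale.Agent.P234
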