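import Vale.Agent.P234.Spec

/-! Module D of P234: bridge to the Riemannian distance of Mathlib. -/

open scoped Manifold ContDiff Topology
open Set Filter MeasureTheory Manifold

namespace Vale.Agent.P234
open Vale.Agent.P255 (Metric ip)

variable [Dim]

namespace Dm

lemma near {G : En → Bil} {Ω : Set En} (h : CM G Ω) {y : En} (hy : y ∈ Ω) {ε : ℝ} (hε : 0 < ε) :
    ∀ᶠ z in 𝓝 y, ∀ v, √(G z v v) ≤ (1 + ε) * √(G y v v) := by
  obtain ⟨u, hu, hm⟩ := (isCompact_sphere (0 : En) 1).exists_isMinOn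
    (NormedSpace.sphere_nonempty.2 zero_le_one) (f := fun v => G y v v) (by fun_prop)
  have hu0 : u ≠ 0 := by
    rintro rfl
    simp at hu
  have hc := h.pos y hy u hu0
  have low : ∀ v, G y u u * ‖v‖ ^ 2 ≤ G y v v := by
    intro v
    by_cases hv : v = 0
    · simp [hv]
    have hn : 0 < ‖v‖ := norm_pos_iff.2 hv
    have : G y u u ≤ G y (‖v‖⁻¹ • v) (‖v‖⁻¹ • v) :=
      hm (a := ‖v‖⁻¹ • v) (by simp [norm_smul, hn.ne'])
    simp only [map_smul, smul_apply, smul_eq_mul] at this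
    calc G y u u * ‖v‖ ^ 2 ≤ ‖v‖⁻¹ * (‖v‖⁻¹ * G y v v) * ‖v‖ ^ 2 := by gcongr
      _ = _ := by field_simp
  have c := (h.smooth.continuousOn.continuousAt (h.isOpen.mem_nhds hy)).eventually
    (Metric.ball_mem_nhds (G y) (mul_pos hε hc))
  filter_upwards [c] with z hz v
  replace hz : ‖G z - G y‖ < ε * G y u u := (dist_eq_norm (G z) (G y)).symm.trans_lt hz
  have h1 := (G z - G y).le_opNorm₂ v v
  simp only [sub_apply, Real.norm_eq_abs] at h1
  have h2 := le_abs_self (G z v v - G y v v)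
  have h3 := mul_le_mul_of_nonneg_right hz.le (mul_self_nonneg ‖v‖)
  have h4 := mul_le_mul_of_nonneg_left (low v) hε.le
  have h5 : 0 ≤ G y v v := le_trans (by positivity) (low v)
  rw [← Real.sqrt_sq (by linarith : 0 ≤ 1 + ε), ← Real.sqrt_mul (sq_nonneg _)]
  refine Real.sqrt_le_sqrt ?_
  nlinarith [mul_nonneg hε.le h5, mul_nonneg (mul_nonneg hε.le hε.le) h5]

variable {M : Type} [TopologicalSpace M] [ChartedSpace En M] [IsManifold 𝓘(ℝ, En) ∞ M]
  {g : M → Bil}

/-- speed of a curve -/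
noncomputable def sp (g : M → Bil) (γ : ℝ → M) (s : ℝ) : ℝ :=
  √(un g (γ s) (mfderiv 𝓘(ℝ, ℝ) 𝓘(ℝ, En) γ s 1) (mfderiv 𝓘(ℝ, ℝ) 𝓘(ℝ, En) γ s 1))

lemma sp_eq (h : ChartFacts g) {γ : ℝ → M} {s : ℝ} (hγ : MDifferentiableAt 𝓘(ℝ, ℝ) 𝓘(ℝ, En) γ s)
    {a : M} (ha : γ s ∈ (chartAt En a).source) :
    sp g γ s = √(locB g a (chartAt En a (γ s)) (deriv (fun r => chartAt En a (γ r)) s)
      (deriv (fun r => chartAt En a (γ r)) s)) := by
  have h1 := mfderiv_comp s ((mdifferentiable_chart (I := 𝓘(ℝ, En)) a).mdifferentiableAt ha) hγ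
  rw [mfderiv_eq_fderiv] at h1
  have h2 : deriv (fun r => chartAt En a (γ r)) s =
      D a (γ s) (mfderiv 𝓘(ℝ, ℝ) 𝓘(ℝ, En) γ s 1) := congrArg (fun L => L 1) h1
  rw [h2]
  exact congrArg Real.sqrt (h.pull a _ ha _ _).symm

omit [IsManifold 𝓘(ℝ, En) ∞ M] in
lemma loc_self (h : ChartFacts g) (p : M) (v : En) : locB g p (chartAt En p p) v v = g p v v := by
  have := h.pull p p (mem_chart_source En p) v v
  rwa [h.self] at this

lemma chart_c1 {γ : ℝ → M} (hγ : ContMDiff 𝓘(ℝ, ℝ) 𝓘(ℝ, En) 1 γ) {s : ℝ} {a : M}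
    (ha : γ s ∈ (chartAt En a).source) : ContDiffAt ℝ 1 (fun r => chartAt En a (γ r)) s :=
  contMDiffAt_iff_contDiffAt.1 (((contMDiffOn_chart (I := 𝓘(ℝ, En)) (n := 1)).contMDiffAt
    ((chartAt En a).open_source.mem_nhds ha)).comp s (hγ s))

lemma sp_cont (h : ChartFacts g) {γ : ℝ → M} (hγ : ContMDiff 𝓘(ℝ, ℝ) 𝓘(ℝ, En) 1 γ) :
    Continuous (sp g γ) := by
  refine continuous_iff_continuousAt.2 fun s => ?_
  have ha := mem_chart_source En (γ s)
  have c1 := chart_c1 hγ ha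
  have c2 : ContinuousAt (deriv fun r => chartAt En (γ s) (γ r)) s :=
    ((c1.fderiv_right (m := 0) le_rfl).continuousAt.clm_apply continuousAt_const)
  have c3 := ((h.cm (γ s)).smooth.continuousOn.continuousAt ((chartAt En (γ s)).open_target.mem_nhds
    (mem_chart_target En (γ s)))).comp (f := fun r => chartAt En (γ s) (γ r)) c1.continuousAt
  refine (((c3.clm_apply c2).clm_apply c2).sqrt).congr ?_
  filter_upwards [hγ.continuous.continuousAt.preimage_mem_nhds
    ((chartAt En (γ s)).open_source.mem_nhds ha)] with r hr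
  exact (sp_eq h (hγ.mdifferentiable one_ne_zero r) hr).symm

lemma dini (h : ChartFacts g) {ψ : M → ℝ} (hψ : ∀ p : M, ∀ ε > 0, ∀ᶠ q in 𝓝 p, ψ q - ψ p ≤
      (1 + ε) * √(g p (chartAt En p q - chartAt En p p) (chartAt En p q - chartAt En p p)))
    (hc : Continuous ψ) {γ : ℝ → M} (hγ : ContMDiff 𝓘(ℝ, ℝ) 𝓘(ℝ, En) 1 γ) :
    ψ (γ 1) - ψ (γ 0) ≤ ∫ s in (0 : ℝ)..1, sp g γ s := by
  have hs := sp_cont h hγ
  have key := image_le_of_liminf_slope_right_le_deriv_boundary (f := fun s => ψ (γ s)) (a := 0)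
    (b := 1) (hc.comp hγ.continuous).continuousOn
    (B := fun t => ψ (γ 0) + ∫ s in (0 : ℝ)..t, sp g γ s) (B' := sp g γ) (by simp)
    (fun t _ => ((intervalIntegral.integral_hasDerivAt_right
      (hs.intervalIntegrable 0 t) (hs.stronglyMeasurableAtFilter _ _)
      hs.continuousAt).const_add _).continuousAt.continuousWithinAt)
    (fun t _ => ((intervalIntegral.integral_hasDerivAt_right
      (hs.intervalIntegrable 0 t) (hs.stronglyMeasurableAtFilter _ _)
      hs.continuousAt).const_add _).hasDerivWithinAt) ?_ (right_mem_Icc.2 zero_le_one)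
  · linarith
  intro s _ r hr
  have ha := mem_chart_source En (γ s)
  have h0 : 0 ≤ sp g γ s := Real.sqrt_nonneg _
  have hε : 0 < (r - sp g γ s) / (sp g γ s + 1) := div_pos (by linarith) (by linarith)
  have hlt : (1 + (r - sp g γ s) / (sp g γ s + 1)) * sp g γ s < r := by
    have : (r - sp g γ s) / (sp g γ s + 1) * (sp g γ s + 1) = r - sp g γ s := by field_simp
    nlinarith
  generalize (r - sp g γ s) / (sp g γ s + 1) = ε at hε hlt
  have t1 := (hasDerivAt_iff_tendsto_slope.1 ((chart_c1 hγ ha).differentiableAt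
    one_ne_zero).hasDerivAt).mono_left (nhdsGT_le_nhdsNE s)
  have t2 := (((show Continuous fun v : En => (1 + ε) * √(g (γ s) v v) by fun_prop).tendsto _).comp
    t1).eventually (gt_mem_nhds (by
      rwa [sp_eq h (hγ.mdifferentiable one_ne_zero s) ha, loc_self h] at hlt))
  have t3 := (hγ.continuous.tendsto s).eventually (hψ (γ s) ε hε)
  refine Eventually.frequently ?_
  filter_upwards [t2, nhdsWithin_le_nhds t3, self_mem_nhdsWithin] with z z1 z2 z3
  have hz : 0 < z - s := sub_pos.2 z3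
  refine lt_of_le_of_lt ?_ z1
  simp only [Function.comp, slope_def_module, map_smul, smul_apply,
    smul_eq_mul]
  rw [← mul_assoc, Real.sqrt_mul (mul_self_nonneg _), Real.sqrt_mul_self (inv_pos.2 hz).le,
    mul_left_comm]
  exact mul_le_mul_of_nonneg_left z2 (inv_pos.2 hz).le

omit [IsManifold 𝓘(ℝ, En) ∞ M] in
lemma psi_cont {ψ : M → ℝ} (hψ : ∀ p : M, ∀ ε > 0, ∀ᶠ q in 𝓝 p, |ψ q - ψ p| ≤
      (1 + ε) * √(g p (chartAt En p q - chartAt En p p) (chartAt En p q - chartAt En p p))) :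
    Continuous ψ := by
  refine continuous_iff_continuousAt.2 fun p => tendsto_iff_norm_sub_tendsto_zero.2
    (squeeze_zero' (Eventually.of_forall fun _ => norm_nonneg _) (hψ p 1 one_pos) ?_)
  have c : ContinuousAt (chartAt En p) p := (chartAt En p).continuousAt (mem_chart_source En p)
  have := (show ContinuousAt (fun q => (1 + 1 : ℝ) * √(g p (chartAt En p q - chartAt En p p)
    (chartAt En p q - chartAt En p p))) p by fun_prop).tendsto
  simpa using this

variable [∀ x : M, ENorm (TangentSpace 𝓘(ℝ, En) x)]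

lemma len_eq (h : ChartFacts g)
    (hn : ∀ x (v : TangentSpace 𝓘(ℝ, En) x), ‖v‖ₑ = ENNReal.ofReal √(un g x v v))
    {γ : ℝ → M} (hγ : ContMDiff 𝓘(ℝ, ℝ) 𝓘(ℝ, En) 1 γ) :
    pathELength 𝓘(ℝ, En) γ 0 1 = ENNReal.ofReal (∫ s in (0 : ℝ)..1, sp g γ s) := by
  rw [pathELength_eq_lintegral_mfderiv_Icc, intervalIntegral.integral_of_le zero_le_one,
    ← integral_Icc_eq_integral_Ioc, ofReal_integral_eq_lintegral_ofReal
      ((sp_cont h hγ).continuousOn.integrableOn_Icc)
      (Eventually.of_forall fun _ => Real.sqrt_nonneg _)]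
  exact lintegral_congr fun s => hn _ _

lemma lip (h : ChartFacts g)
    (hn : ∀ x (v : TangentSpace 𝓘(ℝ, En) x), ‖v‖ₑ = ENNReal.ofReal √(un g x v v))
    [∀ x : M, ENormSMulClass ℝ (TangentSpace 𝓘(ℝ, En) x)]
    {ψ : M → ℝ} (hψ : ∀ p : M, ∀ ε > 0, ∀ᶠ q in 𝓝 p, |ψ q - ψ p| ≤
      (1 + ε) * √(g p (chartAt En p q - chartAt En p p) (chartAt En p q - chartAt En p p)))
    (x y : M) : ENNReal.ofReal |ψ x - ψ y| ≤ riemannianEDist 𝓘(ℝ, En) x y := by
  refine le_of_forall_gt fun r hr => ?_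
  obtain ⟨γ, rfl, rfl, hγ, hl, -⟩ := exists_lt_locally_constant_of_riemannianEDist_lt hr zero_lt_one
  refine lt_of_le_of_lt ?_ hl
  rw [len_eq h hn hγ]
  have hc := psi_cont hψ
  have h1 := dini h (fun p ε hε => (hψ p ε hε).mono fun q hq => (le_abs_self _).trans hq) hc hγ
  have h2 := dini h (ψ := fun q => -ψ q) (fun p ε hε => (hψ p ε hε).mono fun q hq => by
    linarith [neg_abs_le (ψ q - ψ p)]) hc.neg hγ
  exact ENNReal.ofReal_le_ofReal (abs_le.2 ⟨by linarith, by linarith⟩)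

lemma ld (h : ChartFacts g)
    (hn : ∀ x (v : TangentSpace 𝓘(ℝ, En) x), ‖v‖ₑ = ENNReal.ofReal √(un g x v v))
    [∀ x : M, ENormSMulClass ℝ (TangentSpace 𝓘(ℝ, En) x)] (p : M) {ε : ℝ} (hε : 0 < ε) :
    ∀ᶠ q in 𝓝 p, riemannianEDist 𝓘(ℝ, En) p q ≤ ENNReal.ofReal ((1 + ε) *
      √(g p (chartAt En p q - chartAt En p p) (chartAt En p q - chartAt En p p))) := by
  have hp := mem_chart_target En p
  obtain ⟨r, hr, hB⟩ := Metric.mem_nhds_iff.1 (inter_mem
    ((chartAt En p).open_target.mem_nhds hp) (near (h.cm p) hp hε))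
  filter_upwards [((chartAt En p).continuousAt (mem_chart_source En p)).preimage_mem_nhds
    (Metric.ball_mem_nhds _ hr), chart_source_mem_nhds En p] with q hq hq'
  set w := chartAt En p q - chartAt En p p with hw
  set η : ℝ → En := fun t => chartAt En p p + t • w with hη
  have hin : ∀ t ∈ Icc (0 : ℝ) 1, η t ∈ Metric.ball (chartAt En p p) r := fun t ht =>
    (convex_ball _ _).add_smul_sub_mem (Metric.mem_ball_self hr) hq ht
  have hs : ContDiff ℝ 1 η := by rw [hη]; fun_prop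
  have hγ : ∀ t ∈ Icc (0 : ℝ) 1,
      ContMDiffAt 𝓘(ℝ, ℝ) 𝓘(ℝ, En) 1 (fun t => (chartAt En p).symm (η t)) t := fun t ht =>
    ((contMDiffOn_chart_symm (I := 𝓘(ℝ, En)) (n := 1)).contMDiffAt
      ((chartAt En p).open_target.mem_nhds (hB (hin t ht)).1)).comp t hs.contMDiff.contMDiffAt
  refine (riemannianEDist_le_pathELength (γ := fun t => (chartAt En p).symm (η t))
    (fun t ht => (hγ t ht).contMDiffWithinAt) (by simp [hη]) (by simp [hη, hw, hq'])
    zero_le_one).trans ?_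
  rw [pathELength_eq_lintegral_mfderiv_Icc]
  refine (setLIntegral_mono' measurableSet_Icc (g := fun _ => ENNReal.ofReal
    ((1 + ε) * √(g p w w))) fun t ht => ?_).trans (by simp)
  have h1 := (hB (hin t ht)).1
  have e : (fun s => chartAt En p ((chartAt En p).symm (η s))) =ᶠ[𝓝 t] η := by
    filter_upwards [hs.continuous.continuousAt.preimage_mem_nhds
      ((chartAt En p).open_target.mem_nhds h1)] with s hs using (chartAt En p).right_inv hs
  have e2 : deriv η t = w :=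
    (((hasDerivAt_id' t).smul_const w).const_add (chartAt En p p)).deriv.trans (one_smul _ _)
  have h2 := sp_eq h ((hγ t ht).mdifferentiableAt one_ne_zero) ((chartAt En p).map_target h1)
  rw [e.deriv_eq, e2, (chartAt En p).right_inv h1] at h2
  rw [hn]
  refine ENNReal.ofReal_le_ofReal (le_of_eq_of_le h2 ?_)
  rw [← loc_self h p w]
  exact (hB (hin t ht)).2 w

end Dm

open scoped Bundle in
theorem dStmt : DStmt := by
  intro M t _ _ _ _ _ g g' hg h
  let _ : Bundle.RiemannianBundle (fun x : M => TangentSpace 𝓘(ℝ, En) x) := ⟨g.toRiemannianMetric⟩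
  have : IsContinuousRiemannianBundle En (fun x : M => TangentSpace 𝓘(ℝ, En) x) :=
    ⟨⟨g.inner, g.toContinuousRiemannianMetric.continuous, fun _ _ _ => rfl⟩⟩
  have hn : ∀ x (v : TangentSpace 𝓘(ℝ, En) x), ‖v‖ₑ = ENNReal.ofReal √(un g' x v v) := by
    intro x v
    rw [hg, ← ofReal_norm, norm_eq_sqrt_real_inner]
    rfl
  let e : EMetricSpace M := EMetricSpace.ofRiemannianMetric 𝓘(ℝ, En) M
  have fin : ∀ x y : M, edist x y ≠ ⊤ := by
    intro x y
    have hc : IsClopen (Metric.eball y ⊤) := ⟨Metric.isClosed_eball_top, Metric.isOpen_eball⟩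
    have : x ∈ Metric.eball y ⊤ := by
      rw [hc.eq_univ ⟨y, Metric.mem_eball_self ENNReal.zero_lt_top⟩]
      trivial
    exact (Metric.mem_eball.1 this).ne
  refine ⟨EMetricSpace.toMetricSpace fin, rfl, fun _ _ => rfl, fun p ε hε => ?_,
    fun ψ hψ x y => ?_⟩
  · filter_upwards [Dm.ld h hn p hε] with q hq
    exact ENNReal.toReal_le_of_le_ofReal (by positivity) hq
  · exact (ENNReal.ofReal_le_iff_le_toReal (fin x y)).1 (Dm.lip h hn hψ x y)

end Vale.Agent.P234
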