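import Vale.Agent.P255.Defs

open scoped Manifold ContDiff Bundle

namespace Vale.Agent.P234
open Vale.Agent.P255

variable {E : Type} [NormedAddCommGroup E] [NormedSpace ℝ E]
  {M : Type} [TopologicalSpace M] [ChartedSpace E M] [IsManifold 𝓘(ℝ, E) ∞ M]

/-- Riemannian distance (Mathlib's infimum of lengths of `C^1` paths). -/
noncomputable def rdist (g : Metric E M) (x y : M) : ℝ :=
  letI : Bundle.RiemannianBundle (fun x : M => TangentSpace 𝓘(ℝ, E) x) := ⟨g.toRiemannianMetric⟩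
  (Manifold.riemannianEDist 𝓘(ℝ, E) x y).toReal

/-- `γ` is the geodesic with `γ 0 = x` and initial velocity `v`. -/
def IsGeodesicFrom (g : Metric E M) (x : M) (v : TangentSpace 𝓘(ℝ, E) x) (γ : ℝ → M) : Prop :=
  IsGeodesic (ip g) γ ∧ γ 0 = x ∧
    deriv (fun r => chartAt E x (γ r)) 0 = mfderiv 𝓘(ℝ, E) 𝓘(ℝ, E) (chartAt E x) x v

/-- The exponential map. -/
noncomputable def expm (g : Metric E M) (x : M) (v : TangentSpace 𝓘(ℝ, E) x) : M :=
  haveI : Nonempty M := ⟨x⟩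
  Classical.epsilon (IsGeodesicFrom g x v) 1

/-- The cost `d(x,y)^2/2`. -/
noncomputable def cost (g : Metric E M) (x y : M) : ℝ := rdist g x y ^ 2 / 2

/-- The tangent injectivity domain `I(x)`. -/
def injDom (g : Metric E M) (x : M) : Set (TangentSpace 𝓘(ℝ, E) x) :=
  {v | ∃ a : ℝ, 1 < a ∧ rdist g x (expm g x (a • v)) = a * √(ip g x v v)}

/-- The Ma-Trudinger-Wang tensor. -/
noncomputable def mtw (g : Metric E M) (x : M) (v ξ η : TangentSpace 𝓘(ℝ, E) x) : ℝ :=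
  -(3 / 2) * iteratedDeriv 2 (fun s : ℝ =>
    iteratedDeriv 2 (fun t : ℝ => cost g (expm g x (t • ξ)) (expm g x (v + s • η))) 0) 0

/-- The weak MTW condition. -/
def WeakMTW (g : Metric E M) : Prop :=
  ∀ (x : M), ∀ v ∈ injDom g x, ∀ ξ η : TangentSpace 𝓘(ℝ, E) x, ip g x ξ η = 0 → 0 ≤ mtw g x v ξ η

/-- Every injectivity domain is convex. -/
def ConvexInjDoms (g : Metric E M) : Prop := ∀ x : M, Convex ℝ (injDom g x)

/-- The model space `ℝ^n`. -/
abbrev Eu (n : ℕ) : Type := EuclideanSpace ℝ (Fin n)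

end Vale.Agent.P234
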