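import Vale.Agent.P234.Base

/-! Module F: no conjugate point on a minimizing segment with non-conjugate ends. -/

open scoped Manifold ContDiff Topology
open Set Filter

namespace Vale.Agent.P234

namespace Fx

/-- the triangle with vertices `0`, `(1, -l)`, `(1, u)` -/
def Tr (l u β r : ℝ) : Prop := 0 < β ∧ β < 1 ∧ -(l * β) ≤ r ∧ r ≤ u * β

lemma small {a b l u C α₀ c K : ℝ} (ha : 0 < a) (hb : 0 < b) (hl : 0 < l) (hu : 0 < u)
    (hα : α₀ < 1) (hc : 0 < c) : ∃ δ : ℝ, 0 < δ ∧ δ ≤ 1 / 2 ∧ δ ≤ u ∧ δ * a / b ≤ l ∧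
      α₀ < 1 - δ ^ 2 / 2 ∧ δ * K < (a / b) ^ 2 * (c + δ ^ 2 * (b - C)) := by
  have lt : ∀ f g : ℝ → ℝ, Continuous f → Continuous g → f 0 < g 0 →
      ∀ᶠ δ in 𝓝[>] (0 : ℝ), f δ < g δ := fun f g hf hg h =>
    (hf.continuousAt.eventually_lt hg.continuousAt h).filter_mono nhdsWithin_le_nhds
  have e1 := lt (fun δ => δ) (fun _ => 1 / 2) (by fun_prop) (by fun_prop) (by norm_num)
  have e2 := lt (fun δ => δ) (fun _ => u) (by fun_prop) (by fun_prop) hu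
  have e3 := lt (fun δ => δ * a / b) (fun _ => l) (by fun_prop) (by fun_prop) (by simpa using hl)
  have e4 := lt (fun _ => α₀) (fun δ => 1 - δ ^ 2 / 2) (by fun_prop) (by fun_prop)
    (by simpa using hα)
  have e5 := lt (fun δ => δ * K) (fun δ => (a / b) ^ 2 * (c + δ ^ 2 * (b - C))) (by fun_prop)
    (by fun_prop) (by simp only [zero_mul]; norm_num; positivity)
  have e0 : ∀ᶠ δ in 𝓝[>] (0 : ℝ), 0 < δ := self_mem_nhdsWithin
  obtain ⟨δ, h0, h1, h2, h3, h4, h5⟩ := (e0.and (e1.and (e2.and (e3.and (e4.and e5))))).exists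
  exact ⟨δ, h0, h1.le, h2.le, h3.le, h4, h5⟩

/-- the Hessian restricted to a plane -/
structure Dat (h : ℝ → ℝ → ℝ → ℝ → ℝ) (a b l u : ℝ) : Prop where
  ha : 0 < a
  hb : 0 < b
  hl : 0 < l
  hu : 0 < u
  three : ∀ β₀ r₀ β₁ r₁ p q t, Tr l u β₀ r₀ → Tr l u β₁ r₁ →
    p * (β₁ - β₀) * a + q * (r₁ - r₀) * b = 0 → 0 ≤ t → t ≤ 1 →
    (1 - t) * h β₀ r₀ p q + t * h β₁ r₁ p q ≤ h (β₀ + t * (β₁ - β₀)) (r₀ + t * (r₁ - r₀)) p q
  quad : ∀ β r p q, Tr l u β r → β ^ 2 * h β r p q =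
    β ^ 2 * (p ^ 2 * a + q ^ 2 * b) - (q * β - p * r) ^ 2 * (b - h β r 0 1)

variable {h : ℝ → ℝ → ℝ → ℝ → ℝ} {a b l u : ℝ}

lemma stepA (D : Dat h a b l u) {β r C₀ : ℝ} (T : Tr l u β r) (r0 : 0 < r) (hC : 0 ≤ C₀)
    (bd : -C₀ ≤ h β (u * β) 1 0) : r * (b - h β r 0 1) ≤ (a + C₀) / u := by
  obtain ⟨ha, hb, hl, hu, three, quad⟩ := D
  have βp := T.1
  have T0 : Tr l u β 0 := ⟨βp, T.2.1, neg_nonpos.2 (by positivity), by positivity⟩
  have T1 : Tr l u β (u * β) := ⟨βp, T.2.1, T.2.2.1.trans T.2.2.2, le_rfl⟩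
  have t1 := three β 0 β (u * β) 1 0 (r / (u * β)) T0 T1 (by ring) (by positivity)
    (div_le_one_of_le₀ T.2.2.2 (by positivity))
  rw [sub_self, mul_zero, add_zero, sub_zero, zero_add, div_mul_cancel₀ _ (by positivity)] at t1
  have t2 : h β 0 1 0 = a := mul_left_cancel₀ (pow_ne_zero 2 βp.ne') (by
    rw [quad β 0 1 0 T0]; ring)
  have t3 := quad β r 1 0 T
  have t4 := mul_le_mul_of_nonneg_left bd (show 0 ≤ r / (u * β) by positivity)
  have t5 : r ^ 2 * (b - h β r 0 1) ≤ β ^ 2 * (r / (u * β) * (a + C₀)) := by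
    have := mul_le_mul_of_nonneg_left (show a - r / (u * β) * (a + C₀) ≤ h β r 1 0 by
      rw [t2] at t1; linarith) (sq_nonneg β)
    linarith
  have t6 : β ^ 2 * (r / (u * β) * (a + C₀)) = r * (β * ((a + C₀) / u)) := by
    field_simp
  rw [t6, sq, mul_assoc, mul_le_mul_iff_right₀ r0] at t5
  exact t5.trans (mul_le_of_le_one_left (by positivity) T.2.1.le)

lemma stepB (D : Dat h a b l u) {β r σ k S : ℝ} (T : Tr l u β r) (r0 : 0 < r) (σ0 : 0 < σ)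
    (hβ : 7 / 8 ≤ β) (hk : σ + r = r * k) (S0 : 0 ≤ S) (A : r * (b - h β r 0 1) ≤ S) :
    1 ^ 2 * a + (-σ) ^ 2 * b - h β r 1 (-σ) ≤ 2 * (r * (k ^ 2 * S)) := by
  have t1 := D.quad β r 1 (-σ) T
  have k1 : 0 ≤ r * (k ^ 2 * S) := by positivity
  have t2 : (-σ * β - 1 * r) ^ 2 * (b - h β r 0 1) ≤ r * (k ^ 2 * S) := by
    have s1 : (-σ * β - 1 * r) ^ 2 ≤ (r * k) ^ 2 := by
      rw [← neg_sq, ← hk]
      have := mul_le_of_le_one_right σ0.le T.2.1.le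
      exact pow_le_pow_left₀ (by linarith [mul_pos σ0 T.1]) (by linarith) 2
    rcases le_total 0 (b - h β r 0 1) with j | j
    · refine (mul_le_mul_of_nonneg_right s1 j).trans ?_
      have := mul_le_mul_of_nonneg_left A (show 0 ≤ r * k ^ 2 by positivity)
      linarith
    · exact (mul_nonpos_of_nonneg_of_nonpos (sq_nonneg _) j).trans k1
  by_contra j
  have k2 : 1 / 2 ≤ β ^ 2 := by nlinarith
  have k3 := mul_le_mul_of_nonneg_right k2 (show 0 ≤ 1 ^ 2 * a + (-σ) ^ 2 * b - h β r 1 (-σ) by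
    linarith)
  linarith

lemma stepC (D : Dat h a b l u) {β δ σ B : ℝ} (T : Tr l u β (δ / 2)) (d0 : 0 < δ) (d1 : δ ≤ 1 / 2)
    (hβ : β = 1 - δ ^ 2 / 2) (hσ : σ * b = δ * a) (σ0 : 0 < σ) (σ1 : σ ≤ l) (B0 : 0 ≤ B)
    (hB : 1 ^ 2 * a + (-σ) ^ 2 * b - h β (δ / 2) 1 (-σ) ≤ B) :
    σ ^ 2 * (b - h (1 - δ ^ 2) 0 0 1) ≤ B := by
  obtain ⟨ha, hb, hl, hu, three, quad⟩ := D
  obtain ⟨N, hN⟩ : ∃ N, N = 1 ^ 2 * a + (-σ) ^ 2 * b := ⟨_, rfl⟩
  obtain ⟨α, hα⟩ : ∃ α, α = 1 - δ ^ 2 := ⟨_, rfl⟩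
  rw [← hα]
  rw [← hN] at hB
  have α1 : α < 1 := by rw [hα]; linarith [pow_pos d0 2]
  have α0 : 0 < α := by rw [hα]; nlinarith
  obtain ⟨γ, hγ⟩ : ∃ γ, γ = α / (1 + σ * δ) := ⟨_, rfl⟩
  have γ0 : 0 < γ := by rw [hγ]; positivity
  have γ1 : γ * (1 + σ * δ) = α := by rw [hγ]; field_simp
  have m1 := mul_pos σ0 γ0
  have T3 : Tr l u γ (-(σ * γ)) := ⟨γ0, by linarith [mul_pos γ0 (mul_pos σ0 d0)],
    neg_le_neg (mul_le_mul_of_nonneg_right σ1 γ0.le), by linarith [mul_pos hu γ0]⟩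
  have T4 : Tr l u α 0 := ⟨α0, α1, neg_nonpos.2 (by positivity), by positivity⟩
  have e1 : β - γ = δ * (δ / 2 - -(σ * γ)) := by rw [hβ]; rw [hα] at γ1; linarith
  have p1 : 0 < δ / 2 - -(σ * γ) := by linarith
  have k0 : 0 ≤ σ * γ / (δ / 2 - -(σ * γ)) := div_nonneg m1.le p1.le
  have k1 : σ * γ / (δ / 2 - -(σ * γ)) ≤ 1 := div_le_one_of_le₀ (by linarith) p1.le
  have t1 := three γ (-(σ * γ)) β (δ / 2) 1 (-σ) (σ * γ / (δ / 2 - -(σ * γ))) T3 T
    (by rw [e1]; linear_combination (-(δ / 2 - -(σ * γ))) * hσ) k0 k1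
  rw [div_mul_cancel₀ _ p1.ne', neg_add_cancel, e1, mul_left_comm, div_mul_cancel₀ _ p1.ne',
    show γ + δ * (σ * γ) = α by linarith] at t1
  have t2 : h γ (-(σ * γ)) 1 (-σ) = N := mul_left_cancel₀ (pow_ne_zero 2 γ0.ne') (by
    rw [quad _ _ _ _ T3, hN]; ring)
  have t3 : N - h α 0 1 (-σ) = σ ^ 2 * (b - h α 0 0 1) :=
    mul_left_cancel₀ (pow_ne_zero 2 α0.ne') (by rw [mul_sub, quad _ _ _ _ T4, hN]; ring)
  have k2 := mul_le_mul_of_nonneg_left hB k0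
  have k3 := mul_le_of_le_one_left B0 k1
  rw [t2] at t1
  linarith

lemma plane (D : Dat h a b l u) {α₀ C₀ : ℝ} (hα : α₀ < 1) (hC : 0 ≤ C₀)
    (bd : ∀ β, α₀ < β → β < 1 → -C₀ ≤ h β (u * β) 1 0) {C c : ℝ} (hc : 0 < c)
    (blow : ∀ α ∈ Ico (1 / 2 : ℝ) 1, h α 0 0 1 ≤ C - c / (1 - α)) : False := by
  have ha := D.ha
  have hb := D.hb
  have hu := D.hu
  have hl := D.hl
  obtain ⟨δ, d0, d1, d2, d3, d4, d5⟩ := small (C := C)
    (K := (2 * (a / b) + 1) ^ 2 * ((a + C₀) / u)) ha hb hl hu hα hc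
  obtain ⟨β, hβ⟩ : ∃ β, β = 1 - δ ^ 2 / 2 := ⟨_, rfl⟩
  have δ2 : δ ^ 2 ≤ 1 / 4 := by nlinarith
  have δ3 := pow_pos d0 2
  have β1 : β < 1 := by linarith
  have β0 : 7 / 8 ≤ β := by linarith
  have T : Tr l u β (δ / 2) := ⟨by linarith, β1, by linarith [mul_pos hl (by linarith : 0 < β)],
    by linarith [mul_le_mul_of_nonneg_left β0 hu.le]⟩
  have t1 := stepC D T d0 d1 hβ (div_mul_cancel₀ _ hb.ne') (by positivity) d3 (by positivity)
    (stepB D T (half_pos d0) (by positivity) β0 (k := 2 * (a / b) + 1) (by ring) (by positivity)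
      (stepA D T (half_pos d0) hC (bd β (hβ ▸ d4) β1)))
  have t5 := blow (1 - δ ^ 2) ⟨by linarith, by linarith⟩
  rw [sub_sub_cancel] at t5
  have t6 := mul_le_mul_of_nonneg_left
    (show b - C + c / δ ^ 2 ≤ b - h (1 - δ ^ 2) 0 0 1 by linarith) (sq_nonneg (δ * a / b))
  have t7 : (δ * a / b) ^ 2 * (b - C + c / δ ^ 2) = (a / b) ^ 2 * (c + δ ^ 2 * (b - C)) := by
    field_simp; ring
  linarith

lemma blowup {f : ℝ → ℝ} {C c α₀ B : ℝ} (hc : 0 < c) (hα : α₀ < 1)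
    (h1 : ∀ α ∈ Ico (1 / 2 : ℝ) 1, f α ≤ C - c / (1 - α))
    (h2 : ∀ β, α₀ < β → β < 1 → -B ≤ f β) : False := by
  have e0 : ∀ᶠ δ in 𝓝[>] (0 : ℝ), 0 < δ := self_mem_nhdsWithin
  have e1 : ∀ᶠ δ in 𝓝 (0 : ℝ), δ * (C + B) < c :=
    (by fun_prop : Continuous fun δ : ℝ => δ * (C + B)).continuousAt.eventually_lt
      continuousAt_const (by simpa using hc)
  obtain ⟨δ, d0, d1, d2⟩ := (e0.and ((e1.and (gt_mem_nhds (show (0 : ℝ) < min (1 / 2) (1 - α₀) from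
    lt_min (by norm_num) (by linarith)))).filter_mono nhdsWithin_le_nhds)).exists
  rw [lt_min_iff] at d2
  have t1 := h1 (1 - δ) ⟨by linarith [d2.1], by linarith⟩
  have t2 := h2 (1 - δ) (by linarith [d2.2]) (by linarith)
  rw [sub_sub_cancel] at t1
  have t3 : c / δ ≤ C + B := by linarith
  rw [div_le_iff₀ d0] at t3
  linarith

variable [Dim] {M : Type} [MetricSpace M] [ChartedSpace En M] [IsManifold 𝓘(ℝ, En) ∞ M]
  {R : Riem M}

omit [IsManifold 𝓘(ℝ, En) ∞ M] in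
lemma conc (hH : R.Hs) (hK : R.Kn) (hM : R.MTW) {x : M} {v η ξ : En}
    (hs : ∀ t ∈ Icc (0 : ℝ) 1, v + t • η ∈ R.Io x) (ho : R.g x ξ η = 0) {t : ℝ} (t0 : 0 ≤ t)
    (t1 : t ≤ 1) : (1 - t) * R.H x v ξ + t * R.H x (v + η) ξ ≤ R.H x (v + t • η) ξ := by
  set f : ℝ → ℝ := fun s => R.H x (v + s • η) ξ with hf
  have c : ∀ s ∈ Icc (0 : ℝ) 1, ContDiffAt ℝ 2 f s := fun s h =>
    (hH.sm x _ ξ (hK.nci x _ (hs s h))).comp s (f := fun s : ℝ => v + s • η) (by fun_prop)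
  have k := concaveOn_of_deriv2_nonpos' (f := f) (convex_Icc (0 : ℝ) 1)
    (fun s h => ((c s h).differentiableAt two_ne_zero).differentiableWithinAt)
    (fun s h => (((c s h).derivWithin (m := 1) (by norm_num)).differentiableAt
      one_ne_zero).differentiableWithinAt) fun s h => by
      have := hM x _ (hs s h) ξ η ho
      have e : (fun t : ℝ => R.H x (v + s • η + t • η) ξ) = fun t => f (s + t) := by
        simp only [hf, add_smul, add_assoc]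
      rwa [e, funext (deriv_comp_const_add f s), deriv_comp_const_add, add_zero] at this
  have := k.2 (left_mem_Icc.2 zero_le_one) (right_mem_Icc.2 zero_le_one) (sub_nonneg.2 t1) t0
    (sub_add_cancel 1 t)
  simpa [hf] using this

lemma bdd (hT : R.Top) (hY : R.Tay) (hK : R.Kn) {x : M} {e : En} (h1 : R.NC x e) (h2 : e ∈ R.Ib x)
    (ξ : En) : ∃ α₀ < 1, ∃ C ≥ 0, ∀ β : ℝ, α₀ < β → β < 1 → -C ≤ R.H x (β • e) ξ := by
  obtain ⟨N, hN, C, hC⟩ := hY.lb x e h1 h2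
  have c : Continuous fun β : ℝ => tm x (β • e) := (hT.ctm x).comp (by fun_prop)
  obtain ⟨l, u, h3, h4⟩ := mem_nhds_iff_exists_Ioo_subset.1
    (c.continuousAt.preimage_mem_nhds (x := 1) (by rwa [one_smul]))
  refine ⟨max l 0, max_lt h3.1 one_pos, |C * R.g x ξ ξ|, abs_nonneg _, fun β b0 b1 => ?_⟩
  rw [max_lt_iff] at b0
  have := hC x (β • e) ξ (h4 ⟨b0.1, b1.trans h3.2⟩) (hK.nci x _ (R.smul_mem_Io h2 b0.2.le b1))
  linarith [le_abs_self (C * R.g x ξ ξ), neg_abs_le (R.H x (β • e) ξ)]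

omit [IsManifold 𝓘(ℝ, En) ∞ M] in
lemma dat (hH : R.Hs) (hK : R.Kn) (hM : R.MTW) {x : M} {w η : En} {l u : ℝ} (hw : w ≠ 0)
    (hη : η ≠ 0) (hl : 0 < l) (hu : 0 < u) (ho : R.g x w η = 0)
    (hs : ∀ r ∈ Icc (-l) u, w + r • η ∈ R.Ib x) :
    Dat (fun β r p q => R.H x (β • w + r • η) (p • w + q • η)) (R.g x w w) (R.g x η η) l u := by
  have ho' : R.g x η w = 0 := (R.g_symm x _ _).trans ho
  have io : ∀ β r, Tr l u β r → β • w + r • η ∈ R.Io x := fun β r T => by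
    have := R.smul_mem_Io (hs (r / β) ⟨by rw [le_div_iff₀ T.1]; linarith [T.2.2.1],
      by rw [div_le_iff₀ T.1]; exact T.2.2.2⟩) T.1.le T.2.1
    rwa [smul_add, smul_smul, mul_div_cancel₀ _ T.1.ne'] at this
  refine ⟨R.g_pos x hw, R.g_pos x hη, hl, hu, fun β₀ r₀ β₁ r₁ p q t T0 T1 h t0 t1 => ?_,
    fun β r p q T => ?_⟩
  · have e : ∀ s : ℝ, β₀ • w + r₀ • η + s • ((β₁ - β₀) • w + (r₁ - r₀) • η) =
        (β₀ + s * (β₁ - β₀)) • w + (r₀ + s * (r₁ - r₀)) • η := fun s => by module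
    have := conc hH hK hM (x := x) (v := β₀ • w + r₀ • η) (η := (β₁ - β₀) • w + (r₁ - r₀) • η)
      (ξ := p • w + q • η) (fun s hs => by
        rw [e]
        obtain ⟨a1, a2, a3, a4⟩ := T0
        obtain ⟨b1, b2, b3, b4⟩ := T1
        have s1 := sub_nonneg.2 hs.2
        refine io _ _ ⟨?_, ?_, ?_, ?_⟩
        · rcases le_total β₀ β₁ with j | j
          · nlinarith [hs.1]
          · nlinarith [hs.2]
        · rcases le_total β₀ β₁ with j | j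
          · nlinarith [hs.2]
          · nlinarith [hs.1]
        · linarith [mul_le_mul_of_nonneg_left a3 s1, mul_le_mul_of_nonneg_left b3 hs.1]
        · linarith [mul_le_mul_of_nonneg_left a4 s1, mul_le_mul_of_nonneg_left b4 hs.1])
      (by
        simp only [map_add, map_smul, add_apply, smul_apply, smul_eq_mul, ho, ho']
        linarith) t0 t1
    rwa [e, show β₀ • w + r₀ • η + ((β₁ - β₀) • w + (r₁ - r₀) • η) = β₁ • w + r₁ • η by module]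
      at this
  · obtain ⟨B, hB⟩ := hH.bil x
    obtain ⟨b1, b2, b3⟩ := hB _ (hK.nci x _ (io β r T))
    simp only [zero_smul, one_smul, zero_add]
    rw [b2, b2]
    set v := β • w + r • η with hv
    have e : β • (p • w + q • η) = p • v + (q * β - p * r) • η := by rw [hv]; module
    have e1 : β ^ 2 * B v (p • w + q • η) (p • w + q • η) =
        B v (β • (p • w + q • η)) (β • (p • w + q • η)) := by
      simp only [map_smul, smul_apply, smul_eq_mul]; ring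
    rw [e1, e]
    simp only [map_add, map_smul, add_apply, smul_apply, smul_eq_mul, b1 η v, b3]
    simp only [hv, map_add, map_smul, add_apply, smul_apply, smul_eq_mul, ho, ho']
    ring

end Fx

open Fx in
theorem fStmt [Dim] : FStmt := by
  intro M _ _ _ _ _ R hS hT _ hY hH hK hM x e₀ e₁ hs h0 h1 w hw
  by_contra hc
  obtain ⟨ζ, z1, z0⟩ : ∃ ζ, R.dex x w ζ = 0 ∧ ζ ≠ 0 := by
    by_contra! k
    exact hc ((injective_iff_map_eq_zero _).2 k)
  have hg : ∀ t ∈ Ioo (0 : ℝ) 1, R.Good x (t • w) := fun t ht =>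
    hK.nci x _ (R.smul_mem_Io (hs hw) ht.1.le ht.2)
  have i0 := hs (left_mem_segment ℝ e₀ e₁)
  have i1 := hs (right_mem_segment ℝ e₀ e₁)
  rw [segment_eq_image'] at hs hw
  obtain ⟨s, ⟨s0, s1⟩, hw⟩ := hw
  obtain ⟨η, rfl⟩ : ∃ η, e₁ = e₀ + η := ⟨e₁ - e₀, by abel⟩
  simp only [add_sub_cancel_left] at hs hw
  have hs' : ∀ t ∈ Icc (0 : ℝ) 1, e₀ + t • η ∈ R.Ib x := fun t ht => hs ⟨t, ht, rfl⟩
  by_cases hξ : ∃ ξ, R.g x ξ η = 0 ∧ R.g x ζ ξ ≠ 0
  · obtain ⟨ξ, x1, x2⟩ := hξ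
    obtain ⟨C, c, c0, hb⟩ := hK.bu x w ζ ξ hg z1 x2
    obtain ⟨α₀, a0, C₀, k0, b0⟩ := bdd hT hY hK h0 i0 ξ
    obtain ⟨α₁, a1, C₁, k1, b1⟩ := bdd hT hY hK h1 i1 ξ
    refine blowup (B := C₀ + C₁) c0 (max_lt (max_lt a0 a1) one_pos) hb fun β p q => ?_
    rw [max_lt_iff, max_lt_iff] at p
    have := conc hH hK hM (x := x) (v := β • e₀) (η := β • η) (ξ := ξ) (fun t ht => by
      rw [smul_comm, ← smul_add]
      exact R.smul_mem_Io (hs' t ht) p.2.le q) (by rw [map_smul, x1, smul_zero]) s0 s1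
    rw [smul_comm s, ← smul_add, ← smul_add, hw] at this
    nlinarith [mul_le_mul_of_nonneg_left (b0 β p.1.1 q) (sub_nonneg.2 s1),
      mul_le_mul_of_nonneg_left (b1 β p.1.2 q) s0]
  push Not at hξ
  have η0 : η ≠ 0 := by
    rintro rfl
    rw [smul_zero, add_zero] at hw
    exact hc (hw ▸ h0)
  have b0 := R.g_pos x η0
  have z2 : R.dex x w η = 0 := by
    obtain ⟨k, hk⟩ : ∃ k, k = R.g x ζ η / R.g x η η := ⟨_, rfl⟩
    have e1 : R.g x (ζ - k • η) η = 0 := by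
      simp only [map_sub, map_smul, sub_apply, smul_apply, smul_eq_mul, hk]
      rw [div_mul_cancel₀ _ b0.ne', sub_self]
    have e2 : ζ = k • η := by
      by_contra j
      refine (R.g_pos x (sub_ne_zero.2 j)).ne' ?_
      rw [map_sub (R.g x), sub_apply, hξ _ e1, map_smul, smul_apply, R.g_symm x η, e1]
      simp
    rw [e2, map_smul, smul_eq_zero] at z1
    refine z1.resolve_left fun j => z0 ?_
    rw [e2, j, zero_smul]
  have ho : R.g x w η = 0 := by rw [← hS.gauss, z2, map_zero]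
  have w0 : w ≠ 0 := fun j => hc (j ▸ (R.good_zero hS x).1)
  have l0 : 0 < s := s0.lt_of_ne fun j => hc (by
    rw [← hw, ← j, zero_smul, add_zero]; exact h0)
  have u0 : 0 < 1 - s := sub_pos.2 (s1.lt_of_ne fun j => hc (by
    rw [← hw, j, one_smul]; exact h1))
  have D := dat hH hK hM w0 η0 l0 u0 ho fun r hr => by
    rw [← hw, add_assoc, ← add_smul]
    exact hs' _ ⟨by linarith [hr.1], by linarith [hr.2]⟩
  obtain ⟨C, c, c0, hb⟩ := hK.bu x w η η hg z2 b0.ne'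
  obtain ⟨α₁, a1, C₁, k1, b1⟩ := bdd hT hY hK h1 i1 w
  refine plane D a1 k1 (fun β p q => ?_) c0 (C := C) fun α hα => ?_
  · have := b1 β p q
    rwa [one_smul, zero_smul, add_zero,
      show β • w + ((1 - s) * β) • η = β • (e₀ + η) by rw [← hw]; module]
  · simpa using hb α hα

end Vale.Agent.P234
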