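import Vale.Agent.P234.Spec0

/-! Uniqueness, speed and reparametrization of geodesics; uniqueness of Jacobi fields. -/

open scoped ContDiff Topology
open Set Filter

namespace Vale.Agent.P234
open Vale.Agent.P255 (koszul chr riem covD GeoAt JacAt loc locVec IsGeodesic IsJacobi Metric ip OStmt)

variable [Dim]

namespace Gg

theorem ode {V : Type} [NormedAddCommGroup V] [NormedSpace ℝ V] {F : V → V} {f g : ℝ → V} {s : ℝ}
    (hF : ContDiffAt ℝ 1 F (f s)) (hf : ∀ᶠ r in 𝓝 s, HasDerivAt f (F (f r)) r)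
    (hg : ∀ᶠ r in 𝓝 s, HasDerivAt g (F (g r)) r) (e : f s = g s) : f =ᶠ[𝓝 s] g := by
  obtain ⟨K, t, ht, hK⟩ := hF.exists_lipschitzOnWith
  exact ODE_solution_unique_of_eventually (v := fun _ => F) (s := fun _ => t)
    (Eventually.of_forall fun _ => hK)
    (hf.and (hf.self_of_nhds.continuousAt.eventually ht))
    (hg.and (hg.self_of_nhds.continuousAt.eventually (e ▸ ht))) e

theorem dfd {F W : Type} [NormedAddCommGroup F] [NormedSpace ℝ F] [NormedAddCommGroup W]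
    [NormedSpace ℝ W] {T : En → F} {p q : W → En} {z : W} (h : ContDiffAt ℝ ∞ T (p z))
    (hp : ContDiffAt ℝ 1 p z) (hq : ContDiffAt ℝ 1 q z) :
    ContDiffAt ℝ 1 (fun z => fderiv ℝ T (p z) (q z)) z :=
  ((h.fderiv_right (m := 1) (by norm_cast)).comp z hp).clm_apply hq

theorem clopen {P : ℝ → Prop} {I : Set ℝ} (hI : IsPreconnected I) {s₀ : ℝ} (h0 : s₀ ∈ I)
    (h1 : ∀ᶠ r in 𝓝 s₀, P r)
    (h2 : ∀ s ∈ I, (∃ᶠ r in 𝓝 s, ∀ᶠ x in 𝓝 r, P x) → ∀ᶠ r in 𝓝 s, P r) : ∀ s ∈ I, P s :=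
  fun _ hs => (hI.subset_of_closure_inter_subset (u := {s | ∀ᶠ r in 𝓝 s, P r})
    isOpen_setOfPred_eventually_nhds ⟨s₀, h0, h1⟩
    (fun s hs => h2 s hs.2 (mem_closure_iff_frequently.1 hs.1)) hs).self_of_nhds

theorem freq {c₁ c₂ : ℝ → En} {s : ℝ} (a1 : DifferentiableAt ℝ c₁ s)
    (a2 : DifferentiableAt ℝ c₂ s) (b1 : DifferentiableAt ℝ (deriv c₁) s)
    (b2 : DifferentiableAt ℝ (deriv c₂) s) (h : ∃ᶠ r in 𝓝 s, c₁ =ᶠ[𝓝 r] c₂) :
    c₁ s = c₂ s ∧ deriv c₁ s = deriv c₂ s :=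
  ⟨tendsto_nhds_unique_of_frequently_eq a1.continuousAt a2.continuousAt
    (h.mono fun _ hr => hr.self_of_nhds), tendsto_nhds_unique_of_frequently_eq b1.continuousAt
    b2.continuousAt (h.mono fun _ hr => hr.deriv_eq)⟩

theorem geo_congr {G : En → En → En → ℝ} {c c' : ℝ → En} {s : ℝ} (e : c' =ᶠ[𝓝 s] c)
    (h : GeoAt G c s) : GeoAt G c' s :=
  ⟨h.1.congr_of_eventuallyEq e, h.2.1.congr_of_eventuallyEq e.deriv, by
    rw [covD, e.deriv.deriv_eq, e.deriv_eq, e.self_of_nhds]; exact h.2.2⟩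

theorem deriv_aff (c : ℝ → En) (α β : ℝ) :
    deriv (fun s => c (α * s + β)) = fun s => α • deriv c (α * s + β) := by
  funext s
  rw [deriv_comp_mul_left (f := fun x => c (x + β)), deriv_comp_add_const]

section
variable {G : En → Bil} {Ω : Set En} {Γ : En → En →L[ℝ] En →L[ℝ] En}

theorem geo_der (hΓ : IsGam G Ω Γ) {c : ℝ → En} {s : ℝ} (hs : c s ∈ Ω) (hg : GeoAt (ub G) c s) :
    HasDerivAt (fun r => (c r, deriv c r)) (deriv c s, -Γ (c s) (deriv c s) (deriv c s)) s := by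
  have := hg.2.2
  rw [covD, hΓ.eq _ hs] at this
  exact hg.1.hasDerivAt.prodMk (eq_neg_of_add_eq_zero_left this ▸ hg.2.1.hasDerivAt)

theorem loc_uniq (hA : AStmt) (h : CM G Ω) {c₁ c₂ : ℝ → En} {s : ℝ}
    (h1 : ∀ᶠ r in 𝓝 s, c₁ r ∈ Ω ∧ GeoAt (ub G) c₁ r)
    (h2 : ∀ᶠ r in 𝓝 s, c₂ r ∈ Ω ∧ GeoAt (ub G) c₂ r)
    (e : c₁ s = c₂ s ∧ deriv c₁ s = deriv c₂ s) : c₁ =ᶠ[𝓝 s] c₂ := by
  obtain ⟨Γ, hΓ⟩ := hA.1 G Ω h
  have a0 : ContDiffAt ℝ 1 Γ (c₁ s) :=
    (hΓ.smooth.contDiffAt (h.isOpen.mem_nhds h1.self_of_nhds.1)).of_le (by norm_cast)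
  have a1 : ContDiffAt ℝ 1 (fun z : En × En => Γ z.1) (c₁ s, deriv c₁ s) :=
    ContDiffAt.comp (g := Γ) _ a0 contDiffAt_fst
  have a2 := (a1.clm_apply contDiffAt_snd).clm_apply contDiffAt_snd
  exact (ode (F := fun z : En × En => (z.2, -Γ z.1 z.2 z.2)) (f := fun r => (c₁ r, deriv c₁ r))
    (g := fun r => (c₂ r, deriv c₂ r)) (contDiffAt_snd.prodMk a2.neg)
    (h1.mono fun r hr => geo_der hΓ hr.1 hr.2) (h2.mono fun r hr => geo_der hΓ hr.1 hr.2)
    (Prod.ext e.1 e.2)).mono fun r hr => congrArg Prod.fst hr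

theorem jac_der (hA : AStmt) (h : CM G Ω) (hΓ : IsGam G Ω Γ) {c j : ℝ → En} {s : ℝ}
    (h1 : ∀ᶠ r in 𝓝 s, c r ∈ Ω ∧ GeoAt (ub G) c r ∧ JacAt (ub G) c j r) :
    ∀ᶠ r in 𝓝 s, HasDerivAt (deriv j) (-(fderiv ℝ Γ (c r) (j r) (deriv c r) (deriv c r))
      - (2 : ℝ) • Γ (c r) (deriv c r) (deriv j r)) r :=
  h1.eventually_nhds.mono fun r hr => (hA.2.2.1 G Ω Γ h hΓ c j r
    (hr.mono fun _ hx => ⟨hx.1, hx.2.1, hx.2.2.1⟩)).1 hr.self_of_nhds.2.2

theorem jac_uniq (hA : AStmt) (h : CM G Ω) {c j : ℝ → En} {s : ℝ}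
    (h1 : ∀ᶠ r in 𝓝 s, c r ∈ Ω ∧ GeoAt (ub G) c r ∧ JacAt (ub G) c j r)
    (e : j s = 0 ∧ deriv j s = 0) : ∀ᶠ r in 𝓝 s, j r = 0 := by
  obtain ⟨Γ, hΓ⟩ := hA.1 G Ω h
  have a : ContDiffAt ℝ ∞ Γ (c s) := hΓ.smooth.contDiffAt (h.isOpen.mem_nhds h1.self_of_nhds.1)
  have a0 : ContDiffAt ℝ 1 Γ (c s) := a.of_le (by norm_cast)
  obtain ⟨z, hz⟩ : ∃ z : (En × En) × En × En, z = ((c s, deriv c s), j s, deriv j s) := ⟨_, rfl⟩
  have p1 : ContDiffAt ℝ 1 (fun z : (En × En) × En × En => z.1.1) z := by fun_prop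
  have p2 : ContDiffAt ℝ 1 (fun z : (En × En) × En × En => z.1.2) z := by fun_prop
  have p3 : ContDiffAt ℝ 1 (fun z : (En × En) × En × En => z.2.1) z := by fun_prop
  have p4 : ContDiffAt ℝ 1 (fun z : (En × En) × En × En => z.2.2) z := by fun_prop
  have a1 : ContDiffAt ℝ 1 (fun z : (En × En) × En × En => Γ z.1.1) z :=
    ContDiffAt.comp (g := Γ) _ (hz ▸ a0) p1
  have b1 := dfd (T := Γ) (hz ▸ a) p1 p3
  have a2 := a1.clm_apply p2
  have b2 := (b1.clm_apply p2).clm_apply p2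
  have hF := (p2.prodMk (a2.clm_apply p2).neg).prodMk
    (p4.prodMk (b2.neg.sub ((a2.clm_apply p4).const_smul (2 : ℝ))))
  subst hz
  refine (ode (f := fun r => ((c r, deriv c r), j r, deriv j r))
    (g := fun r => ((c r, deriv c r), 0, 0)) hF ?_ ?_ (by rw [e.1, e.2])).mono fun r hr =>
      congrArg (fun z => z.2.1) hr
  · exact (h1.and (jac_der hA h hΓ h1)).mono fun r hr => (geo_der hΓ hr.1.1 hr.1.2.1).prodMk
      (hr.1.2.2.1.hasDerivAt.prodMk hr.2)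
  · refine h1.mono fun r hr => (geo_der hΓ hr.1 hr.2.1).prodMk ?_
    simpa using (hasDerivAt_const r (0 : En)).prodMk (hasDerivAt_const r (0 : En))

end

variable {M : Type} [TopologicalSpace M] [ChartedSpace En M] {g : M → Bil}

theorem ev_src {γ : ℝ → M} {s : ℝ} (hγ : ContinuousAt γ s) {a : M}
    (ha : γ s ∈ (chartAt En a).source) : ∀ᶠ r in 𝓝 s, γ r ∈ (chartAt En a).source :=
  hγ.eventually ((chartAt En a).open_source.mem_nhds ha)

theorem ev_geo {γ : ℝ → M} (hγ : IsGeodesic (un g) γ) {s : ℝ} {a : M}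
    (ha : γ s ∈ (chartAt En a).source) : ∀ᶠ r in 𝓝 s, chartAt En a (γ r) ∈ (chartAt En a).target ∧
      GeoAt (ub (locB g a)) (fun r => chartAt En a (γ r)) r :=
  (ev_src hγ.1.continuousAt ha).mono fun r hr => ⟨(chartAt En a).map_source hr, hγ.2 a r hr⟩

theorem ev_tr {γ : ℝ → M} {s : ℝ} (hγ : ContinuousAt γ s) {a : M} (b : M)
    (ha : γ s ∈ (chartAt En a).source) : (fun r => chartAt En b (γ r)) =ᶠ[𝓝 s]
      fun r => chartAt En b ((chartAt En a).symm (chartAt En a (γ r))) :=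
  (ev_src hγ ha).mono fun r hr => by simp only [(chartAt En a).left_inv hr]

theorem mem_ov {a b p : M} (ha : p ∈ (chartAt En a).source) (hb : p ∈ (chartAt En b).source) :
    chartAt En a p ∈ (chartAt En a).target ∩ (chartAt En a).symm ⁻¹' (chartAt En b).source :=
  ⟨(chartAt En a).map_source ha, by rw [mem_preimage, (chartAt En a).left_inv ha]; exact hb⟩

theorem open_ov (a b : M) :
    IsOpen ((chartAt En a).target ∩ (chartAt En a).symm ⁻¹' (chartAt En b).source) :=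
  (chartAt En a).isOpen_inter_preimage_symm (chartAt En b).open_source

theorem dv (h : ChartFacts g) {γ : ℝ → M} (hγ : IsGeodesic (un g) γ) (a : M) (s : ℝ)
    (ha : γ s ∈ (chartAt En a).source) :
    deriv (fun r => chartAt En a (γ r)) s = D a (γ s) (vel γ s) := by
  have hp := mem_chart_source En (γ s)
  have h1 := (((h.sm (γ s) a).contDiffAt ((open_ov _ _).mem_nhds (mem_ov hp ha))).differentiableAt
    (by simp)).hasFDerivAt.comp_hasDerivAt s (hγ.2 _ s hp).1.hasDerivAt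
  rw [h.chg _ a _ hp ha, h.self, (ev_tr hγ.1.continuousAt a hp).deriv_eq]
  exact h1.deriv

theorem one (hA : AStmt) (h : ChartFacts g) (γ : ℝ → M) (hγ : Continuous γ)
    (h1 : ∀ s, ∃ a, γ s ∈ (chartAt En a).source ∧
      ∀ᶠ r in 𝓝 s, GeoAt (ub (locB g a)) (fun r => chartAt En a (γ r)) r) :
    IsGeodesic (un g) γ := by
  refine ⟨hγ, fun b s hb => ?_⟩
  obtain ⟨a, ha, h2⟩ := h1 s
  have c := h.cm a
  exact geo_congr (ev_tr hγ.continuousAt b ha) (hA.2.1 (locB g a) (locB g b) _ _ _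
    ⟨open_ov a b, c.smooth.mono inter_subset_left, fun y hy => c.symm y hy.1,
      fun y hy => c.pos y hy.1⟩ (h.cm b) (h.sm a b) (fun y hy => (chartAt En b).map_source hy.2)
    (h.law a b) _ s (mem_ov ha hb) (h2.mono fun _ hr => hr.1) h2.self_of_nhds)

theorem speed (hA : AStmt) (h : ChartFacts g) (γ : ℝ → M) (hγ : IsGeodesic (un g) γ) (s : ℝ) :
    g (γ s) (vel γ s) (vel γ s) = g (γ 0) (vel γ 0) (vel γ 0) := by
  have key : ∀ s, HasDerivAt (fun s => g (γ s) (vel γ s) (vel γ s)) 0 s := fun s => by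
    have hp := mem_chart_source En (γ s)
    have h1 : GeoAt (ub (locB g (γ s))) (fun r => chartAt En (γ s) (γ r)) s := hγ.2 _ s hp
    have h2 := hA.2.2.2.2.1 _ _ (h.cm (γ s)) _ _ _ s ((chartAt En (γ s)).map_source hp) h1.1
      h1.2.1 h1.2.1
    rw [h1.2.2, map_zero, map_zero, zero_apply, add_zero] at h2
    exact h2.congr_of_eventuallyEq ((ev_src hγ.1.continuousAt hp).mono fun r hr => by
      simp only [dv h hγ _ r hr, h.pull _ _ hr])
  exact is_const_of_deriv_eq_zero (fun s => (key s).differentiableAt) (fun s => (key s).deriv) s 0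

theorem rep (hA : AStmt) (h : ChartFacts g) (γ : ℝ → M) (hγ : IsGeodesic (un g) γ) (α β : ℝ) :
    IsGeodesic (un g) (fun s => γ (α * s + β)) ∧
      ∀ s, vel (fun s => γ (α * s + β)) s = α • vel γ (α * s + β) := by
  refine ⟨⟨hγ.1.comp (by fun_prop), fun a s ha => ?_⟩, fun s =>
    congrFun (deriv_aff (fun r => chartAt En (γ (α * s + β)) (γ r)) α β) s⟩
  obtain ⟨Γ, hΓ⟩ := hA.1 _ _ (h.cm a)
  have h1 : GeoAt (ub (locB g a)) (fun r => chartAt En a (γ r)) (α * s + β) := hγ.2 a _ ha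
  have h2 : chartAt En a (γ (α * s + β)) ∈ (chartAt En a).target := (chartAt En a).map_source ha
  show GeoAt (ub (locB g a)) (fun r => (fun r => chartAt En a (γ r)) (α * r + β)) s
  change (fun r => chartAt En a (γ r)) (α * s + β) ∈ _ at h2
  generalize (fun r => chartAt En a (γ r)) = c at h1 h2 ⊢
  have l : DifferentiableAt ℝ (fun s => α * s + β) s := by fun_prop
  have h3 := h1.2.2
  rw [covD, hΓ.eq _ h2] at h3
  refine ⟨h1.1.comp s l, ?_, ?_⟩ <;> rw [deriv_aff]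
  · exact (h1.2.1.comp s l).const_smul α
  · rw [covD, deriv_aff, deriv_fun_const_smul_field , deriv_aff, hΓ.eq _ h2, map_smul, map_smul,
      smul_apply, ← smul_add, ← smul_add, h3, smul_zero, smul_zero]

theorem uchart [T2Space M] (hA : AStmt) (h : ChartFacts g) (γ : ℝ → M) (hγ : IsGeodesic (un g) γ)
    (a : M) (c : ℝ → En) (s₀ l u : ℝ) (h0 : s₀ ∈ Ioo l u)
    (hc : ∀ s ∈ Ioo l u, c s ∈ (chartAt En a).target ∧ GeoAt (ub (locB g a)) c s)
    (ha : γ s₀ ∈ (chartAt En a).source) (e0 : chartAt En a (γ s₀) = c s₀)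
    (e1 : deriv (fun r => chartAt En a (γ r)) s₀ = deriv c s₀) :
    ∀ s ∈ Ioo l u, γ s = (chartAt En a).symm (c s) := by
  have key : ∀ s ∈ Ioo l u, γ s ∈ (chartAt En a).source → (chartAt En a (γ s) = c s ∧
      deriv (fun r => chartAt En a (γ r)) s = deriv c s) →
      ∀ᶠ r in 𝓝 s, γ r = (chartAt En a).symm (c r) := fun s hs ha e =>
    ((loc_uniq hA (h.cm a) (ev_geo hγ ha) ((eventually_mem_set.2 (isOpen_Ioo.mem_nhds hs)).mono hc)
      e).and (ev_src hγ.1.continuousAt ha)).mono fun r hr => by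
        rw [← hr.1, (chartAt En a).left_inv hr.2]
  refine clopen isPreconnected_Ioo h0 (key _ h0 ha ⟨e0, e1⟩) fun s hs hf => ?_
  obtain ⟨c1, c2⟩ := hc s hs
  have e : γ s = (chartAt En a).symm (c s) := tendsto_nhds_unique_of_frequently_eq
    hγ.1.continuousAt (((chartAt En a).continuousAt_symm c1).comp c2.1.continuousAt)
    (hf.mono fun _ hr => hr.self_of_nhds)
  have hs' : γ s ∈ (chartAt En a).source := e ▸ (chartAt En a).map_target c1
  have g1 := hγ.2 a s hs'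
  refine key s hs hs' (freq g1.1 c2.1 g1.2.1 c2.2.1 ((hf.and_eventually
    (eventually_mem_set.2 (isOpen_Ioo.mem_nhds hs)).eventually_nhds).mono fun r hr => ?_))
  exact (hr.1.and hr.2).mono fun x hx => by
    simp only [hx.1, (chartAt En a).right_inv (hc x hx.2).1]

theorem uniq [T2Space M] (hA : AStmt) (h : ChartFacts g) (γ₁ γ₂ : ℝ → M)
    (h1 : IsGeodesic (un g) γ₁) (h2 : IsGeodesic (un g) γ₂) (e0 : γ₁ 0 = γ₂ 0)
    (e1 : vel γ₁ 0 = vel γ₂ 0) : γ₁ = γ₂ := by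
  have key : ∀ s, γ₁ s = γ₂ s → deriv (fun r => chartAt En (γ₁ s) (γ₁ r)) s =
      deriv (fun r => chartAt En (γ₁ s) (γ₂ r)) s → ∀ᶠ r in 𝓝 s, γ₁ r = γ₂ r := fun s e e' => by
    have p1 := mem_chart_source En (γ₁ s)
    have p2 : γ₂ s ∈ (chartAt En (γ₁ s)).source := e ▸ p1
    exact ((loc_uniq hA (h.cm _) (ev_geo h1 p1) (ev_geo h2 p2) ⟨congrArg _ e, e'⟩).and
      ((ev_src h1.1.continuousAt p1).and (ev_src h2.1.continuousAt p2))).mono fun r hr =>
        (chartAt En (γ₁ s)).injOn hr.2.1 hr.2.2 hr.1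
  refine funext fun s => clopen isPreconnected_univ (mem_univ 0)
    (key 0 e0 (e1.trans (by rw [vel, e0]))) (fun s _ hf => ?_) s (mem_univ s)
  have e : γ₁ s = γ₂ s := tendsto_nhds_unique_of_frequently_eq h1.1.continuousAt
    h2.1.continuousAt (hf.mono fun _ hr => hr.self_of_nhds)
  have p1 := mem_chart_source En (γ₁ s)
  have g1 := h1.2 _ s p1
  have g2 := h2.2 (γ₁ s) s (e ▸ p1)
  exact key s e (freq g1.1 g2.1 g1.2.1 g2.2.1 (hf.mono fun r hr => hr.mono fun x hx =>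
    congrArg _ hx)).2

theorem ju (hA : AStmt) (h : ChartFacts g) (γ : ℝ → M) (J : ℝ → En) (hγ : IsGeodesic (un g) γ)
    (hJ : IsJacobi (un g) γ J) (s₁ : ℝ) (e0 : J s₁ = 0) (e1 : deriv (locVec (γ s₁) γ J) s₁ = 0)
    (s : ℝ) : J s = 0 := by
  have ev : ∀ s, ∀ᶠ r in 𝓝 s, chartAt En (γ s) (γ r) ∈ (chartAt En (γ s)).target ∧
      GeoAt (ub (locB g (γ s))) (fun r => chartAt En (γ s) (γ r)) r ∧
      JacAt (ub (locB g (γ s))) (fun r => chartAt En (γ s) (γ r)) (locVec (γ s) γ J) r :=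
    fun s => (ev_src hγ.1.continuousAt (mem_chart_source En (γ s))).mono fun r hr =>
      ⟨(chartAt En _).map_source hr, hγ.2 _ r hr, hJ _ r hr⟩
  have key : ∀ s, (locVec (γ s) γ J s = 0 ∧ deriv (locVec (γ s) γ J) s = 0) →
      ∀ᶠ r in 𝓝 s, J r = 0 := fun s e =>
    ((jac_uniq hA (h.cm _) (ev s) e).and (ev_src hγ.1.continuousAt
      (mem_chart_source En (γ s)))).mono fun r hr =>
        (h.bij _ _ hr.2).1 (hr.1.trans (map_zero _).symm)
  refine clopen isPreconnected_univ (mem_univ s₁)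
    (key s₁ ⟨by rw [locVec_eq, e0, map_zero], e1⟩) (fun s _ hf => key s ?_) s (mem_univ s)
  obtain ⟨Γ, hΓ⟩ := hA.1 _ _ (h.cm (γ s))
  have := freq (c₂ := fun _ => 0) (ev s).self_of_nhds.2.2.1 (differentiableAt_const _)
    (jac_der hA (h.cm _) hΓ (ev s)).self_of_nhds.differentiableAt (by simp)
    (hf.mono fun r hr => hr.mono fun x hx => by rw [locVec_eq, hx, map_zero])
  simpa using this

end Gg

theorem gStmt (hA : AStmt) : GStmt := fun _ _ _ _ _ h =>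
  ⟨Gg.uchart hA h, Gg.uniq hA h, Gg.speed hA h, Gg.rep hA h, Gg.one hA h,
    fun _ hγ => Gg.dv h hγ, Gg.ju hA h⟩

end Vale.Agent.P234
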