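import Vale.Agent.P234.W
import Vale.Agent.P234.A0
import Vale.Agent.P234.G0
import Vale.Agent.P234.E0
import Vale.Agent.P255.O

/-! Final assembly for P234. -/

open scoped Manifold ContDiff Topology
open Set Filter

namespace Vale.Agent.P234
open Vale.Agent.P255 (Metric ip oStmt)

variable [Dim]

theorem convex_all (hS : SStmt) (hT : TStmt) (h1 : N1Stmt) (h2 : N2Stmt) (hP : PStmt)
    (hB : BrStmt) (hY : YStmt) (hH : HStmt) (hK : KStmt) (hF : FStmt) (hO : OStmt')
    (hL : LStmt) (hZ : ZStmt) :
    All fun _ _ _ _ R => R.MTW → ∀ x, Convex ℝ (R.Io x) := by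
  intro M _ _ _ _ _ R hW x
  have s := hS M R
  have t := hT M R s
  have n1 := h1 M R s t
  have n2 := h2 M R n1
  have p := hP M R s t
  have b := hB M R s t n1 n2
  have y := hY M R s t n1 n2 b
  have h := hH M R s t n1 n2 p b y
  have k := hK M R s t n1 n2 p b y h
  exact R.convex_Io n2 (R.convex_Ib hZ s t n2 b k (hF M R s t n2 y h k hW)
    (hO M R t n1 n2 y k) (hL M R t n1 n2 b y h k hW) x)

theorem fin (hD : DStmt) (hC : All fun _ _ _ _ R => R.MTW → ∀ x, Convex ℝ (R.Io x))
    (M : Type) [t : TopologicalSpace M]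
    [ChartedSpace En M] [IsManifold 𝓘(ℝ, En) ∞ M] [T2Space M] [CompactSpace M]
    [ConnectedSpace M] (g : Metric En M) (h : WeakMTW g) : ConvexInjDoms g := by
  obtain ⟨g', hm, hg⟩ := (bStmt M).1 g
  have cf := (bStmt M).2.2 g' hm
  obtain ⟨d, rfl, hd, ld, lip⟩ := hD M g g' hg cf
  have gf := gStmt aStmt M g' cf
  obtain ⟨geo, fam⟩ := eStmt aStmt oStmt (gStmt aStmt) M g' cf
  let R : Riem M := ⟨g', geo, cf, gf, fam, by simpa only [hd] using ld,
    by simpa only [hd] using lip⟩
  have ip' : ∀ x (u v : En), ip g x u v = R.g x u v := fun x u v => by rw [← hg]; rfl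
  have key : ∀ x (v : En) γ, IsGeodesicFrom g x v γ ↔ γ = geo x v := fun x v γ => by
    have e : mfderiv 𝓘(ℝ, En) 𝓘(ℝ, En) (chartAt En x) x v = v := by
      have := DFunLike.congr_fun (cf.self x) v
      exact this
    simp only [IsGeodesicFrom, e, ← hg]
    constructor
    · rintro ⟨a, b, c⟩
      refine gf.uniq _ _ a (fam x v).1 (by rw [b, (fam x v).2.1]) ?_
      rw [(fam x v).2.2, vel, b, c]
    · rintro rfl
      refine ⟨(fam x v).1, (fam x v).2.1, ?_⟩
      have := (fam x v).2.2
      rwa [vel, (fam x v).2.1] at this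
  have ex : ∀ x (v : En), expm g x v = R.ex x v := fun x v => by
    haveI : Nonempty M := ⟨x⟩
    have := Classical.epsilon_spec (p := IsGeodesicFrom g x v) ⟨_, (key x v _).2 rfl⟩
    exact congrFun ((key x v _).1 this) 1
  have io : ∀ x, injDom g x = R.Io x := fun x => by
    refine Set.ext fun v : En => exists_congr fun a => and_congr_right fun ha => ?_
    have e1 := ex x (a • v)
    have e2 := R.nr_smul x a v
    rw [abs_of_pos (by linarith), Riem.nr, Riem.nr, ← ip' x v v] at e2
    change rdist g x (expm g x (a • v : En)) = a * √(ip g x v v) ↔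
      dist x (R.ex x (a • v)) = √(R.g x (a • v) (a • v))
    rw [e1, e2, hd]
  have co : ∀ x y, cost g x y = cst x y := fun x y => by rw [cost, cst, hd]
  intro x
  rw [io]
  refine hC M R (fun x v hv ξ η hξ => ?_) x
  have := h x v (by rw [io]; exact hv) ξ η (by rw [ip']; exact hξ)
  simp only [mtw, iteratedDeriv_succ, iteratedDeriv_zero, co] at this
  have e : (fun s : ℝ => R.H x (v + s • η) ξ) = fun s : ℝ => deriv (deriv fun t : ℝ =>
      cst (expm g x (t • ξ : En)) (expm g x (v + s • η : En))) 0 := by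
    simp only [Riem.H, ex]
  rw [e]
  exact nonpos_of_mul_nonneg_right this (by norm_num)

end Vale.Agent.P234
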