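import Vale.Agent.P234.Base

/-! Module H: calculus of the Hessian of the cost at a fixed base point. -/

open scoped Manifold ContDiff Topology
open Set Filter

namespace Vale.Agent.P234

namespace Hm

section calc1
variable {E : Type} [NormedAddCommGroup E] [NormedSpace ℝ E] {F G : E → ℝ} {w : E}

/-- directional derivative -/
noncomputable def dd (a : E) (F : E → ℝ) : E → ℝ := fun w => fderiv ℝ F w a

lemma two_le : (2 : WithTop ℕ∞) ≤ ∞ := WithTop.coe_le_coe.2 (le_top : (2 : ℕ∞) ≤ ⊤)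

lemma fd_sm {W : Type} [NormedAddCommGroup W] [NormedSpace ℝ W] {F : E → W}
    (h : ContDiffAt ℝ ∞ F w) : ContDiffAt ℝ ∞ (fderiv ℝ F) w :=
  h.fderiv_right (m := ∞) (WithTop.coe_le_coe.2 (le_top : (⊤ + 1 : ℕ∞) ≤ ⊤))

lemma dd_sm (h : ContDiffAt ℝ ∞ F w) (a : E) : ContDiffAt ℝ ∞ (dd a F) w :=
  (fd_sm h).clm_apply contDiffAt_const

lemma ev2 (h : ContDiffAt ℝ ∞ F w) : ∀ᶠ w' in 𝓝 w, ContDiffAt ℝ 2 F w' :=
  (h.of_le two_le).eventually (by simp)

lemma dd_congr (h : F =ᶠ[𝓝 w] G) (a : E) : dd a F w = dd a G w := by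
  simp only [dd, h.fderiv_eq]

lemma dd2 (h : ContDiffAt ℝ 2 F w) (a b : E) :
    dd a (dd b F) w = fderiv ℝ (fderiv ℝ F) w a b := by
  have h1 : DifferentiableAt ℝ (fderiv ℝ F) w :=
    (h.fderiv_right (m := 1) (by norm_num)).differentiableAt one_ne_zero
  have h2 : fderiv ℝ (dd b F) w = _ := (h1.hasFDerivAt.clm_apply (hasFDerivAt_const b w)).fderiv
  rw [dd, h2]
  simp

lemma sym (h : ContDiffAt ℝ 2 F w) (a b : E) : dd a (dd b F) w = dd b (dd a F) w := by
  rw [dd2 h, dd2 h]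
  exact h.isSymmSndFDerivAt (by simp) a b

lemma sym3 (h : ContDiffAt ℝ ∞ F w) (a b : E) :
    dd a (dd a (dd b F)) w = dd b (dd a (dd a F)) w := by
  rw [← sym ((dd_sm h a).of_le two_le)]
  exact dd_congr ((ev2 h).mono fun w' h' => sym h' a b) a

lemma tl (w a : E) : Tendsto (fun t : ℝ => w + t • a) (𝓝 0) (𝓝 w) := by
  have : Continuous fun t : ℝ => w + t • a := by fun_prop
  simpa using this.tendsto 0

lemma line1 {a : E} {t : ℝ} (h : DifferentiableAt ℝ F (w + t • a)) :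
    HasDerivAt (fun t : ℝ => F (w + t • a)) (dd a F (w + t • a)) t := by
  have h1 : HasDerivAt (fun t : ℝ => w + t • a) a t := by
    simpa using ((hasDerivAt_id t).smul_const a).const_add w
  exact h.hasFDerivAt.comp_hasDerivAt t h1

lemma line0 (h : ContDiffAt ℝ ∞ F w) (a : E) :
    HasDerivAt (fun t : ℝ => F (w + t • a)) (dd a F w) 0 := by
  have := line1 (F := F) (w := w) (a := a) (t := 0)
    (by simpa using h.differentiableAt (by simp))
  simpa using this

lemma line (h : ContDiffAt ℝ ∞ F w) (a : E) : ∀ᶠ t in 𝓝 (0 : ℝ),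
    HasDerivAt (fun t : ℝ => F (w + t • a)) (dd a F (w + t • a)) t :=
  ((tl w a).eventually (ev2 h)).mono fun _ h' => line1 (h'.differentiableAt (by simp))

lemma line2 (h : ContDiffAt ℝ ∞ F w) (a : E) :
    deriv (deriv fun t : ℝ => F (w + t • a)) 0 = dd a (dd a F) w := by
  rw [← (line0 (dd_sm h a) a).deriv]
  exact EventuallyEq.deriv_eq ((line h a).mono fun _ h' => h'.deriv)

/-- second derivative test -/
lemma sec {P P₁ : ℝ → ℝ} {c : ℝ} (h1 : ∀ᶠ t in 𝓝 (0 : ℝ), HasDerivAt P (P₁ t) t)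
    (h2 : HasDerivAt P₁ c 0) (hm : IsLocalMin P 0) : 0 ≤ c := by
  by_contra hc
  have e : deriv P =ᶠ[𝓝 0] P₁ := h1.mono fun _ h' => h'.deriv
  have e2 : deriv (deriv P) 0 = c := by rw [e.deriv_eq, h2.deriv]
  have hx := isLocalMax_of_deriv_deriv_neg (f := P) (x₀ := 0) (by linarith) hm.deriv_eq_zero
    h1.self_of_nhds.continuousAt
  have e3 : P =ᶠ[𝓝 0] fun _ => P 0 := by
    filter_upwards [hm, hx] with t a b using le_antisymm b a
  rw [e3.deriv.deriv_eq] at e2
  simp at e2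
  exact hc e2.le

end calc1

variable [Dim] {M : Type} [MetricSpace M] [ChartedSpace En M] [IsManifold 𝓘(ℝ, En) ∞ M]
  {R : Riem M} {x : M} {v : En}

/-- the cost at a fixed base point -/
noncomputable def C (R : Riem M) (x : M) (w : En × En) : ℝ := cst (R.ex x w.2) (R.ex x w.1)

lemma C_sm (hB : R.Br) (h : R.Good x v) : ContDiffAt ℝ ∞ (C R x) (v, 0) := by
  have h1 := hB.smc x x v (mem_chart_source _ _) h
  rw [R.cf.self] at h1
  have h2 : ContDiffAt ℝ ∞ (fun w : En × En => (chartAt En x x, w.1, w.2)) (v, 0) := by fun_prop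
  have h3 := ContDiffAt.comp (v, 0) (g := R.Cc x) h1 h2
  refine h3.congr_of_eventuallyEq (Eventually.of_forall fun w => ?_)
  exact (R.Cc_self x w.1 w.2).symm

omit [IsManifold 𝓘(ℝ, En) ∞ M] in
lemma C_line (v ξ : En) (t : ℝ) :
    C R x ((v, 0) + t • (0, ξ)) = cst (R.ex x (t • ξ)) (R.ex x v) := by simp [C]

lemma H_eq (hB : R.Br) (h : R.Good x v) (ξ : En) :
    R.H x v ξ = dd (0, ξ) (dd (0, ξ) (C R x)) (v, 0) := by
  rw [← line2 (C_sm hB h)]
  simp only [C_line, Riem.H]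

lemma ev_good (hT : R.Top) (hB : R.Br) (h : R.Good x v) : ∀ᶠ u in 𝓝 v, R.Good x u :=
  (hB.gopen.preimage (hT.ctm x)).mem_nhds h

lemma d_xi (hB : R.Br) (hY : R.Tay) (h : R.Good x v) (u : En) :
    dd (0, u) (C R x) (v, 0) = -R.g x v u := by
  have h1 : ContDiffAt ℝ 1 (fun ξ : En => C R x (v, ξ)) 0 :=
    ContDiffAt.comp 0 (g := C R x) ((C_sm hB h).of_le (by simp)) (by fun_prop)
  rw [← hY.sg x _ v h.2.1 rfl h1 u]
  refine (line0 (C_sm hB h) _).unique ?_
  have := line1 (F := fun ξ : En => C R x (v, ξ)) (w := 0) (a := u) (t := 0)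
    (by simpa using h1.differentiableAt one_ne_zero)
  simpa [C, dd] using this

/-- derivative in the second point, along the fibre -/
lemma d_v {F : En × En → ℝ} (hF : ContDiffAt ℝ ∞ F (v, 0)) {f : En → ℝ} {f' : En →L[ℝ] ℝ}
    (hf : HasFDerivAt f f' v) (e : ∀ᶠ u in 𝓝 v, F (u, 0) = f u) (ζ : En) :
    dd (ζ, 0) F (v, 0) = f' ζ := by
  have h1 : HasFDerivAt (fun u : En => F (u, 0)) _ v :=
    (hF.differentiableAt (by simp)).hasFDerivAt.comp v (hasFDerivAt_prodMk_left v 0)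
  have := congrArg (fun L => L ζ) (h1.unique (hf.congr_of_eventuallyEq e))
  simpa [dd] using this

omit [IsManifold 𝓘(ℝ, En) ∞ M] in
lemma g_der (R : Riem M) (x : M) (v : En) : HasFDerivAt (fun u => R.g x u u) ((2 : ℝ) • R.g x v) v := by
  have := (R.g x).hasFDerivAt.clm_apply (hasFDerivAt_id v)
  refine this.congr_fderiv ?_
  ext u
  simp [R.g_symm x u v, two_mul]

lemma RI (hN1 : R.Near1) (hN : R.Near) (hB : R.Br) (h : R.Good x v) (u : En) :
    dd (0, v) (dd (0, u) (C R x)) (v, 0) = R.g x v u := by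
  have hC := C_sm hB h
  have up : ∀ ξ, cst x (R.ex x ξ) ≤ R.g x ξ ξ / 2 := fun ξ => by
    have := hN1.up x ξ 0 1
    rw [R.geo_zero] at this
    rw [cst, ← R.nr_sq]
    gcongr
    simpa [Riem.ex] using this
  have key : ∀ᶠ s in 𝓝[>] (0 : ℝ),
      dd (0, u) (C R x) ((v, 0) + s • (0, v)) = -(1 - s) * R.g x v u := by
    filter_upwards [nhdsWithin_le_nhds ((tl (v, 0) (0, v)).eventually (ev2 hC)),
      Ioo_mem_nhdsGT one_pos] with s h1 h2
    have h3 := line1 (F := C R x) (w := (v, 0) + s • (0, v)) (a := (0, u)) (t := 0)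
      (by simpa using h1.differentiableAt (by simp))
    have h4 := line1 (F := fun u => R.g x u u) (w := s • v) (a := u) (t := 0)
      (g_der R x _).differentiableAt
    rw [dd, (g_der R x _).fderiv] at h4
    have h5 := (h4.div_const (2 * s)).add (h3.div_const (1 - s))
    have s1 : 0 < 1 - s := by linarith [h2.2]
    have s0 := h2.1
    have h6 := IsLocalMin.hasDerivAt_eq_zero (Eventually.of_forall fun t => ?_) h5
    · simp only [zero_smul, add_zero, smul_apply, map_smul, smul_eq_mul] at h6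
      field_simp at h6
      linarith
    · have a1 := cst_tri x (R.ex x (s • v + t • u)) (R.ex x v) s0 h2.2
      have a2 := up (s • v + t • u)
      have a3 := hN.seg x v h.2.1 s 1 s0.le h2.2.le le_rfl
      rw [R.cst_of_Ib h.2.1] at a1
      have a4 : cst x (R.ex x (s • v + t • u)) / s ≤
          R.g x (s • v + t • u) (s • v + t • u) / (2 * s) := by
        rw [← div_div]; gcongr
      have a5 : cst (R.ex x (s • v)) (R.ex x v) = (1 - s) ^ 2 * R.g x v v / 2 := by
        rw [cst, R.ex_smul, Riem.ex, a3, mul_pow, R.nr_sq]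
      have a6 : R.g x (s • v) (s • v) / (2 * s) + (1 - s) ^ 2 * R.g x v v / 2 / (1 - s) =
          R.g x v v / 2 := by
        simp only [map_smul, smul_apply, smul_eq_mul]
        field_simp
        ring
      simp only [C, Pi.add_apply, zero_smul, add_zero, Prod.smul_mk, smul_zero, Prod.mk_add_mk,
        zero_add]
      rw [a5]
      linarith
  have h1 := line0 (dd_sm hC (0, u)) (0, v)
  have h2 : HasDerivAt (fun s : ℝ => -(1 - s) * R.g x v u) (R.g x v u) 0 := by
    simpa using ((hasDerivAt_id (0 : ℝ)).const_sub 1).neg.mul_const (R.g x v u)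
  have h3 := tendsto_nhds_unique_of_eventuallyEq
    (h1.continuousAt.tendsto.mono_left nhdsWithin_le_nhds)
    (h2.continuousAt.tendsto.mono_left nhdsWithin_le_nhds) key
  exact (uniqueDiffWithinAt_Ioi (0 : ℝ)).eq_deriv _ h1.hasDerivWithinAt
    (h2.hasDerivWithinAt.congr_of_eventuallyEq key h3)

lemma ric0 (hS : R.Sm) (hT : R.Top) (hQ : R.Qb) (hB : R.Br) (hY : R.Tay) (h : R.Good x v)
    (ξ ζ : En) : dd (v, 0) (dd (0, ξ) (dd (0, ξ) (C R x))) (v, 0) - R.H x v ξ ≤
      R.q x v ζ + 2 * R.g x ζ ξ := by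
  have hC := C_sm hB h
  have hg := ev_good hT hB h
  have a1 : ∀ u, dd (u, 0) (C R x) (v, 0) = R.g x v u := fun u => by
    rw [d_v hC ((g_der R x v).const_mul (1 / 2)) (hg.mono fun u hu => by
      simp only [C, R.ex_zero, R.cst_of_Ib hu.2.1]; ring)]
    simp
  have a2 : dd (0, ξ) (dd (ζ, 0) (C R x)) (v, 0) = -R.g x ζ ξ := by
    rw [sym (hC.of_le two_le), d_v (dd_sm hC _) ((R.g x).flip ξ).hasFDerivAt.neg
      (hg.mono fun u hu => d_xi hB hY hu ξ)]
    simp
  have q1 : ∀ t : ℝ, R.q x v (v + t • ζ) = R.g x v v + 2 * t * R.g x v ζ + t ^ 2 * R.q x v ζ := by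
    intro t
    simp only [Riem.q, map_add, map_smul, add_apply,
      smul_apply, smul_eq_mul]
    rw [R.g_symm _ (R.dex x v ζ) (R.dex x v v), hS.gauss, hS.gauss]
    ring
  have nn : ∀ᶠ t in 𝓝 (0 : ℝ), ∀ u, dd (u, 0) (C R x) ((v, 0) + t • (0, ξ)) ≤
      R.q x v u / 2 + C R x ((v, 0) + t • (0, ξ)) := by
    filter_upwards [(tl (v, 0) (0, ξ)).eventually (ev2 hC)] with t ht u
    have b1 := line1 (F := C R x) (w := (v, 0) + t • (0, ξ)) (a := (u, 0)) (t := 0)
      (by simpa using ht.differentiableAt (by simp))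
    rw [zero_smul, add_zero] at b1
    set d := dist (R.ex x (t • ξ)) (R.ex x v) with hd
    have d0 : 0 ≤ d := dist_nonneg
    have b2 : ∀ ε > 0, dd (u, 0) (C R x) ((v, 0) + t • (0, ξ)) ≤ d * (√(R.q x v u) + ε) := by
      intro ε hε
      set k := √(R.q x v u) + ε
      have c1 : HasDerivAt (fun s : ℝ => (d + s * k) ^ 2 / 2) (d * k) 0 := by
        refine ((((hasDerivAt_id (0 : ℝ)).mul_const k).const_add d).pow 2).div_const 2
          |>.congr_deriv ?_
        simp; ring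
      have c2 := (c1.sub b1).tendsto_slope_zero_right
      refine sub_nonneg.1 (ge_of_tendsto c2 ?_)
      filter_upwards [hQ.lipv x v u ε hε, self_mem_nhdsWithin] with s hs s0
      refine smul_nonneg (inv_nonneg.2 (le_of_lt s0)) ?_
      have c3 := dist_triangle (R.ex x (t • ξ)) (R.ex x v) (R.ex x (v + s • u))
      have c4 : dist (R.ex x (t • ξ)) (R.ex x (v + s • u)) ^ 2 ≤ (d + s * k) ^ 2 := by
        gcongr; linarith
      simp only [C, cst, Pi.sub_apply, zero_add, zero_mul, add_zero, Prod.smul_mk, smul_zero,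
        Prod.mk_add_mk, zero_smul]
      linarith
    have b3 : dd (u, 0) (C R x) ((v, 0) + t • (0, ξ)) ≤ d * √(R.q x v u) := by
      have : ContinuousAt (fun ε : ℝ => d * (√(R.q x v u) + ε)) 0 := by fun_prop
      simpa using ge_of_tendsto (this.tendsto.mono_left (nhdsWithin_le_nhds (s := Ioi 0)))
        (eventually_nhdsWithin_of_forall b2)
    rw [C_line, cst, ← hd]
    have b4 : √(R.q x v u) ^ 2 = R.q x v u := Real.sq_sqrt (R.g_nn _ _)
    nlinarith [sq_nonneg (d - √(R.q x v u))]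
  have e1 := sec (P := fun t => (R.g x v v + 2 * t * R.g x v ζ + t ^ 2 * R.q x v ζ) / 2 +
      C R x ((v, 0) + t • (0, ξ)) - dd (v, 0) (C R x) ((v, 0) + t • (0, ξ)) -
      t * dd (ζ, 0) (C R x) ((v, 0) + t • (0, ξ)))
    (P₁ := fun t => R.g x v ζ + t * R.q x v ζ + dd (0, ξ) (C R x) ((v, 0) + t • (0, ξ)) -
      dd (0, ξ) (dd (v, 0) (C R x)) ((v, 0) + t • (0, ξ)) -
      (dd (ζ, 0) (C R x) ((v, 0) + t • (0, ξ)) +
        t * dd (0, ξ) (dd (ζ, 0) (C R x)) ((v, 0) + t • (0, ξ)))) ?_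
    ((((((hasDerivAt_id (0 : ℝ)).mul_const (R.q x v ζ)).const_add (R.g x v ζ)).add
      (line0 (dd_sm hC (0, ξ)) (0, ξ))).sub (line0 (dd_sm (dd_sm hC (v, 0)) (0, ξ)) (0, ξ))).sub
      ((line0 (dd_sm hC (ζ, 0)) (0, ξ)).add ((hasDerivAt_id (0 : ℝ)).mul
        (line0 (dd_sm (dd_sm hC (ζ, 0)) (0, ξ)) (0, ξ))))) ?_
  · simp only [zero_smul, add_zero, one_mul, id, zero_mul] at e1
    rw [a2, sym3 hC, ← H_eq hB h] at e1
    linarith
  · filter_upwards [line hC (0, ξ), line (dd_sm hC (v, 0)) (0, ξ), line (dd_sm hC (ζ, 0)) (0, ξ)]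
      with t b1 b2 b3
    have b4 : HasDerivAt (fun t : ℝ => (R.g x v v + 2 * t * R.g x v ζ + t ^ 2 * R.q x v ζ) / 2)
        (R.g x v ζ + t * R.q x v ζ) t := by
      refine ((((((hasDerivAt_id t).const_mul 2).mul_const (R.g x v ζ)).const_add (R.g x v v)).add
        (((hasDerivAt_id t).pow 2).mul_const (R.q x v ζ))).div_const 2).congr_deriv ?_
      simp; ring
    refine (((b4.add b1).sub b2).sub ((hasDerivAt_id t).mul b3)).congr_deriv ?_
    simp
  · filter_upwards [nn] with t ht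
    have b1 := ht (v + t • ζ)
    have b2 : dd (v + t • ζ, 0) (C R x) ((v, 0) + t • (0, ξ)) =
        dd (v, 0) (C R x) ((v, 0) + t • (0, ξ)) + t * dd (ζ, 0) (C R x) ((v, 0) + t • (0, ξ)) := by
      rw [show ((v + t • ζ, 0) : En × En) = (v, 0) + t • (ζ, 0) by simp, dd, map_add, map_smul]
      rfl
    have b3 : C R x (v, 0) = R.g x v v / 2 := by simp only [C, R.ex_zero, R.cst_of_Ib h.2.1]
    rw [b2, q1] at b1
    simp only [zero_smul, add_zero, a1, b3]
    linarith

end Hm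

open Hm

variable [Dim]

theorem hStmt : HStmt := by
  intro M _ _ _ _ _ R hS hT hN1 hN hQ hB hY
  have hsm : ∀ x v ξ, R.Good x v → (fun u => R.H x u ξ) =ᶠ[𝓝 v]
      fun u => dd (0, ξ) (dd (0, ξ) (C R x)) (u, 0) := fun x v ξ h =>
    (ev_good hT hB h).mono fun u hu => H_eq hB hu ξ
  refine ⟨fun x => ⟨fun v => (fderiv ℝ (fderiv ℝ (C R x)) (v, 0)).bilinearComp
    (ContinuousLinearMap.inr ℝ En En) (ContinuousLinearMap.inr ℝ En En), fun v h => ?_⟩,
    fun x ξ => ?_, fun x v ξ h => ?_, fun x w ξ ζ t ρ h => ?_,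
    fun x w ξ δ t hδ ht h1 h2 hd => ?_⟩
  · have h2 := (C_sm hB h).of_le two_le
    simp only [ContinuousLinearMap.bilinearComp_apply, ContinuousLinearMap.inr_apply, ← dd2 h2]
    exact ⟨fun ξ η => sym h2 _ _, H_eq hB h, RI hN1 hN hB h⟩
  · obtain ⟨δ, hδ, h⟩ := hN1.n1
    have c : Continuous fun t : ℝ => |t| * R.nr x ξ := by fun_prop
    have e : (fun t : ℝ => cst (R.ex x (t • ξ)) (R.ex x 0)) =ᶠ[𝓝 0]
        fun t => t ^ 2 * (R.g x ξ ξ / 2) := by
      filter_upwards [c.continuousAt.eventually_lt continuousAt_const (by simpa using hδ)] with t ht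
      rw [R.ex_zero, cst_comm, R.cst_of_Ib (h x _ (by rwa [R.nr_smul])).2]
      simp only [map_smul, smul_apply, smul_eq_mul]
      ring
    have e2 : (deriv fun t : ℝ => t ^ 2 * (R.g x ξ ξ / 2)) = fun t => t * R.g x ξ ξ := by
      ext t; simp; ring
    rw [Riem.H, e.deriv.deriv_eq, e2]
    simp
  · refine ContDiffAt.congr_of_eventuallyEq ?_ (hsm x v ξ h)
    exact ContDiffAt.comp v (g := dd (0, ξ) (dd (0, ξ) (C R x)))
      ((dd_sm (dd_sm (C_sm hB h) _) _).of_le two_le) (by fun_prop)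
  · have a1 := ric0 hS hT hQ hB hY h ξ (ρ • ζ)
    have a2 := (line0 (dd_sm (dd_sm (C_sm hB h) (0, ξ)) (0, ξ)) (w, 0)).comp_of_eq t
      ((hasDerivAt_id t).sub_const t) (by simp)
    have c : Continuous fun s : ℝ => s • w := by fun_prop
    have a3 := a2.congr_of_eventuallyEq (f₁ := fun s : ℝ => R.H x (s • w) ξ) (by
      filter_upwards [(c.tendsto t).eventually (hsm x _ ξ h)] with s hs
      rw [hs]
      simp [sub_smul])
    rw [show ((t • w, 0) : En × En) = t • (w, 0) by simp, dd, map_smul,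
      show t • ((w, 0) : En × En) = (t • w, 0) by simp] at a1
    simp only [Riem.q, map_smul, smul_apply, smul_eq_mul] at a1
    rw [a3.deriv, dd, Riem.q]
    linarith
  · have c1 := C_sm hB h1
    have c2 := C_sm hB h2
    rw [H_eq hB h1, H_eq hB h2]
    refine sec (P := fun s => C R x ((-δ • w, 0) + s • (0, ξ)) / δ +
        C R x ((t • w, 0) + s • (0, ξ)) / t) ?_
      (((line0 (dd_sm c1 _) _).div_const δ).add ((line0 (dd_sm c2 _) _).div_const t))
      (Eventually.of_forall fun s => ?_)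
    · filter_upwards [line c1 (0, ξ), line c2 (0, ξ)] with s a b
      exact (a.div_const δ).add (b.div_const t)
    · have a1 := cst_tri (R.ex x (-δ • w)) (R.ex x (s • ξ)) (R.ex x (t • w)) (l := δ / (δ + t))
        (by positivity) (by rw [div_lt_one (by positivity)]; linarith)
      simp only [C_line]
      rw [zero_smul, R.ex_zero, R.cst_of_Ib h1.2.1, R.cst_of_Ib h2.2.1]
      rw [cst, hd, mul_pow, R.nr_sq, cst_comm] at a1
      simp only [map_smul, smul_apply, smul_eq_mul]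
      have e1 : 1 - δ / (δ + t) = t / (δ + t) := by field_simp; ring
      rw [e1, div_div_eq_mul_div, div_div_eq_mul_div] at a1
      have e2 : -δ * (-δ * R.g x w w) / 2 / δ + t * (t * R.g x w w) / 2 / t =
          (δ + t) ^ 2 * R.g x w w / 2 / (δ + t) := by field_simp
      rw [e2, div_le_iff₀ (by positivity)]
      refine a1.trans (le_of_eq ?_)
      ring

end Vale.Agent.P234
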