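import Vale.Agent.P234.Base

/-! Module K: conjugate points. -/

open scoped Manifold ContDiff Topology
open Set Filter

namespace Vale.Agent.P234

namespace Kj

lemma mono1 {k φ φ' : ℝ → ℝ} {a b : ℝ} (ha : 0 < a) (hab : a ≤ b)
    (hk : ∀ s ∈ Icc a b, DifferentiableAt ℝ k s) (hφ : ∀ s ∈ Icc a b, HasDerivAt φ (φ' s) s)
    (h : ∀ s ∈ Icc a b, s * deriv k s - k s ≤ -(φ' s * s ^ 2)) :
    k b / b + φ b ≤ k a / a + φ a := by
  have hd : ∀ s ∈ Icc a b, HasDerivAt (fun s => k s / s + φ s)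
      ((deriv k s * s - k s * 1) / s ^ 2 + φ' s) s := fun s hs =>
    ((hk s hs).hasDerivAt.div (hasDerivAt_id' s) (ha.trans_le hs.1).ne').add (hφ s hs)
  have := antitoneOn_of_deriv_nonpos (f := fun s => k s / s + φ s) (convex_Icc a b)
    (fun s hs => (hd s hs).continuousAt.continuousWithinAt)
    (fun s hs => (hd s (interior_subset hs)).differentiableAt.differentiableWithinAt)
    (fun s hs => by
      have hs' := interior_subset hs
      have s0 : 0 < s ^ 2 := pow_pos (ha.trans_le hs'.1) 2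
      rw [(hd s hs').deriv, ← le_neg_iff_add_nonpos_right, div_le_iff₀ s0]
      linarith [h s hs'])
  exact this ⟨le_rfl, hab⟩ ⟨hab, le_rfl⟩ hab

variable [Dim] {M : Type} [MetricSpace M] [ChartedSpace En M] [IsManifold 𝓘(ℝ, En) ∞ M]
  {R : Riem M}

lemma kdiff (hH : R.Hs) {x : M} {w : En} (ξ : En) {t : ℝ} (h : R.Good x (t • w)) :
    DifferentiableAt ℝ (fun s : ℝ => R.H x (s • w) ξ) t :=
  ((hH.sm x _ ξ h).differentiableAt (by norm_num)).comp t
    (f := fun s : ℝ => s • w) (by fun_prop)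

lemma bu (hQ : R.Qb) (hH : R.Hs) (x : M) (w ζ ξ : En) (hg : ∀ t ∈ Ioo (0 : ℝ) 1, R.Good x (t • w))
    (hz : R.dex x w ζ = 0) (hn : R.g x ζ ξ ≠ 0) :
    ∃ C, ∃ c > 0, ∀ α ∈ Ico (1 / 2 : ℝ) 1, R.H x (α • w) ξ ≤ C - c / (1 - α) := by
  obtain ⟨C, c0, hC⟩ := hQ.qz x w ζ hz
  set b := R.g x ζ ξ with hb
  have b0 : 0 < b ^ 2 / C := by positivity
  refine ⟨|R.H x ((1 / 2 : ℝ) • w) ξ / (1 / 2) + b ^ 2 / C / (1 - 1 / 2)|, b ^ 2 / C / 2,
    by positivity, fun α hα => ?_⟩
  have a1 : 0 < 1 - α := by linarith [hα.2]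
  have := mono1 (k := fun s : ℝ => R.H x (s • w) ξ) (φ := fun s => b ^ 2 / C / (1 - s))
    (φ' := fun s => b ^ 2 / C / (1 - s) ^ 2) (a := 1 / 2) (b := α) (by norm_num) hα.1
    (fun s hs => kdiff hH ξ (hg s ⟨by linarith [hs.1], by linarith [hs.2, hα.2]⟩))
    (fun s hs => by
      have s1 : 1 - s ≠ 0 := by linarith [hs.2, hα.2] |> fun h : 0 < 1 - s => h.ne'
      exact ((hasDerivAt_const s (b ^ 2 / C)).div ((hasDerivAt_id' s).const_sub 1) s1).congr_deriv
        (by simp))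
    (fun s hs => by
      have s1 : 0 < 1 - s := by linarith [hs.2, hα.2]
      have h1 := hH.ric x w ξ ζ s (-(b / (C * (1 - s) ^ 2)))
        (hg s ⟨by linarith [hs.1], by linarith⟩)
      have h2 := mul_le_mul_of_nonneg_left (hC s ⟨hs.1, by linarith⟩)
        (sq_nonneg (-(b / (C * (1 - s) ^ 2))))
      have h3 : (-(b / (C * (1 - s) ^ 2))) ^ 2 * (C * (1 - s) ^ 2) +
          2 * -(b / (C * (1 - s) ^ 2)) * b = -(b ^ 2 / C / (1 - s) ^ 2) := by
        field_simp; ring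
      have h4 : b ^ 2 / C / (1 - s) ^ 2 * s ^ 2 ≤ b ^ 2 / C / (1 - s) ^ 2 :=
        mul_le_of_le_one_right (by positivity) (by nlinarith [hs.1])
      linarith)
  have a0 : 0 < α := by linarith [hα.1]
  set F := R.H x ((1 / 2 : ℝ) • w) ξ / (1 / 2) + b ^ 2 / C / (1 - 1 / 2)
  have p : 0 < b ^ 2 / C / (1 - α) := by positivity
  have e : b ^ 2 / C / 2 / (1 - α) = b ^ 2 / C / (1 - α) / 2 := by ring
  rw [← le_sub_iff_add_le, div_le_iff₀ a0] at this
  have f1 := le_abs_self F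
  have f2 := abs_nonneg F
  rw [e]
  nlinarith [hα.1, hα.2]

lemma ex_sm (hS : R.Sm) (x : M) (v : En) {b : M} (hb : R.ex x v ∈ (chartAt En b).source) :
    ContinuousAt (R.ex x) v ∧ ContDiffAt ℝ ∞ (fun u => chartAt En b (R.ex x u)) v := by
  obtain ⟨h1, h2⟩ := hS.sm x (chartAt En x x, v) (mem_chart_target En x)
  have c : ContDiffAt ℝ ∞ (fun u : En => (chartAt En x x, u)) v := by fun_prop
  refine ⟨?_, ?_⟩
  · simpa only [Function.comp_def, R.exc_self] using h1.comp (f := fun u : En => (chartAt En x x, u))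
      c.continuousAt
  · simpa only [Function.comp_def, R.exc_self] using
      (h2 b (by rwa [R.exc_self])).comp v c

lemma rev_ex (x : M) (v : En) : R.ex (R.ex x v) (-R.vl x v 1) = x := by
  simpa [R.geo_zero] using R.ex_rev x v 1

lemma rev_nr (x : M) (v : En) : R.nr (R.ex x v) (-R.vl x v 1) = R.nr x v := by
  rw [R.nr_neg]; exact R.nr_vl x v 1

lemma rev_Ib {x : M} {v : En} (h : v ∈ R.Ib x) : -R.vl x v 1 ∈ R.Ib (R.ex x v) := by
  change dist _ _ = _
  rw [rev_ex, rev_nr, dist_comm]; exact h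

lemma transfer (hS : R.Sm) (hN : R.Near) (hB : R.Br) (hY : R.Tay) {x : M} {v w : En}
    (hv : ∀ u ∈ R.Ib x, R.ex x u = R.ex x v → u = v) (hG : R.Good (R.ex x v) w)
    (hx : R.ex (R.ex x v) w = x) : R.NC x v := by
  set y := R.ex x v with hy
  have hF := hB.smc2 y w hG
  rw [hx] at hF
  obtain ⟨e1, e2⟩ := ex_sm hS x 0 (b := x) (by rw [R.ex_zero]; exact mem_chart_source En x)
  have hc : ContDiffAt ℝ 2 (Function.uncurry fun s ξ : En =>
      cst (R.ex x ξ) ((chartAt En y).symm s)) (chartAt En y y, 0) := by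
    have c1 : ContDiffAt ℝ ∞ (fun p : En × En => (p.1, chartAt En x (R.ex x p.2)))
        (chartAt En y y, 0) := contDiffAt_fst.prodMk
      (ContDiffAt.comp (f := fun p : En × En => p.2) (chartAt En y y, (0 : En)) e2 contDiffAt_snd)
    have c2 := ContDiffAt.comp (chartAt En y y, (0 : En)) (by simpa using hF) c1
    refine (c2.of_le (by norm_cast)).congr_of_eventuallyEq ?_
    have : ∀ᶠ p : En × En in 𝓝 (chartAt En y y, 0), R.ex x p.2 ∈ (chartAt En x).source :=
      (ContinuousAt.comp (f := fun p : En × En => p.2) (x := (chartAt En y y, (0 : En))) e1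
        continuousAt_snd).eventually_mem (by simpa using chart_source_mem_nhds En x)
    filter_upwards [this] with p hp
    simp only [Function.comp_def, Function.uncurry, (chartAt En x).left_inv hp, cst_comm]
  have hL := (ContDiffAt.fderiv (g := fun _ => (0 : En)) (m := 1) hc contDiffAt_const
    (by norm_num)).differentiableAt (by norm_num)
  choose W hW1 hW2 using hN.hr x
  obtain ⟨G, hG'⟩ := LinearMap.exists_leftInverse_of_injective (R.g x).toLinearMap
    (LinearMap.ker_eq_bot'.2 fun u hu => by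
      by_contra h0
      have := R.g_pos x h0
      rw [show R.g x u = 0 from hu] at this
      simp at this)
  have hW : (fun s => W ((chartAt En y).symm s)) =ᶠ[𝓝 (chartAt En y y)] fun s =>
      G.toContinuousLinearMap (-fderiv ℝ (fun ξ => cst (R.ex x ξ) ((chartAt En y).symm s)) 0) := by
    have ev := (ContinuousAt.tendsto (f := fun s : En => (s, (0 : En))) (by fun_prop)).eventually
      (hc.eventually (by simp))
    filter_upwards [ev] with s hs
    have c1 : ContDiffAt ℝ 2 (fun ξ : En => (s, ξ)) 0 := by fun_prop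
    have h1 := hY.sg x _ _ (hW1 _) (hW2 ((chartAt En y).symm s))
      ((hs.comp 0 c1).of_le (by norm_num))
    have h2 : -fderiv ℝ (fun ξ => cst (R.ex x ξ) ((chartAt En y).symm s)) 0 =
        R.g x (W ((chartAt En y).symm s)) := by
      ext u; simp [h1]
    rw [h2]
    exact (LinearMap.congr_fun hG' _).symm
  have dW : DifferentiableAt ℝ (fun s => W ((chartAt En y).symm s)) (chartAt En y y) :=
    (G.toContinuousLinearMap.differentiableAt.comp _ hL.neg).congr_of_eventuallyEq hW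
  have w0 : W ((chartAt En y).symm (chartAt En y y)) = v := by
    rw [(chartAt En y).left_inv (mem_chart_source En y)]
    exact hv _ (hW1 y) (hW2 y)
  have d1 : HasFDerivAt (fun u => chartAt En y (R.ex x u)) (R.dex x v)
      (W ((chartAt En y).symm (chartAt En y y))) := by
    rw [w0]
    exact ((ex_sm hS x v (mem_chart_source En y)).2.differentiableAt (by simp)).hasFDerivAt
  have d2 := HasFDerivAt.comp (f := fun s => W ((chartAt En y).symm s)) (chartAt En y y) d1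
    dW.hasFDerivAt
  have d3 : HasFDerivAt (fun s : En => s) _ (chartAt En y y) := d2.congr_of_eventuallyEq (by
    filter_upwards [chart_target_mem_nhds En y] with s hs
    simp only [Function.comp_def, hW2, (chartAt En y).right_inv hs])
  have d4 := d3.unique (hasFDerivAt_id _)
  refine (LinearMap.injective_iff_surjective (f := (R.dex x v).toLinearMap)).2 fun u => ?_
  exact ⟨_, ContinuousLinearMap.ext_iff.1 d4 u⟩

lemma rev_nc (hS : R.Sm) (hT : R.Top) (hN : R.Near) (hQ : R.Qb) (hB : R.Br) (hH : R.Hs) {x : M}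
    {v : En} (hv : v ∈ R.Io x) : R.NC (R.ex x v) (-R.vl x v 1) := by
  have hI := rev_Ib (R.Io_subset_Ib hN x hv)
  obtain ⟨a, ha, hav⟩ := hv
  set y := R.ex x v with hy
  set w := -R.vl x v 1 with hw
  have ct : Continuous fun t : ℝ => tm y (t • w) := (hT.ctm y).comp (by fun_prop)
  by_contra hn
  have hS' : IsClosed (Icc (0 : ℝ) 1 ∩ {t | ¬ R.NC y (t • w)}) :=
    isClosed_Icc.inter (hB.ncopen.preimage ct).isClosed_compl
  obtain ⟨t1, ⟨⟨t0, t1'⟩, tn⟩, hmin⟩ := (isCompact_Icc.of_isClosed_subset hS'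
    inter_subset_left).exists_isLeast ⟨1, ⟨zero_le_one, le_rfl⟩, by simpa using hn⟩
  have tp : 0 < t1 := t0.lt_of_ne fun h => tn (by
    rw [← h, zero_smul]; exact (R.good_zero hS y).1)
  have gd : ∀ t, 0 < t → t < t1 → R.Good y (t • w) := fun t h0 h1 =>
    ⟨by_contra fun h => absurd (hmin ⟨⟨h0.le, by linarith⟩, h⟩) (not_le.2 h1),
      R.smul_mem_Ib hN hI h0.le (by linarith),
      hN.uniq y _ (R.smul_mem_Io hI h0.le (by linarith))⟩
  obtain ⟨ζ, z1, z2⟩ : ∃ ζ, R.dex y (t1 • w) ζ = 0 ∧ ζ ≠ 0 := by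
    by_contra h
    push Not at h
    exact tn ((injective_iff_map_eq_zero _).2 h)
  obtain ⟨C, c, c0, hC⟩ := bu hQ hH y (t1 • w) ζ ζ (fun t ht => by
    rw [smul_smul]; exact gd _ (mul_pos ht.1 tp) (by nlinarith [ht.2])) z1 (R.g_pos y z2).ne'
  have ev : ∀ᶠ δ : ℝ in 𝓝[>] 0, R.Good y (-δ • w) := by
    have : ContinuousAt (fun δ : ℝ => tm y (-δ • w)) 0 := (ct.comp continuous_neg).continuousAt
    exact nhdsWithin_le_nhds (this.eventually_mem (hB.gopen.mem_nhds
      (by simpa using R.good_zero hS y)))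
  obtain ⟨δ, gδ, δ0, δ1⟩ := (ev.and (Ioo_mem_nhdsGT (show (0 : ℝ) < a - 1 by linarith))).exists
  have a0 : 0 < a := by linarith
  have low : ∀ t, 0 < t → t < t1 → -(|R.H y (-δ • w) ζ| / δ) ≤ R.H y (t • w) ζ := by
    intro t h0 h1
    have e : ∀ s : ℝ, R.ex y (s • w) = R.geo x (a • v) ((1 - s) / a) := fun s => by
      rw [R.geo_smul', hy, hw, R.ex_rev]
      simp only [mul_div_cancel₀ _ a0.ne']
    have d := hN.seg x _ hav ((1 - t) / a) ((1 - -δ) / a) (div_nonneg (by linarith) a0.le)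
      (by gcongr; linarith) (by rw [div_le_one a0]; linarith)
    have h2 := hH.sup y w ζ δ t δ0 h0 gδ (gd t h0 h1) (by
      rw [e, e, dist_comm, d, R.nr_smul, abs_of_pos a0, hy, hw, rev_nr]
      field_simp; ring)
    have h3 : R.H y (-δ • w) ζ / δ ≤ |R.H y (-δ • w) ζ| / δ := by gcongr; exact le_abs_self _
    have h4 : 0 ≤ |R.H y (-δ • w) ζ| / δ := by positivity
    have h5 : -(|R.H y (-δ • w) ζ| / δ) ≤ R.H y (t • w) ζ / t := by linarith
    rw [le_div_iff₀ h0] at h5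
    nlinarith
  set B := |R.H y (-δ • w) ζ| / δ
  set θ := min (1 / 2) (c / (|C + B| + 1)) with hθ
  have θ0 : 0 < θ := by positivity
  have θ1 : θ ≤ 1 / 2 := min_le_left _ _
  have θ2 : |C + B| + 1 ≤ c / θ := by
    rw [le_div_iff₀ θ0, mul_comm, ← le_div_iff₀ (by positivity)]; exact min_le_right _ _
  have h1 := hC (1 - θ) ⟨by linarith, by linarith⟩
  have h2 := low ((1 - θ) * t1) (mul_pos (by linarith) tp) (by nlinarith)
  rw [smul_smul, sub_sub_cancel] at h1
  linarith [le_abs_self (C + B)]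

lemma nci (hS : R.Sm) (hT : R.Top) (hN : R.Near) (hQ : R.Qb) (hB : R.Br) (hY : R.Tay) (hH : R.Hs)
    (x : M) (v : En) (hv : v ∈ R.Io x) : R.Good x v := by
  have hI := R.Io_subset_Ib hN x hv
  refine ⟨transfer hS hN hB hY (hN.uniq x v hv) ⟨rev_nc hS hT hN hQ hB hH hv, rev_Ib hI,
    fun u hu he => ?_⟩ (rev_ex x v), hI, hN.uniq x v hv⟩
  rw [rev_ex] at he
  have h1 := rev_Ib hu
  have h2 := rev_ex (R := R) (R.ex x v) u
  have h3 := R.vl_rev (R.ex x v) u
  rw [he] at h1 h2 h3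
  rw [hN.uniq x v hv _ h1 h2] at h3
  rw [h3, neg_neg]

lemma mg [CompactSpace M] (hQ : R.Qb) (hH : R.Hs) (hI : ∀ x, ∀ v ∈ R.Io x, R.Good x v)
    (τ₀ τ' : ℝ) (h0 : 0 ≤ τ₀) (h1 : τ₀ < τ') (h2 : τ' < 1) :
    ∃ κ > 0, ∀ t ∈ Icc 0 τ₀, ∀ z, ∀ p ∈ R.Ib z, ∀ ξ,
      κ * R.g z ξ ξ ≤ R.H z (t • p) ξ - t / τ' * R.H z (τ' • p) ξ := by
  obtain ⟨Q, q0, hq⟩ := hQ.qb (Metric.diam (univ : Set M))
  have τ0 : 0 < τ' := by linarith
  have k0 : 0 < 1 - τ₀ / τ' := sub_pos.2 ((div_lt_one τ0).2 h1)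
  refine ⟨min 1 ((1 - τ₀ / τ') / Q), by positivity, fun t ht z p hp ξ => ?_⟩
  have g0 := R.g_nn z ξ
  rcases ht.1.eq_or_lt with rfl | t0
  · rw [zero_smul, hH.h0, zero_div, zero_mul, sub_zero]
    exact mul_le_of_le_one_left g0 (min_le_left _ _)
  have gd : ∀ s ∈ Icc t τ', R.Good z (s • p) := fun s hs =>
    hI z _ (R.smul_mem_Io hp (t0.le.trans hs.1) (hs.2.trans_lt h2))
  have := mono1 (k := fun s : ℝ => R.H z (s • p) ξ) (φ := fun s => -(R.g z ξ ξ / Q / s))
    (φ' := fun s => R.g z ξ ξ / Q / s ^ 2) (a := t) (b := τ') t0 (ht.2.trans h1.le)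
    (fun s hs => kdiff hH ξ (gd s hs))
    (fun s hs =>
      ((hasDerivAt_const s (R.g z ξ ξ / Q)).div (hasDerivAt_id' s)
        (t0.trans_le hs.1).ne').neg.congr_deriv (by simp [neg_div]))
    (fun s hs => by
      have s0 := t0.trans_le hs.1
      have r1 := hH.ric z p ξ ξ s (-(1 / Q)) (gd s hs)
      have r2 := mul_le_mul_of_nonneg_left (hq z (s • p) ξ (by
        rw [R.nr_smul, abs_of_pos s0]
        exact (mul_le_of_le_one_left (R.nr_nn z p) (by linarith [hs.2])).trans (R.nr_le_diam hp)))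
        (sq_nonneg (-(1 / Q)))
      have r3 : (-(1 / Q)) ^ 2 * (Q * R.g z ξ ξ) + 2 * -(1 / Q) * R.g z ξ ξ =
          -(R.g z ξ ξ / Q / s ^ 2 * s ^ 2) := by field_simp; ring
      linarith)
  have m1 := mul_le_mul_of_nonneg_left this t0.le
  have e1 : t * (R.H z (τ' • p) ξ / τ' + -(R.g z ξ ξ / Q / τ')) =
      t / τ' * R.H z (τ' • p) ξ - t / τ' / Q * R.g z ξ ξ := by ring
  have e2 : t * (R.H z (t • p) ξ / t + -(R.g z ξ ξ / Q / t)) =
      R.H z (t • p) ξ - 1 / Q * R.g z ξ ξ := by field_simp; ring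
  have m2 : min 1 ((1 - τ₀ / τ') / Q) ≤ 1 / Q - t / τ' / Q := by
    rw [← sub_div]
    exact (min_le_right _ _).trans (by gcongr; exact ht.2)
  have m3 := mul_le_mul_of_nonneg_right m2 g0
  rw [e1, e2] at m1
  linarith

end Kj

theorem kStmt [Dim] : KStmt := fun _ _ _ _ _ _ _ hS hT _ hN hQ hB hY hH =>
  ⟨Kj.bu hQ hH, Kj.nci hS hT hN hQ hB hY hH, Kj.mg hQ hH (Kj.nci hS hT hN hQ hB hY hH)⟩

end Vale.Agent.P234
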