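import Vale.Agent.P234.Base

/-! Module L of P234: local uniqueness. -/

open scoped Manifold ContDiff Topology
open Set Filter

namespace Vale.Agent.P234

variable [Dim] {M : Type} [MetricSpace M] [ChartedSpace En M] [IsManifold 𝓘(ℝ, En) ∞ M]

namespace Lm

variable {R : Riem M}

omit [Dim] in
lemma shift (f : ℝ → ℝ) (r : ℝ) : deriv (deriv fun s => f (s + r)) 0 = deriv (deriv f) r := by
  have e : deriv (fun s => f (s + r)) = fun s => deriv f (s + r) :=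
    funext fun s => deriv_comp_add_const f r s
  rw [e, deriv_comp_add_const, zero_add]

omit [Dim] in
lemma num {G κ C τ' τ t X Hh Ht Δ : ℝ} (hG : 0 ≤ G) (hκ : 0 < κ) (hC : 1 ≤ C) (a0 : 1 / 2 ≤ τ')
    (hτ : 0 < τ) (hτ' : τ ≤ τ') (b1 : X - Hh / (2 * τ') - κ / 32 * G / τ' ≤ Δ)
    (b2 : κ * G ≤ Ht - t / τ' * Hh) (b3 : |Hh| ≤ C * G) (b4 : |τ - t| ≤ κ / (8 * C)) :
    τ * X - Ht / 2 ≤ τ * Δ - κ / 4 * G := by
  have b5 : (τ - t) * (Hh / (2 * τ')) ≤ κ / 8 * G := by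
    refine (le_abs_self _).trans ?_
    rw [abs_mul, abs_div, abs_of_pos (by linarith : 0 < 2 * τ')]
    calc _ ≤ κ / (8 * C) * (C * G) :=
          mul_le_mul b4 ((div_le_self (abs_nonneg _) (by linarith)).trans b3)
            (by positivity) (by positivity)
      _ = _ := by field_simp
  have b9 : 0 ≤ κ * G := by positivity
  have b6 : τ * (κ / 32 * G / τ') ≤ κ / 16 * G := by
    rw [← mul_div_assoc, div_le_iff₀ (by linarith)]
    nlinarith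
  have b7 := mul_le_mul_of_nonneg_left b1 hτ.le
  have b8 : t / τ' * Hh = 2 * (t * (Hh / (2 * τ'))) := by field_simp
  rw [b8] at b2
  linarith

omit [IsManifold 𝓘(ℝ, En) ∞ M] in
lemma conc (hH : R.Hs) (hK : R.Kn) (hW : R.MTW) {z : M} {v η ξ : En} (h0 : R.g z ξ η = 0)
    (hI : ∀ s ∈ Icc (0 : ℝ) 1, v + s • η ∈ R.Io z) {s : ℝ} (hs : s ∈ Icc (0 : ℝ) 1) :
    (1 - s) * R.H z v ξ + s * R.H z (v + η) ξ ≤ R.H z (v + s • η) ξ := by
  have hc : ∀ r ∈ Icc (0 : ℝ) 1, ContDiffAt ℝ 2 (fun r : ℝ => R.H z (v + r • η) ξ) r :=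
    fun r hr => (hH.sm z _ ξ (hK.nci z _ (hI r hr))).comp r
      (f := fun r : ℝ => v + r • η) (by fun_prop)
  have h := concaveOn_of_deriv2_nonpos' (convex_Icc (0 : ℝ) 1)
    (f := fun r : ℝ => R.H z (v + r • η) ξ)
    (fun r hr => ((hc r hr).differentiableAt (by norm_num)).differentiableWithinAt)
    (fun r hr => (((hc r hr).derivWithin (m := 1) (by norm_num)).differentiableAt
      (by norm_num)).differentiableWithinAt)
    (fun r hr => by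
      have h1 := hW z _ (hI r hr) ξ η h0
      have e1 : (fun s : ℝ => R.H z (v + r • η + s • η) ξ) =
          fun s => (fun r : ℝ => R.H z (v + r • η) ξ) (s + r) := by
        funext s
        simp only
        rw [add_smul, add_assoc, add_comm (r • η)]
      rw [e1, shift (fun r : ℝ => R.H z (v + r • η) ξ) r] at h1
      exact h1)
  have h2 := h.2 (left_mem_Icc.2 zero_le_one) (right_mem_Icc.2 zero_le_one)
    (sub_nonneg.2 hs.2) hs.1 (sub_add_cancel 1 s)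
  simpa using h2

lemma ibc [CompactSpace M] (hT : R.Top) : IsCompact {P : TM M | tv P ∈ R.Ib P.proj} :=
  (hT.cpt (Metric.diam (univ : Set M))).of_isClosed_subset
    (isClosed_eq (hT.cproj.dist hT.cex) hT.cnr) fun _ h => R.nr_le_diam h

lemma lift_smul (a z : M) (t : ℝ) (u : En) :
    ((lift a (tm z u)).1, t • (lift a (tm z u)).2) = lift a (tm z (t • u)) := by
  simp only [lift, tm_proj, tv_tm, map_smul]

lemma qc [CompactSpace M] (hQ : QStmt) (hT : R.Top) (hY : R.Tay) (hH : R.Hs) (hK : R.Kn)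
    (hW : R.MTW) {t : ℝ} (ht : ∀ z, ∀ p ∈ convexHull ℝ (R.Ib z), t • p ∈ R.Io z) (z₀ : M)
    {ε m : ℝ} (hε : 0 < ε) (hm : 0 < m) : ∃ r > 0, ∃ V ∈ 𝓝 z₀, ∀ z ∈ V, ∀ (ξ : En) (τ b : ℝ)
      (A : Set En), A ⊆ R.Ib z → R.nr z ξ < r → m ≤ τ →
      (∀ u ∈ A, τ * R.g z u ξ - R.H z (t • u) ξ / 2 ≤ b) →
      ∀ u ∈ convexHull ℝ A, τ * R.g z u ξ - R.H z (t • u) ξ / 2 ≤ b + ε * R.g z ξ ξ := by
  obtain ⟨K₀, hK₀, hKs, hKc⟩ := local_compact_nhds
    ((chartAt En z₀).open_source.mem_nhds (mem_chart_source En z₀))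
  obtain ⟨hb, hbc, hbe⟩ := hY.hb z₀
  have hB : IsCompact ({P : TM M | tv P ∈ convexHull ℝ (R.Ib P.proj)} ∩
      {P : TM M | P.proj ∈ K₀}) :=
    (hT.hull _ (ibc hT)).inter_right (hKc.isClosed.preimage hT.cproj)
  set S := lift z₀ '' ({P : TM M | tv P ∈ convexHull ℝ (R.Ib P.proj)} ∩
      {P : TM M | P.proj ∈ K₀}) with hS
  have hSc : IsCompact S := hB.image_of_continuousOn ((hT.clift z₀).mono fun P hP => hKs hP.2)
  have memS : ∀ w, w ∈ S ↔ ∃ z ∈ K₀, ∃ u ∈ convexHull ℝ (R.Ib z), w = lift z₀ (tm z u) :=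
    fun w => ⟨fun ⟨P, hP, e⟩ => ⟨P.proj, hP.2, tv P, hP.1, e.symm⟩,
      fun ⟨z, hz, u, hu, e⟩ => ⟨tm z u, ⟨hu, hz⟩, e.symm⟩⟩
  have fib : ∀ z ∈ K₀, ∀ u, (chartAt En z₀ z, u) ∈ S →
      ∃ u' ∈ convexHull ℝ (R.Ib z), u = D z₀ z u' := by
    intro z hz u hu
    obtain ⟨z', hz', u', hu', e⟩ := (memS _).1 hu
    have e1 : z = z' := (chartAt En z₀).injOn (hKs hz) (hKs hz') (congrArg Prod.fst e)
    subst e1
    exact ⟨u', hu', congrArg Prod.snd e⟩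
  have hval : ∀ z ∈ K₀, ∀ u ∈ convexHull ℝ (R.Ib z), ∀ ξ,
      hb (chartAt En z₀ z, t • D z₀ z u) (D z₀ z ξ) (D z₀ z ξ) = R.H z (t • u) ξ := by
    intro z hz u hu ξ
    rw [(hbe z _ (hKs hz) (hK.nci z _ (ht z u hu))).2 ξ, ← lift_smul]
    rfl
  have htar : ∀ w ∈ S, w.1 ∈ (chartAt En z₀).target := by
    intro w hw
    obtain ⟨z, hz, u, -, rfl⟩ := (memS _).1 hw
    exact (chartAt En z₀).map_source (hKs hz)
  obtain ⟨r, hr, hq⟩ := hQ S (locB R.g z₀) (fun w => hb (w.1, t • w.2)) hSc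
    ((R.cf.cm z₀).smooth.continuousOn.mono (by rintro _ ⟨w, hw, rfl⟩; exact htar w hw))
    (hbc.comp (f := fun w : En × En => (w.1, t • w.2)) (by fun_prop) (fun w hw => by
      refine ⟨htar w hw, ?_⟩
      obtain ⟨z, hz, u, hu, rfl⟩ := (memS _).1 hw
      simp only [lift_smul]
      rw [unl_lift (hKs hz)]
      exact hK.nci z _ (ht z u hu)))
    (fun w hw => ⟨(R.cf.cm z₀).symm _ (htar w hw), (R.cf.cm z₀).pos _ (htar w hw), by
      obtain ⟨z, hz, u, hu, rfl⟩ := (memS _).1 hw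
      simp only [lift_smul]
      exact (hbe z _ (hKs hz) (hK.nci z _ (ht z u hu))).1⟩)
    (fun y u₀ h₀ u₁ h₁ a b ha hb' hab => by
      obtain ⟨z, hz, u, -, e⟩ := (memS _).1 h₀
      have e1 : y = chartAt En z₀ z := congrArg Prod.fst e
      subst e1
      obtain ⟨v₀, hv₀, rfl⟩ := fib z hz _ h₀
      obtain ⟨v₁, hv₁, rfl⟩ := fib z hz _ h₁
      refine (memS _).2 ⟨z, hz, a • v₀ + b • v₁, convex_convexHull ℝ _ hv₀ hv₁ ha hb' hab, ?_⟩
      simp [lift])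
    (fun y u₀ u₁ ξ h₀ h₁ hg s hs => by
      obtain ⟨z, hz, u, -, e⟩ := (memS _).1 h₀
      have e1 : y = chartAt En z₀ z := congrArg Prod.fst e
      subst e1
      obtain ⟨v₀, hv₀, rfl⟩ := fib z hz _ h₀
      obtain ⟨v₁, hv₁, rfl⟩ := fib z hz _ h₁
      obtain ⟨ξ', rfl⟩ := (R.cf.bij z₀ z (hKs hz)).2 ξ
      have hs' : ∀ s ∈ Icc (0 : ℝ) 1, v₀ + s • (v₁ - v₀) ∈ convexHull ℝ (R.Ib z) :=
        fun s hs => (convex_convexHull ℝ _).add_smul_sub_mem hv₀ hv₁ hs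
      have e2 : ∀ s : ℝ, t • v₀ + s • t • (v₁ - v₀) = t • (v₀ + s • (v₁ - v₀)) := fun s => by
        module
      rw [← map_sub, R.cf.pull z₀ z (hKs hz)] at hg
      have h := conc hH hK hW (z := z) (v := t • v₀) (η := t • (v₁ - v₀)) (ξ := ξ')
        (by rw [map_smul, hg, smul_zero]) (fun s hs => by rw [e2]; exact ht z _ (hs' s hs)) hs
      rw [e2, show t • v₀ + t • (v₁ - v₀) = t • v₁ by module] at h
      simp only
      rw [← map_sub, ← map_smul (D z₀ z) s, ← map_add, hval z hz _ hv₀, hval z hz _ hv₁,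
        hval z hz _ (hs' s hs)]
      exact h) ε hε m hm
  refine ⟨r, hr, K₀, hK₀, fun z hz ξ τ b A hA hξ hτ hb' u hu => ?_⟩
  have hp := R.cf.pull z₀ z (hKs hz)
  have h := hq (chartAt En z₀ z) (D z₀ z ξ) τ b (D z₀ z '' A)
    (by rw [hp, ← R.nr_sq]; exact pow_lt_pow_left₀ hξ (R.nr_nn _ _) two_ne_zero) hτ
    (by
      rintro _ ⟨v, hv, rfl⟩
      have hv' := subset_convexHull ℝ _ (hA hv)
      refine ⟨(memS _).2 ⟨z, hz, v, hv', rfl⟩, ?_⟩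
      simp only
      rw [hp, hval z hz v hv']
      exact hb' v hv) (D z₀ z u)
    (by
      have := (D z₀ z : En →ₗ[ℝ] En).image_convexHull A
      simp only [ContinuousLinearMap.coe_coe] at this
      rw [← this]
      exact mem_image_of_mem _ hu)
  simp only at h
  rwa [hp, hp, hval z hz u (convexHull_mono hA hu)] at h

omit [IsManifold 𝓘(ℝ, En) ∞ M] in
lemma qc0 (hH : R.Hs) (z : M) (ξ : En) (τ b : ℝ) (A : Set En)
    (h : ∀ u ∈ A, τ * R.g z u ξ - R.H z ((0 : ℝ) • u) ξ / 2 ≤ b) :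
    ∀ u ∈ convexHull ℝ A, τ * R.g z u ξ - R.H z ((0 : ℝ) • u) ξ / 2 ≤ b := by
  simp only [zero_smul, hH.h0] at h ⊢
  refine fun u hu => convexHull_min (t := {u | τ * R.g z u ξ - R.g z ξ ξ / 2 ≤ b}) h ?_ hu
  intro u hu v hv a c ha hc hac
  simp only [mem_ofPred_eq, map_add, map_smul, add_apply,
    smul_apply, smul_eq_mul] at hu hv ⊢
  have h1 := mul_le_mul_of_nonneg_left hu ha
  have h2 := mul_le_mul_of_nonneg_left hv hc
  have h3 : a * b + c * b = b := by rw [← add_mul, hac, one_mul]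
  have h4 : a * R.g z ξ ξ + c * R.g z ξ ξ = R.g z ξ ξ := by rw [← add_mul, hac, one_mul]
  nlinarith

/-- choice of the contraction factor -/
lemma pick (hT : R.Top) {τ₀ η : ℝ} (h0 : 0 ≤ τ₀) (h1 : τ₀ < 1) (hη : 0 < η) (z₀ : M) (p₀ : En)
    {N₁ : Set (TM M)} (hN : N₁ ∈ 𝓝 (tm z₀ (τ₀ • p₀))) :
    ∃ α : ℝ, 0 ≤ α ∧ α < 1 ∧ τ₀ - α * τ₀ ≤ η ∧ ∃ N₂ ∈ 𝓝 (tm z₀ (τ₀ • p₀)), ∃ δ > 0,
      ∀ τ : ℝ, |τ - τ₀| < δ → 0 < τ → ∀ z p, tm z (τ • p) ∈ N₂ → tm z ((α * τ₀) • p) ∈ N₁ := by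
  rcases h0.eq_or_lt with rfl | h0
  · refine ⟨0, le_rfl, one_pos, by simpa using hη.le, _,
      (hT.csmul.comp (Continuous.prodMk_right (0 : ℝ))).continuousAt.preimage_mem_nhds
        (t := N₁) (by simpa using hN), 1, one_pos, fun τ _ _ z p h => ?_⟩
    simpa using h
  have h2 : (fun w : ℝ × TM M => tm w.2.proj (w.1 • tv w.2)) ⁻¹' N₁ ∈
      𝓝 ((1 : ℝ), tm z₀ (τ₀ • p₀)) :=
    hT.csmul.continuousAt.preimage_mem_nhds (by simpa using hN)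
  obtain ⟨U, hU, N₂, hN₂, hs⟩ := mem_nhds_prod_iff.1 h2
  obtain ⟨ρ, hρ, hU'⟩ := Metric.mem_nhds_iff.1 hU
  set β := min (ρ / 2) (min (1 / 2) η) with hβ
  have b0 : 0 < β := lt_min (by linarith) (lt_min (by norm_num) hη)
  have b1 : β ≤ ρ / 2 := min_le_left _ _
  have b2 : β ≤ 1 / 2 := (min_le_right _ _).trans (min_le_left _ _)
  have b3 : β ≤ η := (min_le_right _ _).trans (min_le_right _ _)
  have hc : ContinuousAt (fun τ : ℝ => (1 - β) * τ₀ / τ) τ₀ :=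
    continuousAt_const.div continuousAt_id h0.ne'
  have h3 := hc.preimage_mem_nhds (t := Metric.ball 1 ρ) (Metric.isOpen_ball.mem_nhds (by
    rw [mul_div_assoc, div_self h0.ne', mul_one, Metric.mem_ball, Real.dist_eq,
      show 1 - β - 1 = -β by ring, abs_neg, abs_of_pos b0]
    linarith))
  obtain ⟨δ, hδ, h4⟩ := Metric.mem_nhds_iff.1 h3
  refine ⟨1 - β, by linarith, by linarith, by nlinarith, N₂, hN₂, δ, hδ,
    fun τ hτ hτ0 z p h => ?_⟩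
  have h5 := hs (mk_mem_prod (hU' (h4 (show τ ∈ Metric.ball τ₀ δ from hτ))) h)
  simp only [mem_preimage, tm_proj, tv_tm, smul_smul] at h5
  rwa [div_mul_cancel₀ _ hτ0.ne'] at h5

omit [IsManifold 𝓘(ℝ, En) ∞ M] in
lemma lower (hN : R.Near) {φ a : M → ℝ} (hφ : ∀ z y, a y - cst z y ≤ φ z) {z : M} {p ξ : En}
    (hp : p ∈ R.Act φ a z) {τ' e : ℝ} (h0 : 0 < τ') (h1 : τ' < 1)
    (hti : |cst (R.ex z ξ) (R.ex z (τ' • p)) - (R.g z (τ' • p) (τ' • p) / 2 - R.g z (τ' • p) ξ +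
      R.H z (τ' • p) ξ / 2)| ≤ e) :
    R.g z p ξ - R.H z (τ' • p) ξ / (2 * τ') - e / τ' ≤ φ (R.ex z ξ) - φ z := by
  have h2 := hφ (R.ex z ξ) (R.ex z p)
  have h3 := cst_tri (R.ex z ξ) (R.ex z (τ' • p)) (R.ex z p) h0 h1
  have h4 : cst (R.ex z (τ' • p)) (R.ex z p) / (1 - τ') = (1 - τ') * R.g z p p / 2 := by
    have := hN.seg z p hp.1 τ' 1 h0.le h1.le le_rfl
    rw [← R.ex_smul] at this
    have h5 : 1 - τ' ≠ 0 := by linarith
    rw [cst, show R.ex z p = R.geo z p 1 from rfl, this, mul_pow, R.nr_sq]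
    field_simp
  have h6 := (abs_le.1 hti).2
  simp only [map_smul, smul_apply, smul_eq_mul] at h6
  have h7 : cst (R.ex z ξ) (R.ex z (τ' • p)) / τ' ≤
      τ' * R.g z p p / 2 - R.g z p ξ + R.H z (τ' • p) ξ / (2 * τ') + e / τ' := by
    rw [div_le_iff₀ h0]
    have : (τ' * R.g z p p / 2 - R.g z p ξ + R.H z (τ' • p) ξ / (2 * τ') + e / τ') * τ' =
        τ' * (τ' * R.g z p p) / 2 - τ' * R.g z p ξ + R.H z (τ' • p) ξ / 2 + e := by
      field_simp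
    rw [this]; linarith
  have h8 := hp.2
  linarith

end Lm

open Lm in
theorem lStmt (hQ : QStmt) : LStmt := by
  intro M _ _ _ _ _ R hT _ hN hB hY hH hK hW τ₀ h0 h1 hC z₀ p₀ hp₀ hNC
  set τ' := (1 + τ₀) / 2 with hτ'
  have a0 : 1 / 2 ≤ τ' := by linarith
  have a1 : τ' < 1 := by linarith
  have a2 : τ₀ < τ' := by linarith
  obtain ⟨κ, hκ, hmg⟩ := hK.mg τ₀ τ' h0 a2 a1
  obtain ⟨⟨C₀, hC₀⟩, hti⟩ := hY.ti _
    ((ibc hT).image (hT.csmul.comp (Continuous.prodMk_right τ')))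
    (by
      rintro _ ⟨P, hP, rfl⟩
      exact hK.nci _ _ (R.smul_mem_Io hP (by linarith) a1))
  set C := max C₀ 1 with hCd
  have hC1 : 1 ≤ C := le_max_right _ _
  have hC2 : C₀ ≤ C := le_max_left _ _
  obtain ⟨r₁, hr₁, hti⟩ := hti (κ / 32) (by positivity)
  obtain ⟨N₁, hN₁, r₂, hr₂, htl⟩ := hY.tl z₀ _ hNC (hC z₀ p₀ hp₀) (κ / 16) (by positivity)
  obtain ⟨N₃, hN₃, hinj⟩ := hB.linj (tm z₀ (τ₀ • p₀)) hNC
  obtain ⟨α, hα0, hα1, hα, N₂, hN₂, δ₂, hδ₂, hpk⟩ :=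
    pick hT h0 h1 (η := κ / (16 * C)) (by positivity) z₀ p₀ hN₁
  have hio : ∀ z, ∀ p ∈ convexHull ℝ (R.Ib z), (α * τ₀) • p ∈ R.Io z := fun z p hp => by
    rw [mul_smul]; exact R.smul_mem_Io (hC z p hp) hα0 hα1
  obtain ⟨r₃, hr₃, V, hV, δ₃, hδ₃, hq⟩ : ∃ r > 0, ∃ V ∈ 𝓝 z₀, ∃ δ > 0, ∀ z ∈ V, ∀ (ξ : En)
      (τ b : ℝ) (A : Set En), A ⊆ R.Ib z → R.nr z ξ < r → |τ - τ₀| < δ →
      (∀ u ∈ A, τ * R.g z u ξ - R.H z ((α * τ₀) • u) ξ / 2 ≤ b) → ∀ u ∈ convexHull ℝ A,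
        τ * R.g z u ξ - R.H z ((α * τ₀) • u) ξ / 2 ≤ b + κ / 16 * R.g z ξ ξ := by
    rcases h0.eq_or_lt with h2 | h2
    · refine ⟨1, one_pos, univ, univ_mem, 1, one_pos, fun z _ ξ τ b A _ _ _ hb u hu => ?_⟩
      rw [← h2, mul_zero] at hb ⊢
      have := mul_nonneg (show 0 ≤ κ / 16 by positivity) (R.g_nn z ξ)
      linarith [qc0 hH z ξ τ b A hb u hu]
    · obtain ⟨r, hr, V, hV, h⟩ := qc hQ hT hY hH hK hW hio z₀ (ε := κ / 16) (m := τ₀ / 2)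
        (by positivity) (by positivity)
      exact ⟨r, hr, V, hV, τ₀ / 2, by positivity, fun z hz ξ τ b A hA hξ hτ =>
        h z hz ξ τ b A hA hξ (by linarith [(abs_lt.1 hτ).1])⟩
  set r := min r₁ (min r₂ r₃) with hr
  have hr0 : 0 < r := lt_min hr₁ (lt_min hr₂ hr₃)
  have hN₄ : {P : TM M | P.proj ∈ V ∩ Metric.ball z₀ (r / 2)} ∈ 𝓝 (tm z₀ (τ₀ • p₀)) :=
    hT.cproj.continuousAt.preimage_mem_nhds
      (inter_mem hV (Metric.ball_mem_nhds _ (by positivity)))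
  refine ⟨_, inter_mem (inter_mem hN₁ hN₂) (inter_mem hN₃ hN₄),
    min (min δ₂ δ₃) (min (κ / (16 * C)) ((1 - τ₀) / 2)),
    lt_min (lt_min hδ₂ hδ₃) (lt_min (by positivity) (by linarith)), ?_⟩
  intro τ hτ hτ0 φ a hφ z' v' z p hz' hz hM hp hI hE
  simp only [lt_min_iff] at hτ
  obtain ⟨⟨t2, t3⟩, t4, t5⟩ := hτ
  obtain ⟨ξ, hξ, rfl⟩ := hN.hr z z'
  have hξr : R.nr z ξ < r := by
    rw [← show dist z (R.ex z ξ) = R.nr z ξ from hξ]
    have b1 : dist z z₀ < r / 2 := hz.2.2.2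
    have b2 : dist (R.ex z ξ) z₀ < r / 2 := hz'.2.2.2
    linarith [dist_triangle_right z (R.ex z ξ) z₀]
  have hA : R.Act φ a z ⊆ R.Ib z := fun _ h => h.1
  have hG := R.g_nn z ξ
  have hup : τ * (φ (R.ex z ξ) - φ z) ≤
      τ * R.g z p ξ - R.H z ((α * τ₀) • p) ξ / 2 + κ / 16 * R.g z ξ ξ := by
    have b1 := htl z (τ • p) ((α * τ₀) • p) ξ v' hz.1.1 (hpk τ t2 hτ0 z p hz.1.2) hI
      (hK.nci z _ (hio z p (convexHull_mono hA hp)))
      (hξr.trans_le ((min_le_right _ _).trans (min_le_left _ _))) hz'.1.1 hE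
    have b2 := hM.2 z
    rw [hE, R.cst_of_Ib hI] at b2
    rw [R.nr_sq, map_smul (R.g z) τ p, smul_apply _ _ ξ, smul_eq_mul] at b1
    rw [map_smul (R.g z) τ p] at b2
    linarith
  have hlo := hq z hz.2.2.1 ξ τ (τ * (φ (R.ex z ξ) - φ z) - κ / 4 * R.g z ξ ξ) _ hA
    (hξr.trans_le ((min_le_right _ _).trans (min_le_right _ _))) t3 (fun u hu => by
      have hK' : tm z (τ' • u) ∈ ((fun w : ℝ × TM M => tm w.2.proj (w.1 • tv w.2)) ∘
          Prod.mk τ') '' {P : TM M | tv P ∈ R.Ib P.proj} := ⟨tm z u, hu.1, rfl⟩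
      have b1 := lower hN hφ hu (by linarith) a1
        (hti z _ ξ hK' (hξr.trans_le (min_le_left _ _)))
      have b2 := hmg (α * τ₀) ⟨by positivity, by nlinarith⟩ z u hu.1 ξ
      have b3 := (hC₀ z _ ξ hK').trans (mul_le_mul_of_nonneg_right hC2 hG)
      have b4 : |τ - α * τ₀| ≤ κ / (8 * C) := by
        have : κ / (8 * C) = κ / (16 * C) + κ / (16 * C) := by field_simp; ring
        have b5 : 0 ≤ τ₀ - α * τ₀ := by nlinarith
        rw [this, abs_le]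
        constructor <;> linarith [(abs_lt.1 t4).1, (abs_lt.1 t4).2]
      exact num hG hκ hC1 a0 hτ0 (by linarith [(abs_lt.1 t5).2]) b1 b2 b3 b4) p hp
  have hξ0 : ξ = 0 := by
    by_contra h
    have := mul_pos hκ (R.g_pos z h)
    linarith
  subst hξ0
  rw [R.ex_zero] at hz' hE ⊢
  rw [hinj z v' (τ • p) hz'.2.1 hz.2.1 hE]

end Vale.Agent.P234
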