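import Vale.Agent.P234.N1a

/-! Module N1 of P234: small vectors are minimizing. -/

open scoped Manifold ContDiff Topology
open Set Filter

namespace Vale.Agent.P234

variable [Dim] {M : Type} [MetricSpace M] [ChartedSpace En M] [IsManifold 𝓘(ℝ, En) ∞ M]

namespace N1

variable {R : Riem M}

/-- lower bound for the exponential map at `z` on the ball of radius `δ`, in the chart at `a` -/
def Lb (R : Riem M) (a z : M) (δ : ℝ) : Prop :=
  z ∈ (chartAt En a).source ∧ ∀ v w, R.nr z v < δ → R.nr z w < δ →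
    R.ex z v ∈ (chartAt En a).source ∧
      ‖D a z (v - w)‖ / 2 ≤ ‖chartAt En a (R.ex z v) - chartAt En a (R.ex z w)‖

lemma loc0 (hS : R.Sm) (hT : R.Top) (a : M) : ∃ N ∈ 𝓝 (tm a 0), ∀ z v w, tm z v ∈ N →
    tm z w ∈ N → z ∈ (chartAt En a).source ∧ R.ex z v ∈ (chartAt En a).source ∧
      ‖D a z (v - w)‖ / 2 ≤ ‖chartAt En a (R.ex z v) - chartAt En a (R.ex z w)‖ := by
  have hs := mem_chart_source En a
  obtain ⟨c1, c2⟩ := hS.sm a (chartAt En a a, 0) (mem_chart_target En a)
  have e0 : R.exc a (chartAt En a a, 0) = a := by rw [exc_self, ex_zero]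
  have hf := (c2 a (by rwa [e0])).hasStrictFDerivAt (by simp)
  set P := fderiv ℝ (fun w' => chartAt En a (R.exc a w')) (chartAt En a a, 0) with hP
  have hu : ∀ u, P (0, u) = u := by
    have h1 := hf.hasFDerivAt.comp (f := fun u : En => (chartAt En a a, u)) 0
      (hasFDerivAt_prodMk_right (𝕜 := ℝ) (chartAt En a a) (0 : En))
    have h2 := (ex_strict hS a 0).hasFDerivAt
    rw [ex_zero, hS.dex0] at h2
    simp only [Function.comp_def, exc_self] at h1
    exact fun u => DFunLike.congr_fun (h1.unique h2) u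
  obtain ⟨s, s1, s2⟩ := hf.approximates_deriv_on_nhds (c := 1 / 2) (Or.inr (by norm_num))
  have o : {p : TM M | p.proj ∈ (chartAt En a).source} ∈ 𝓝 (tm a 0) :=
    ((chartAt En a).open_source.preimage hT.cproj).mem_nhds hs
  have c3 : Tendsto (lift a) (𝓝 (tm a 0)) (𝓝 (chartAt En a a, 0)) := by
    have := (hT.clift a).continuousAt o
    rwa [ContinuousAt, show lift a (tm a 0) = (chartAt En a a, 0) from
      Prod.ext rfl (map_zero (D a a))] at this
  have o2 : R.exc a ⁻¹' (chartAt En a).source ∈ 𝓝 (chartAt En a a, (0 : En)) :=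
    c1 ((chartAt En a).open_source.mem_nhds (by rwa [e0]))
  refine ⟨_, inter_mem o (c3 (inter_mem s1 o2)), fun z v w hv hw => ?_⟩
  have hz : z ∈ (chartAt En a).source := hv.1
  have h1 : ‖chartAt En a (R.exc a (chartAt En a z, D a z v)) -
      chartAt En a (R.exc a (chartAt En a z, D a z w)) -
      P ((chartAt En a z, D a z v) - (chartAt En a z, D a z w))‖ ≤
      ((1 / 2 : NNReal) : ℝ) * ‖(chartAt En a z, D a z v) - (chartAt En a z, D a z w)‖ :=
    s2 _ hv.2.1 _ hw.2.1
  have h2 : R.exc a (chartAt En a z, D a z v) ∈ (chartAt En a).source := hv.2.2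
  rw [exc_eq R hz] at h2
  rw [exc_eq R hz, exc_eq R hz, Prod.mk_sub_mk, sub_self, ← map_sub, hu, Prod.norm_mk, norm_zero,
    max_eq_right (norm_nonneg _)] at h1
  refine ⟨hz, h2, ?_⟩
  have h3 := norm_sub_norm_le (D a z (v - w)) (chartAt En a (R.ex z v) - chartAt En a (R.ex z w))
  rw [norm_sub_rev (D a z (v - w))] at h3
  push_cast at h1
  linarith

lemma unif [CompactSpace M] (hS : R.Sm) (hT : R.Top) : ∃ δ > 0, ∀ z, ∃ a, Lb R a z δ := by
  have key := isCompact_univ.induction_on
    (p := fun S : Set M => ∃ δ > 0, ∀ z ∈ S, ∃ a, Lb R a z δ) ⟨1, one_pos, by simp⟩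
    (fun s t hst ⟨δ, h0, h⟩ => ⟨δ, h0, fun z hz => h z (hst hz)⟩) ?_ ?_
  · exact key.imp fun δ h => ⟨h.1, fun z => h.2 z trivial⟩
  · rintro s t ⟨δ, h0, h⟩ ⟨δ', h0', h'⟩
    refine ⟨min δ δ', lt_min h0 h0', ?_⟩
    rintro z (hz | hz)
    · exact (h z hz).imp fun a ha => ⟨ha.1, fun v w hv hw =>
        ha.2 v w (hv.trans_le (min_le_left _ _)) (hw.trans_le (min_le_left _ _))⟩
    · exact (h' z hz).imp fun a ha => ⟨ha.1, fun v w hv hw =>
        ha.2 v w (hv.trans_le (min_le_right _ _)) (hw.trans_le (min_le_right _ _))⟩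
  · intro a _
    obtain ⟨N, hN, h⟩ := loc0 hS hT a
    obtain ⟨m, m0, hm⟩ := ((hT.cpt 1).diff isOpen_interior (t := interior N)).exists_forall_le'
      (f := fun p : TM M => R.nr p.proj (tv p) + dist p.proj a)
      (hT.cnr.add (hT.cproj.dist continuous_const)).continuousOn (a := 0) (by
        rintro ⟨z, v⟩ hp
        refine (add_nonneg (nr_nonneg R z v) dist_nonneg).lt_of_ne fun hc => hp.2 ?_
        have h1 := (add_eq_zero_iff_of_nonneg (nr_nonneg R z v) dist_nonneg).1 hc.symm
        obtain rfl : z = a := dist_eq_zero.1 h1.2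
        obtain rfl : v = 0 := by
          by_contra hv
          exact (nr_pos R z hv).ne' h1.1
        exact mem_interior_iff_mem_nhds.2 hN)
    have hin : ∀ z ∈ Metric.ball a (m / 2), ∀ v, R.nr z v < min 1 (m / 2) → tm z v ∈ N := by
      intro z hz v hv
      by_contra hc
      have h1 : m ≤ R.nr z v + dist z a :=
        hm (tm z v) ⟨(hv.trans_le (min_le_left _ _)).le, fun h => hc (interior_subset h)⟩
      linarith [hv.trans_le (min_le_right _ _), Metric.mem_ball.1 hz]
    have hp : 0 < min 1 (m / 2) := lt_min one_pos (half_pos m0)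
    refine ⟨Metric.ball a (m / 2), mem_nhdsWithin_of_mem_nhds (Metric.ball_mem_nhds a (half_pos m0)),
      _, hp, fun z hz => ⟨a, ?_, fun v w hv hw => (h z v w (hin z hz v hv) (hin z hz w hw)).2⟩⟩
    have h0 := hin z hz 0 (by rwa [nr_zero])
    exact (h z 0 0 h0 h0).1

lemma Lb.inj {a z : M} {δ : ℝ} (h : Lb R a z δ) {v w : En} (hv : R.nr z v < δ)
    (hw : R.nr z w < δ) (e : R.ex z v = R.ex z w) : v = w := by
  have h1 := (h.2 v w hv hw).2
  rw [e, sub_self, norm_zero] at h1
  have h2 : D a z (v - w) = D a z 0 := by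
    rw [map_zero, ← norm_le_zero_iff]; linarith
  exact sub_eq_zero.1 ((R.cf.bij a z h.1).1 h2)

lemma Lb.nc (hS : R.Sm) {a z : M} {δ : ℝ} (h : Lb R a z δ) {v : En} (hv : R.nr z v < δ) :
    R.NC z v := by
  refine (injective_iff_map_eq_zero _).2 fun ζ hζ => ?_
  have hb := mem_chart_source En (R.ex z v)
  have ha := (h.2 v v hv hv).1
  have d0 : HasDerivAt (fun t : ℝ => v + t • ζ) ζ 0 := by
    simpa using ((hasDerivAt_id (0 : ℝ)).smul_const ζ).const_add v
  have c0 : Tendsto (fun t : ℝ => v + t • ζ) (𝓝 0) (𝓝 v) := by simpa using d0.continuousAt.tendsto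
  have d1 := (ex_strict hS z v).hasFDerivAt.comp_hasDerivAt_of_eq 0 d0 (by simp)
  have hm : chartAt En (R.ex z v) (R.ex z v) ∈ (chartAt En (R.ex z v)).target ∩
      (chartAt En (R.ex z v)).symm ⁻¹' (chartAt En a).source :=
    ⟨mem_chart_target En _, by rwa [mem_preimage, (chartAt En (R.ex z v)).left_inv hb]⟩
  have d2 := (((R.cf.sm (R.ex z v) a).contDiffAt (((chartAt En (R.ex z v)).isOpen_inter_preimage_symm
    (chartAt En a).open_source).mem_nhds hm)).differentiableAt (by simp)).hasFDerivAt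
  have d3 := d2.comp_hasDerivAt_of_eq 0 d1 (by simp)
  rw [hζ, map_zero] at d3
  have d4 : HasDerivAt (fun t : ℝ => chartAt En a (R.ex z (v + t • ζ))) 0 0 := by
    refine d3.congr_of_eventuallyEq ?_
    filter_upwards [(((ex_cont hS z).tendsto v).comp c0).eventually
      ((chartAt En (R.ex z v)).open_source.mem_nhds hb)] with t ht
    simp only [Function.comp_apply] at ht ⊢
    rw [(chartAt En (R.ex z v)).left_inv ht]
  have h1 : ‖D a z ζ‖ / 2 ≤ ‖(0 : En)‖ := by
    refine ge_of_tendsto ((hasDerivAt_iff_tendsto_slope.1 d4).mono_left (nhdsGT_le_nhdsNE 0)).norm ?_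
    filter_upwards [(((nr_cont R z).tendsto v).comp (c0.mono_left nhdsWithin_le_nhds)).eventually
      (gt_mem_nhds hv), self_mem_nhdsWithin] with t t1 t2
    have t3 : 0 < t := t2
    have t4 := (h.2 _ v t1 hv).2
    rw [add_sub_cancel_left, map_smul, norm_smul, Real.norm_of_nonneg t3.le] at t4
    rw [slope_def_module, sub_zero, zero_smul, add_zero, norm_smul, norm_inv,
      Real.norm_of_nonneg t3.le, ← div_eq_inv_mul, le_div_iff₀ t3]
    linarith
  rw [norm_zero] at h1
  have h2 : D a z ζ = D a z 0 := by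
    rw [map_zero, ← norm_le_zero_iff]; linarith
  exact (R.cf.bij a z h.1).1 h2

lemma est1 (hS : R.Sm) (z : M) (v : En) {η : ℝ} (hη : 0 < η) : ∀ᶠ u in 𝓝 v,
    |R.nr z u - R.nr z v| ≤ R.nr (R.ex z v) (R.dex z v (u - v)) + η * ‖u - v‖ := by
  by_cases hv : v = 0
  · subst hv
    refine Eventually.of_forall fun u => ?_
    rw [hS.dex0, ex_zero, nr_zero, sub_zero, sub_zero, abs_of_nonneg (nr_nonneg R z u)]
    exact le_add_of_nonneg_right (by positivity)
  · have hp := nr_pos R z hv
    have d1 := (((R.g z).hasFDerivAt (x := v)).clm_apply (hasFDerivAt_id v)).sqrt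
      (Cv.gpos R.cf z v hv).ne'
    filter_upwards [d1.isLittleO.bound hη] with u hu
    simp only [id, ContinuousLinearMap.smul_apply, ContinuousLinearMap.add_apply,
      ContinuousLinearMap.comp_apply, ContinuousLinearMap.id_apply, ContinuousLinearMap.flip_apply,
      smul_eq_mul, Real.norm_eq_abs, Cv.gsymm R.cf z (u - v) v] at hu
    have h1 : |1 / (2 * R.nr z v) * (R.g z v (u - v) + R.g z v (u - v))| ≤
        R.nr (R.ex z v) (R.dex z v (u - v)) := by
      have h2 := cs R (R.ex z v) (R.dex z v v) (R.dex z v (u - v))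
      have h3 : R.nr (R.ex z v) (R.dex z v v) = R.nr z v := by rw [Riem.nr, hS.gauss, Riem.nr]
      rw [hS.gauss, h3] at h2
      have e : 1 / (2 * R.nr z v) * (R.g z v (u - v) + R.g z v (u - v)) =
          R.g z v (u - v) / R.nr z v := by field_simp; ring
      rw [e, abs_div, abs_of_pos hp, div_le_iff₀ hp]
      linarith
    have h4 := abs_sub_abs_le_abs_sub (R.nr z u - R.nr z v)
      (1 / (2 * R.nr z v) * (R.g z v (u - v) + R.g z v (u - v)))
    unfold Riem.nr at *
    linarith

lemma est2 (hS : R.Sm) {z : M} {v : En} (h : R.NC z v) {ε : ℝ} (hε : 0 < ε) : ∀ᶠ u in 𝓝 v,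
    |R.nr z u - R.nr z v| ≤ (1 + ε) * R.nr (R.ex z v)
      (chartAt En (R.ex z v) (R.ex z u) - chartAt En (R.ex z v) (R.ex z v)) := by
  obtain ⟨C, C0, hC⟩ := nr_le R (R.ex z v)
  obtain ⟨c, c0, hc⟩ := le_nr R (R.ex z v) h
  have hη : 0 < c * (ε / (2 + ε)) / (1 + C) := by positivity
  filter_upwards [est1 hS z v hη, (ex_strict hS z v).hasFDerivAt.isLittleO.bound hη] with u u1 u2
  set X := chartAt En (R.ex z v) (R.ex z u) - chartAt En (R.ex z v) (R.ex z v)
  have h1 := nr_add R (R.ex z v) X (R.dex z v (u - v) - X)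
  have h2 := hC (R.dex z v (u - v) - X)
  rw [norm_sub_rev] at h2
  rw [add_sub_cancel] at h1
  have h3 := hc (u - v)
  have n0 := norm_nonneg (u - v)
  have e1 : (1 + C) * (c * (ε / (2 + ε)) / (1 + C)) = c * (ε / (2 + ε)) := by field_simp
  have e2 : (2 + ε) * (ε / (2 + ε)) = ε := by field_simp
  have θ0 : 0 < ε / (2 + ε) := by positivity
  generalize ε / (2 + ε) = θ at *
  generalize c * θ / (1 + C) = η at *
  generalize R.nr (R.ex z v) (R.dex z v (u - v)) = A at *
  have h4 := mul_le_mul_of_nonneg_left u2 C0.le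
  have h5 := mul_le_mul_of_nonneg_left h3 θ0.le
  have h6 : η * ‖u - v‖ + C * (η * ‖u - v‖) = θ * (c * ‖u - v‖) := by
    linear_combination ‖u - v‖ * e1
  have h7 := mul_nonneg hη.le n0
  have h8 := mul_nonneg C0.le h7
  have h9 : A * (1 - θ) ≤ R.nr (R.ex z v) X := by linarith
  have h10 := mul_le_mul_of_nonneg_left h9 (by linarith : 0 ≤ 1 + ε)
  have h11 : (1 + ε) * (A * (1 - θ)) = A + θ * A := by linear_combination (-A) * e2
  linarith

lemma psi (hS : R.Sm) {a z : M} {δ : ℝ} (h0 : 0 < δ) (h : Lb R a z (2 * δ)) :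
    ∃ ψ : M → ℝ, (∀ y, ψ y ≤ dist z y) ∧ (∀ u, R.nr z u ≤ δ → ψ (R.ex z u) = R.nr z u) ∧
      ∀ y, ψ y < δ → ∃ u, R.nr z u < δ ∧ R.ex z u = y := by
  classical
  let ψ : M → ℝ := fun y =>
    if h : ∃ u, R.nr z u < 2 * δ ∧ R.ex z u = y then min δ (R.nr z h.choose) else δ
  have p1 : ∀ u, R.nr z u < 2 * δ → ψ (R.ex z u) = min δ (R.nr z u) := fun u hu => by
    have he : ∃ u', R.nr z u' < 2 * δ ∧ R.ex z u' = R.ex z u := ⟨u, hu, rfl⟩
    simp only [ψ, dif_pos he]
    rw [h.inj he.choose_spec.1 hu he.choose_spec.2]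
  have p2 : ∀ y, ψ y = δ ∨ ∃ u, R.nr z u < δ ∧ R.ex z u = y := fun y => by
    by_cases he : ∃ u, R.nr z u < 2 * δ ∧ R.ex z u = y
    · obtain ⟨u, u1, rfl⟩ := he
      rcases le_or_gt δ (R.nr z u) with h1 | h1
      · exact Or.inl (by rw [p1 u u1, min_eq_left h1])
      · exact Or.inr ⟨u, h1, rfl⟩
    · exact Or.inl (dif_neg he)
  have key := R.lip ψ fun p ε hε => by
    by_cases he : ∃ u, R.nr z u < 2 * δ ∧ R.ex z u = p
    · obtain ⟨v, v1, rfl⟩ := he
      obtain ⟨l, L, l1, l2, -, l4⟩ := exinv hS (h.nc hS v1)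
      have c1 : Tendsto (fun q => l (chartAt En (R.ex z v) q)) (𝓝 (R.ex z v)) (𝓝 v) := by
        have := l1.continuousAt.tendsto.comp
          ((chartAt En (R.ex z v)).continuousAt (mem_chart_source En _))
        rwa [l2] at this
      filter_upwards [l4, c1.eventually (est2 hS (h.nc hS v1) hε),
        (((nr_cont R z).tendsto v).comp c1).eventually (gt_mem_nhds v1)] with q q1 q2 q3
      have q4 := p1 _ q3
      rw [q1] at q2 q4
      rw [q4, p1 v v1]
      refine le_trans ?_ q2
      refine (abs_min_sub_min_le_max _ _ _ _).trans ?_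
      rw [sub_self, abs_zero, max_eq_right (abs_nonneg _)]
    · obtain ⟨c, c0, hc⟩ := le_nr R z (L := ContinuousLinearMap.id ℝ En) Function.injective_id
      have hK : IsCompact {u | R.nr z u ≤ δ} :=
        (isCompact_closedBall (0 : En) (δ / c)).of_isClosed_subset
          (isClosed_le (nr_cont R z) continuous_const) fun u hu => by
            rw [mem_closedBall_zero_iff, le_div_iff₀ c0, mul_comm]; exact (hc u).trans hu
      filter_upwards [(hK.image (ex_cont hS z)).isClosed.isOpen_compl.mem_nhds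
        (fun ⟨u, u1, u2⟩ => he ⟨u, by linarith [show R.nr z u ≤ δ from u1], u2⟩)] with q hq
      rw [(p2 q).resolve_right fun ⟨u, u1, u2⟩ => hq ⟨u, u1.le, u2⟩, show ψ p = δ from dif_neg he,
        sub_self, abs_zero]
      positivity
  have p3 : ψ z = 0 := by
    have := p1 0 (by rw [nr_zero]; linarith)
    rwa [ex_zero, nr_zero, min_eq_right h0.le] at this
  refine ⟨ψ, fun y => ?_, fun u hu => by rw [p1 u (by linarith), min_eq_right hu],
    fun y hy => (p2 y).resolve_left hy.ne⟩
  have := key y z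
  rw [p3, sub_zero, dist_comm] at this
  exact (le_abs_self _).trans this

lemma small [CompactSpace M] (hS : R.Sm) (hT : R.Top) : ∃ δ > 0, ∀ z,
    (∀ u, R.nr z u < δ → R.NC z u ∧ u ∈ R.Ib z) ∧
      ∀ y, dist z y < δ → ∃ u, R.nr z u = dist z y ∧ R.ex z u = y := by
  obtain ⟨δ, h0, h⟩ := unif hS hT
  refine ⟨δ / 2, half_pos h0, fun z => ?_⟩
  obtain ⟨a, ha⟩ := h z
  obtain ⟨ψ, p1, p2, p3⟩ := psi hS (half_pos h0) (a := a) (z := z) (by rwa [mul_div_cancel₀ _ two_ne_zero])
  have k : ∀ u, R.nr z u < δ / 2 → u ∈ R.Ib z := fun u hu =>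
    le_antisymm (dist_ex R z u) (by rw [← p2 u hu.le]; exact p1 _)
  refine ⟨fun u hu => ⟨ha.nc hS (by linarith), k u hu⟩, fun y hy => ?_⟩
  obtain ⟨u, u1, rfl⟩ := p3 y ((p1 y).trans_lt hy)
  exact ⟨u, (k u u1).symm, rfl⟩

lemma sph2 (hS : R.Sm) {z y : M} {r δ : ℝ} (h0 : 0 < r) (hr : r < δ)
    (h2 : ∀ y, dist z y < δ → ∃ u, R.nr z u = dist z y ∧ R.ex z u = y) (hy : r ≤ dist z y) :
    ∃ u, R.nr z u = r ∧ dist z y = r + dist (R.ex z u) y := by
  classical
  obtain ⟨c, c0, hc⟩ := le_nr R z (L := ContinuousLinearMap.id ℝ En) Function.injective_id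
  have hK : IsCompact {u | R.nr z u = r} :=
    (isCompact_closedBall (0 : En) (r / c)).of_isClosed_subset
      (isClosed_eq (nr_cont R z) continuous_const) fun u hu => by
        rw [mem_closedBall_zero_iff, le_div_iff₀ c0, mul_comm]; exact (hc u).trans hu.le
  obtain ⟨e, he⟩ := exists_ne (0 : En)
  have hp := nr_pos R z he
  obtain ⟨u, u1, u2⟩ := hK.exists_isMinOn (f := fun u => dist (R.ex z u) y)
    ⟨(r / R.nr z e) • e, by
      rw [mem_setOf_eq, nr_smul, abs_of_pos (div_pos h0 hp), div_mul_cancel₀ _ hp.ne']⟩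
    ((ex_cont hS z).dist continuous_const).continuousOn
  have u1' : R.nr z u = r := u1
  set m := dist (R.ex z u) y with hm
  have hs : ∀ p, dist z p = r → m ≤ dist p y := fun p hp => by
    obtain ⟨w, w1, rfl⟩ := h2 p (by linarith)
    exact u2 (show R.nr z w = r by rw [w1, hp])
  have cd : Continuous fun q => dist z q := by fun_prop
  have k1 : ∀ p q, |dist z p - dist z q| ≤ dist q p := fun p q => by
    rw [dist_comm z p, dist_comm z q, dist_comm q p]; exact abs_dist_sub_le p q z
  have k2 : ∀ p q, |min (dist q y) m - min (dist p y) m| ≤ dist p q := fun p q => by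
    refine (abs_min_sub_min_le_max _ _ _ _).trans ?_
    rw [sub_self, abs_zero, max_eq_left (abs_nonneg _), dist_comm p q]
    exact abs_dist_sub_le q p y
  have key := R.lip (fun w => if dist z w ≤ r then m + r - dist z w else min (dist w y) m)
    (fun p ε hε => by
      refine Eventually.mp ?_ ((R.ld p ε hε).mono fun q hq (h : _ ≤ dist p q) => h.trans hq)
      rcases lt_trichotomy (dist z p) r with hp | hp | hp
      · filter_upwards [(cd.tendsto p).eventually (gt_mem_nhds hp)] with q hq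
        rw [if_pos hq.le, if_pos hp.le, sub_sub_sub_cancel_left, dist_comm p q]
        exact k1 p q
      · refine Eventually.of_forall fun q => ?_
        rw [if_pos hp.le]
        split_ifs with hq
        · rw [sub_sub_sub_cancel_left, dist_comm p q]
          exact k1 p q
        · have := k2 p q
          rw [min_eq_right (hs p hp)] at this
          rwa [hp, add_sub_cancel_right]
      · filter_upwards [(cd.tendsto p).eventually (lt_mem_nhds hp)] with q hq
        rw [if_neg hq.not_ge, if_neg hp.not_ge]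
        exact k2 p q) z y
  refine ⟨u, u1', le_antisymm ?_ ?_⟩
  · linarith [dist_triangle z (R.ex z u) y, dist_ex R z u]
  · have m0 : 0 ≤ m := dist_nonneg
    simp only [dist_self, if_pos h0.le, sub_zero, min_eq_left m0] at key
    split_ifs at key with hq
    · have := hs y (le_antisymm hq hy)
      rw [dist_self] at this
      linarith
    · rw [sub_zero] at key
      linarith [le_abs_self (m + r)]

end N1

open N1 in
theorem n1Stmt : N1Stmt := fun _ _ _ _ _ _ R hS hT => by
  obtain ⟨δ, h0, h⟩ := small hS hT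
  exact ⟨up R, ⟨δ, h0, fun z => (h z).1⟩, ⟨δ, h0, fun z y r hr =>
    ⟨fun hy => (h z).2 y (hy.trans_lt hr.2), sph2 hS hr.1 hr.2 (h z).2⟩⟩, an hS⟩

end Vale.Agent.P234
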