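import Vale.Agent.P234.Spec
import Vale.Agent.P234.B0
import Vale.Agent.P234.C0

/-! Module N1 of P234, first part: norms, short geodesics, local inverse, first variation. -/

open scoped Manifold ContDiff Topology
open Set Filter

namespace Vale.Agent.P234

variable [Dim] {M : Type} [MetricSpace M] [ChartedSpace En M]

namespace N1

variable (R : Riem M)

lemma nr_nonneg (x : M) (v : En) : 0 ≤ R.nr x v := Real.sqrt_nonneg _

lemma nr_sq (x : M) (v : En) : R.nr x v ^ 2 = R.g x v v := Real.sq_sqrt (Cv.gnn R.cf x v)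

lemma nr_zero (x : M) : R.nr x 0 = 0 := by simp [Riem.nr]

lemma nr_pos (x : M) {v : En} (hv : v ≠ 0) : 0 < R.nr x v := Real.sqrt_pos.2 (Cv.gpos R.cf x v hv)

lemma nr_smul (x : M) (t : ℝ) (v : En) : R.nr x (t • v) = |t| * R.nr x v := by
  have : R.g x (t • v) (t • v) = t ^ 2 * R.g x v v := by
    simp only [map_smul, ContinuousLinearMap.smul_apply, smul_eq_mul]; ring
  rw [Riem.nr, this, Real.sqrt_mul (sq_nonneg t), Real.sqrt_sq_eq_abs, Riem.nr]

lemma cs (x : M) (u v : En) : |R.g x u v| ≤ R.nr x u * R.nr x v := by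
  refine abs_le_of_sq_le_sq' ?_ (mul_nonneg (nr_nonneg R x u) (nr_nonneg R x v)) |> abs_le.2
  rw [mul_pow, nr_sq, nr_sq]
  have := discrim_le_zero (a := R.g x u u) (b := 2 * R.g x u v) (c := R.g x v v) fun t => by
    have h := Cv.gnn R.cf x (t • u + v)
    simp only [map_add, map_smul, ContinuousLinearMap.add_apply, ContinuousLinearMap.smul_apply,
      smul_eq_mul, Cv.gsymm R.cf x v u] at h
    linarith
  rw [discrim] at this
  linarith

lemma nr_add (x : M) (u v : En) : R.nr x (u + v) ≤ R.nr x u + R.nr x v := by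
  refine (abs_le_of_sq_le_sq' ?_ (add_nonneg (nr_nonneg R x u) (nr_nonneg R x v))).2
  have h := (abs_le.1 (cs R x u v)).2
  rw [add_sq, nr_sq, nr_sq, nr_sq]
  simp only [map_add, ContinuousLinearMap.add_apply, Cv.gsymm R.cf x v u]
  linarith

lemma nr_cont (x : M) : Continuous (R.nr x) := by
  unfold Riem.nr; fun_prop

lemma nr_le (x : M) : ∃ C > 0, ∀ u, R.nr x u ≤ C * ‖u‖ := by
  refine ⟨‖R.g x‖ + 1, by positivity, fun u => ?_⟩
  refine (abs_le_of_sq_le_sq' ?_ (by positivity)).2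
  rw [nr_sq]
  have h := (le_abs_self _).trans ((R.g x).le_opNorm₂ u u)
  nlinarith [(R.g x).opNorm_nonneg, mul_nonneg (sq_nonneg ‖R.g x‖) (sq_nonneg ‖u‖),
    mul_nonneg (R.g x).opNorm_nonneg (sq_nonneg ‖u‖), sq_nonneg ‖u‖]

lemma le_nr (x : M) {L : En →L[ℝ] En} (hL : Function.Injective L) :
    ∃ c > 0, ∀ u, c * ‖u‖ ≤ R.nr x (L u) := by
  obtain ⟨u0, h0, h1⟩ := (isCompact_sphere (0 : En) 1).exists_isMinOn
    (NormedSpace.sphere_nonempty.2 zero_le_one) ((nr_cont R x).comp L.continuous).continuousOn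
  have hu0 : u0 ≠ 0 := fun h => by simp [h] at h0
  refine ⟨R.nr x (L u0), nr_pos R x fun h => hu0 (hL (by rw [h, map_zero])), fun u => ?_⟩
  by_cases hu : u = 0
  · simp [hu, nr_zero]
  · have hn : 0 < ‖u‖ := norm_pos_iff.2 hu
    have h2 : R.nr x (L u0) ≤ R.nr x (L (‖u‖⁻¹ • u)) :=
      h1 (show ‖u‖⁻¹ • u ∈ Metric.sphere (0 : En) 1 by simp [norm_smul, hn.ne'])
    rw [map_smul, nr_smul, abs_of_pos (inv_pos.2 hn), ← div_eq_inv_mul, le_div_iff₀ hn] at h2
    exact h2

lemma geo_smul (x : M) (v : En) (t s : ℝ) : R.geo x (t • v) s = R.geo x v (t * s) := by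
  obtain ⟨h1, h2, h3⟩ := R.fam x v
  obtain ⟨k1, k2, k3⟩ := R.fam x (t • v)
  obtain ⟨r1, r2⟩ := R.gf.rep _ h1 t 0
  have := R.gf.uniq _ _ k1 r1 (by simp [k2, h2]) (by rw [k3, r2]; simp [h3])
  simpa using congrFun this s

lemma ex_smul (x : M) (v : En) (t : ℝ) : R.ex x (t • v) = R.geo x v t := by
  rw [Riem.ex, geo_smul, mul_one]

lemma ex_zero (x : M) : R.ex x 0 = x := by
  rw [← zero_smul ℝ (0 : En), ex_smul, (R.fam x 0).2.1]

lemma geo_der (x : M) (v : En) (s : ℝ) :
    HasDerivAt (fun r => chartAt En (R.geo x v s) (R.geo x v r)) (R.vl x v s) s :=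
  ((R.fam x v).1.2 _ s (mem_chart_source En _)).1.hasDerivAt

lemma nr_vl (x : M) (v : En) (s : ℝ) : R.nr (R.geo x v s) (R.vl x v s) = R.nr x v := by
  obtain ⟨h1, h2, h3⟩ := R.fam x v
  rw [Riem.nr, Riem.vl, R.gf.speed _ h1 s, h3, h2, Riem.nr]

lemma up1 (x : M) (v : En) {s t : ℝ} (h : s ≤ t) :
    dist (R.geo x v s) (R.geo x v t) ≤ (t - s) * R.nr x v := by
  have hc := (R.fam x v).1.1
  refine image_le_of_liminf_slope_right_le_deriv_boundary
    (f := fun r => dist (R.geo x v s) (R.geo x v r)) (a := s) (b := t)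
    (B := fun r => (r - s) * R.nr x v) (B' := fun _ => R.nr x v) (by fun_prop) (by simp)
    (by fun_prop) (fun r _ => ?_) (fun r _ c hc' => ?_) ⟨h, le_rfl⟩
  · simpa using (((hasDerivAt_id r).sub_const s).mul_const (R.nr x v)).hasDerivWithinAt
  · have h1 : Tendsto (fun z => R.nr (R.geo x v r)
        (slope (fun z => chartAt En (R.geo x v r) (R.geo x v z)) r z)) (𝓝[>] r) (𝓝 (R.nr x v)) := by
      rw [← nr_vl R x v r]
      exact ((nr_cont R _).tendsto _).comp ((hasDerivAt_iff_tendsto_slope.1 (geo_der R x v r)).mono_left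
        (nhdsGT_le_nhdsNE r))
    have h2 : Tendsto (fun e : ℝ => (1 + e) * (R.nr x v + e)) (𝓝[>] 0) (𝓝 ((1 + 0) * (R.nr x v + 0))) :=
      Tendsto.mono_left (Continuous.tendsto (by fun_prop) 0) nhdsWithin_le_nhds
    obtain ⟨e, e1, e2⟩ := ((h2.eventually (gt_mem_nhds (by simpa using hc'))).and
      self_mem_nhdsWithin).exists
    have h3 := ((hc.tendsto r).mono_left (nhdsWithin_le_nhds (s := Ioi r))).eventually
      (R.ld (R.geo x v r) e e2)
    refine Eventually.frequently ?_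
    filter_upwards [h3, h1.eventually (gt_mem_nhds (lt_add_of_pos_right _ e2)),
      self_mem_nhdsWithin] with z z1 z2 z3
    have z4 : 0 < z - r := sub_pos.2 z3
    rw [slope_def_module, nr_smul, abs_of_pos (inv_pos.2 z4), ← div_eq_inv_mul,
      div_lt_iff₀ z4] at z2
    rw [slope_def_field, div_lt_iff₀ z4]
    have z5 := dist_triangle (R.geo x v s) (R.geo x v r) (R.geo x v z)
    have z6 : 0 < 1 + e := by linarith [show 0 < e from e2]
    have z7 := mul_lt_mul_of_pos_left z2 z6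
    have z8 := mul_lt_mul_of_pos_right e1 z4
    unfold Riem.nr at *
    nlinarith

lemma up (x : M) (v : En) (s t : ℝ) :
    dist (R.geo x v s) (R.geo x v t) ≤ |s - t| * R.nr x v := by
  rcases le_total s t with h | h
  · rw [abs_sub_comm, abs_of_nonneg (sub_nonneg.2 h)]; exact up1 R x v h
  · rw [dist_comm, abs_of_nonneg (sub_nonneg.2 h)]; exact up1 R x v h

lemma dist_ex (x : M) (v : En) : dist x (R.ex x v) ≤ R.nr x v := by
  have := up R x v 0 1
  rw [(R.fam x v).2.1] at this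
  simpa [Riem.ex] using this

variable [IsManifold 𝓘(ℝ, En) ∞ M]

lemma exc_eq {a z : M} (hz : z ∈ (chartAt En a).source) (v : En) :
    R.exc a (chartAt En a z, D a z v) = R.ex z v := by
  rw [Riem.exc, Bm.DiD hz, (chartAt En a).left_inv hz]

lemma exc_self (z : M) (v : En) : R.exc z (chartAt En z z, v) = R.ex z v := by
  rw [← exc_eq R (mem_chart_source En z), R.cf.self]; rfl

variable {R}

lemma ex_cont (hS : R.Sm) (z : M) : Continuous (R.ex z) := by
  refine continuous_iff_continuousAt.2 fun v => ?_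
  have := (hS.sm z (chartAt En z z, v) (mem_chart_target En z)).1.comp
    (f := fun u : En => (chartAt En z z, u)) (by fun_prop)
  simpa only [Function.comp_def, exc_self] using this

lemma ex_strict (hS : R.Sm) (z : M) (v : En) :
    HasStrictFDerivAt (fun u => chartAt En (R.ex z v) (R.ex z u)) (R.dex z v) v := by
  have := ((hS.sm z (chartAt En z z, v) (mem_chart_target En z)).2 (R.ex z v)
    (by rw [exc_self]; exact mem_chart_source En _)).comp v
    (f := fun u : En => (chartAt En z z, u)) (by fun_prop)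
  simp only [Function.comp_def, exc_self] at this
  exact this.hasStrictFDerivAt (by simp)

lemma exinv (hS : R.Sm) {y : M} {w : En} (h : R.NC y w) : ∃ (l : En → En) (L : En →L[ℝ] En),
    HasFDerivAt l L (chartAt En (R.ex y w) (R.ex y w)) ∧ l (chartAt En (R.ex y w) (R.ex y w)) = w ∧
    (∀ η, R.dex y w (L η) = η) ∧
    ∀ᶠ q in 𝓝 (R.ex y w), R.ex y (l (chartAt En (R.ex y w) q)) = q := by
  obtain ⟨e, he⟩ := Cv.equivOf _ h
  have hf := ex_strict hS y w
  rw [← he] at hf
  refine ⟨hf.localInverse _ _ _, e.symm, hf.to_localInverse.hasFDerivAt,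
    hf.localInverse_apply_image, fun η => by rw [← he]; exact e.apply_symm_apply η, ?_⟩
  have hs := mem_chart_source En (R.ex y w)
  have c1 := (chartAt En (R.ex y w)).continuousAt hs
  have c2 : Tendsto (fun q => R.ex y (hf.localInverse _ _ _ (chartAt En (R.ex y w) q)))
      (𝓝 (R.ex y w)) (𝓝 (R.ex y w)) :=
    ((ex_cont hS y).tendsto w).comp (hf.localInverse_tendsto.comp c1)
  have o := (chartAt En (R.ex y w)).open_source.mem_nhds hs
  filter_upwards [c1.eventually hf.eventually_right_inverse, c2.eventually o, o] with q q1 q2 q3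
  exact (chartAt En (R.ex y w)).injOn q2 q3 q1

lemma an (hS : R.Sm) (y : M) (w : En) (h : R.NC y w) (e : En) (ε : ℝ) (hε : 0 < ε) :
    ∀ᶠ t in 𝓝[>] (0 : ℝ), cst (R.ex (R.ex y w) (t • e)) y ≤
      R.nr y w ^ 2 / 2 + t * R.g (R.ex y w) (R.vl y w 1) e + ε * t := by
  obtain ⟨l, L, l1, l2, l3, l4⟩ := exinv hS h
  set p := R.ex y w with hp
  obtain ⟨h1, h2, h3⟩ := R.fam p e
  have d1 : HasDerivAt (fun r => chartAt En p (R.geo p e r)) e 0 := by
    have := geo_der R p e 0
    rwa [Riem.vl, h3, h2] at this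
  have d2 : HasDerivAt (fun r => l (chartAt En p (R.geo p e r))) (L e) 0 :=
    HasFDerivAt.comp_hasDerivAt_of_eq 0 l1 d1 (by rw [h2])
  have d3 : HasDerivAt (fun r => R.g y (l (chartAt En p (R.geo p e r)))
      (l (chartAt En p (R.geo p e r))) / 2) (R.g p (R.vl y w 1) e) 0 := by
    have := (((R.g y).hasFDerivAt.comp_hasDerivAt 0 d2).clm_apply d2).div_const 2
    simp only [Function.comp_apply, h2, l2] at this
    rw [Cv.gsymm R.cf y (L e) w, ← hS.gauss y w (L e), l3, hS.dexv, add_self_div_two] at this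
    exact this
  have c1 : Tendsto (R.geo p e) (𝓝[>] 0) (𝓝 p) := by
    have := (h1.1.tendsto 0).mono_left (nhdsWithin_le_nhds (s := Ioi 0))
    rwa [h2] at this
  filter_upwards [c1.eventually l4, ((hasDerivAt_iff_tendsto_slope.1 d3).mono_left
    (nhdsGT_le_nhdsNE 0)).eventually (gt_mem_nhds (lt_add_of_pos_right _ hε)),
    self_mem_nhdsWithin] with t t1 t2 t3
  rw [slope_def_field, sub_zero, div_lt_iff₀ (mem_Ioi.1 t3), h2, l2, ← nr_sq, ← nr_sq] at t2
  have t4 := dist_ex R y (l (chartAt En p (R.geo p e t)))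
  rw [t1] at t4
  rw [ex_smul, cst, dist_comm]
  have t5 := pow_le_pow_left₀ dist_nonneg t4 2
  linarith

end N1

end Vale.Agent.P234
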