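import Vale.Agent.P234.Base

/-! Module N2: Hopf-Rinow and uniqueness of extendable minimizers. -/

open scoped Manifold ContDiff Topology
open Set Filter

namespace Vale.Agent.P234

variable [Dim] {M : Type} [MetricSpace M] [ChartedSpace En M]

namespace N2
variable {R : Riem M}

theorem up0 (h : R.Near1) (x : M) (v : En) {s : ℝ} (hs : 0 ≤ s) :
    dist x (R.geo x v s) ≤ s * R.nr x v := by
  have := h.up x v 0 s
  rwa [R.geo_zero, zero_sub, abs_neg, abs_of_nonneg hs] at this

theorem seg (h : R.Near1) (x : M) (v : En) (hv : v ∈ R.Ib x) (s t : ℝ) (hs : 0 ≤ s) (hst : s ≤ t)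
    (ht : t ≤ 1) : dist (R.geo x v s) (R.geo x v t) = (t - s) * R.nr x v := by
  have h1 := up0 h x v hs
  have h2 := h.up x v s t
  have h3 := h.up x v t 1
  rw [abs_of_nonpos (by linarith)] at h2 h3
  have h4 : dist x (R.geo x v 1) = R.nr x v := hv
  have h5 := dist_triangle4 x (R.geo x v s) (R.geo x v t) (R.geo x v 1)
  linarith

/-- a minimizing broken geodesic is not broken -/
theorem ang (h : R.Near1) (z : M) (u e : En) (r η : ℝ) (hr : 0 < r) (hu : R.nr z u = r)
    (he : R.nr z e = r) (hη : 0 < η)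
    (hd : ∀ s ∈ Ioo 0 η, ∀ t ∈ Ioo 0 η, (s + t) * r ≤ dist (R.ex z (s • -e)) (R.ex z (t • u))) :
    u = e := by
  obtain ⟨δ, hδ, hn⟩ := h.n1
  set t : ℝ := min (η / 2) (δ / (2 * r)) with htd
  have ht0 : 0 < t := lt_min (by positivity) (by positivity)
  have ht1 : t < η := (min_le_left _ _).trans_lt (by linarith)
  have ht2 : t * r < δ := by
    have : t ≤ δ / (2 * r) := min_le_right _ _
    rw [le_div_iff₀ (by positivity)] at this
    linarith
  have n1 : R.nr (R.ex z (t • u)) (-R.vl z (t • u) 1) = t * r := by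
    rw [R.nr_neg, Riem.ex, R.nr_vl, R.nr_smul, abs_of_pos ht0, hu]
  have e1 : R.ex (R.ex z (t • u)) (-R.vl z (t • u) 1) = z := by
    have := R.ex_rev z (t • u) 1
    rwa [one_smul, sub_self, R.geo_zero] at this
  have nc := (hn (R.ex z (t • u)) (-R.vl z (t • u) 1) (by rw [n1]; exact ht2)).1
  refine R.eq_of_g_ge (hu.trans he.symm) ?_
  rw [hu, he]
  refine le_of_forall_pos_le_add fun ε hε => ?_
  have h1 := h.an _ _ nc (-e) (t * ε) (by positivity)
  rw [e1, n1, R.vl_rev] at h1
  obtain ⟨s, hs1, hs2⟩ := (h1.and (Ioo_mem_nhdsGT hη)).exists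
  have h2 := hd s hs2 t ⟨ht0, ht1⟩
  have hs0 : 0 < s := hs2.1
  have h3 : ((s + t) * r) ^ 2 ≤ dist (R.ex z (s • -e)) (R.ex z (t • u)) ^ 2 :=
    pow_le_pow_left₀ (by positivity) h2 2
  have e2 : R.g z (-(t • u)) (-e) = t * R.g z u e := by simp
  rw [cst, e2] at hs1
  have h4 : s * t * (r * r) ≤ s * t * (R.g z u e + ε) := by nlinarith [sq_nonneg (s * r)]
  exact le_of_mul_le_mul_left h4 (by positivity)

theorem uniq (h : R.Near1) (x : M) (v : En) (hv : v ∈ R.Io x) (w : En) (hw : w ∈ R.Ib x)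
    (e : R.ex x w = R.ex x v) : w = v := by
  obtain ⟨a, ha, hav⟩ := hv
  have ha0 : 0 < a := by linarith
  have key : ∀ t, 0 ≤ t → t ≤ a → dist x (R.geo x v t) = t * R.nr x v := by
    intro t h0 h1
    have := seg h x _ hav 0 (t / a) le_rfl (by positivity) (div_le_one_of_le₀ h1 ha0.le)
    rw [R.geo_zero, R.geo_smul', R.nr_smul, abs_of_pos ha0] at this
    simp only [mul_div_cancel₀ t ha0.ne'] at this
    rw [this]; field_simp; ring
  have h1 : R.nr x w = R.nr x v := by
    have h2 : dist x (R.ex x w) = R.nr x w := hw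
    rw [← h2, e, Riem.ex, key 1 zero_le_one ha.le, one_mul]
  rcases (R.nr_nn x v).eq_or_lt with h0 | h0
  · rw [R.nr_eq_zero h0.symm, R.nr_eq_zero (h1.trans h0.symm)]
  have h3 : R.vl x v 1 = R.vl x w 1 := by
    refine ang h (R.ex x v) _ _ (R.nr x v) (min 1 (a - 1)) h0 (R.nr_vl x v 1) ?_
      (lt_min one_pos (by linarith)) ?_
    · rw [← e, ← h1]; exact R.nr_vl x w 1
    · intro s hs t ht
      have hs1 : s < 1 := hs.2.trans_le (min_le_left _ _)
      have ht1 : t < a - 1 := ht.2.trans_le (min_le_right _ _)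
      have e1 : R.ex (R.ex x v) (s • -R.vl x w 1) = R.geo x w (1 - s) := by
        rw [← e]; exact R.ex_rev x w s
      have e2 : R.ex (R.ex x v) (t • R.vl x v 1) = R.geo x v (1 + t) := R.flow x v 1 t
      rw [e1, e2]
      have h4 := key (1 + t) (by linarith [ht.1]) (by linarith)
      have h5 := up0 h x w (s := 1 - s) (by linarith)
      have h6 := dist_triangle x (R.geo x w (1 - s)) (R.geo x v (1 + t))
      rw [h1] at h5
      linarith
  have h4 := R.vl_rev x v
  rw [h3, ← e, R.vl_rev] at h4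
  exact neg_injective h4

theorem hr (h : R.Near1) (x y : M) : ∃ v ∈ R.Ib x, R.ex x v = y := by
  rcases (dist_nonneg (x := x) (y := y)).eq_or_lt with h0 | h0
  · exact ⟨0, R.zero_mem_Ib x, by rw [R.ex_zero]; exact dist_eq_zero.1 h0.symm⟩
  obtain ⟨δ, hδ, hs⟩ := h.sph
  set ρ := dist x y with hρ
  have pick : ∀ (z : M) (b : ℝ), 0 < b → dist z y = b → ∃ r u, 0 < r ∧ r ≤ b ∧ R.nr z u = r ∧
      dist (R.ex z u) y = b - r := by
    intro z b hb e
    have h1 : 0 < min (δ / 2) b := lt_min (by linarith) hb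
    obtain ⟨u, hu1, hu2⟩ := (hs z y (min (δ / 2) b)
      ⟨h1, (min_le_left _ _).trans_lt (by linarith)⟩).2 (e ▸ min_le_right _ _)
    exact ⟨_, u, h1, min_le_right _ _, hu1, by linarith⟩
  obtain ⟨r0, u, hr0, hr1, hu1, hu2⟩ := pick x ρ h0 rfl
  set e : En := r0⁻¹ • u with he
  have hen : R.nr x e = 1 := by
    rw [he, R.nr_smul, abs_of_pos (inv_pos.2 hr0), hu1, inv_mul_cancel₀ hr0.ne']
  have hue : R.geo x e r0 = R.ex x u := by
    rw [← R.ex_smul, he, smul_smul, mul_inv_cancel₀ hr0.ne', one_smul]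
  set S : Set ℝ := Icc r0 ρ ∩ {t | dist (R.geo x e t) y = ρ - t} with hS
  have hc : IsCompact S := isCompact_Icc.inter_right
    (isClosed_eq ((R.geo_cont x e).dist continuous_const) (by fun_prop))
  obtain ⟨T, ⟨hT1, hT2⟩, hT3⟩ := hc.exists_isGreatest ⟨r0, ⟨le_rfl, hr1⟩, by
    change dist _ _ = _
    rw [hue, hu2]⟩
  have hT2' : dist (R.geo x e T) y = ρ - T := hT2
  have hT0 : 0 < T := hr0.trans_le hT1.1
  have hT : T = ρ := by
    by_contra hne
    have hlt : T < ρ := lt_of_le_of_ne hT1.2 hne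
    obtain ⟨r, u', hr, hr', hu1', hu2'⟩ := pick (R.geo x e T) (ρ - T) (by linarith) hT2'
    have h3 : u' = r • R.vl x e T := by
      refine ang h _ _ _ r (min 1 (T / r)) hr hu1' ?_ (lt_min one_pos (by positivity)) ?_
      · rw [R.nr_smul, abs_of_pos hr, R.nr_vl, hen, mul_one]
      · intro s hs t ht
        have hs1 : s * r < T := by
          have := hs.2.trans_le (min_le_right _ _)
          rwa [lt_div_iff₀ hr] at this
        have ht1 : t < 1 := ht.2.trans_le (min_le_left _ _)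
        have e1 : R.ex (R.geo x e T) (s • -(r • R.vl x e T)) = R.geo x e (T - s * r) := by
          rw [smul_neg, smul_smul, ← neg_smul, R.flow, sub_eq_add_neg]
        rw [e1, R.ex_smul]
        have h4 := up0 h x e (s := T - s * r) (by linarith)
        have h5 := h.up (R.geo x e T) u' t 1
        rw [abs_of_nonpos (by linarith), hu1'] at h5
        have h6 := dist_triangle4 x (R.geo x e (T - s * r)) (R.geo (R.geo x e T) u' t) y
        have h7 := dist_triangle (R.geo (R.geo x e T) u' t) (R.geo (R.geo x e T) u' 1) y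
        have h8 : dist (R.geo (R.geo x e T) u' 1) y = ρ - T - r := hu2'
        rw [hen] at h4
        linarith
    rw [h3, R.flow] at hu2'
    have := hT3 (a := T + r) ⟨⟨by linarith [hT1.1], by linarith⟩, by
      change dist _ _ = _
      rw [hu2']; ring⟩
    linarith
  rw [hT, sub_self, dist_eq_zero] at hT2'
  refine ⟨ρ • e, ?_, by rw [R.ex_smul, hT2']⟩
  change dist _ _ = _
  rw [R.ex_smul, hT2', R.nr_smul, hen, abs_of_pos h0, mul_one]

end N2

theorem n2Stmt : N2Stmt := fun _ _ _ _ _ _ _ h => ⟨N2.hr h, N2.seg h, N2.uniq h⟩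

end Vale.Agent.P234
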