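import Vale.Agent.P234.Base

/-! Module O: the first order condition. -/

open scoped Manifold ContDiff Topology
open Set Filter

namespace Vale.Agent.P234

variable [Dim] {M : Type} [MetricSpace M] [ChartedSpace En M] [IsManifold 𝓘(ℝ, En) ∞ M]

namespace Oc
variable {R : Riem M}

theorem half_good (hK : R.Kn) {z : M} {v : En} (hv : v ∈ R.Ib z) : R.Good z ((1 / 2 : ℝ) • v) :=
  hK.nci z _ (R.smul_mem_Io hv (by norm_num) (by norm_num))

theorem g_half (z : M) (v u : En) : R.g z ((1 / 2 : ℝ) • v) u = R.g z v u / 2 := by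
  simp; ring

theorem g_half2 (z : M) (v : En) :
    R.g z ((1 / 2 : ℝ) • v) ((1 / 2 : ℝ) • v) = R.g z v v / 4 := by
  simp; ring

theorem mid (hN : R.Near) {z : M} {v : En} (hv : v ∈ R.Ib z) (z' : M) :
    cst z' (R.ex z v) ≤ 2 * cst z' (R.ex z ((1 / 2 : ℝ) • v)) + R.g z v v / 4 := by
  have h1 := cst_tri z' (R.ex z ((1 / 2 : ℝ) • v)) (R.ex z v) (l := 1 / 2) (by norm_num)
    (by norm_num)
  have h2 : cst (R.ex z ((1 / 2 : ℝ) • v)) (R.ex z v) = R.g z v v / 8 := by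
    rw [cst, R.ex_smul, Riem.ex, hN.seg z v hv (1 / 2) 1 (by norm_num) (by norm_num) le_rfl,
      mul_pow, R.nr_sq]
    ring
  rw [h2] at h1
  exact h1.trans (le_of_eq (by ring))

theorem sc (hN : R.Near) (hY : R.Tay) (hK : R.Kn) {z : M} {v : En} (hv : v ∈ R.Ib z) :
    ∃ C : ℝ, ∃ r > 0, ∀ ξ, R.nr z ξ < r →
      cst (R.ex z ξ) (R.ex z v) ≤ R.g z v v / 2 - R.g z v ξ + C * R.g z ξ ξ := by
  obtain ⟨⟨C, hC⟩, h2⟩ := hY.ti {tm z ((1 / 2 : ℝ) • v)} isCompact_singleton (by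
    rintro p rfl; exact half_good hK hv)
  obtain ⟨r, hr, h3⟩ := h2 1 one_pos
  refine ⟨C + 2, r, hr, fun ξ hξ => ?_⟩
  have h4 := (abs_le.1 (h3 z _ ξ rfl hξ)).2
  have h5 := (abs_le.1 (hC z _ ξ rfl)).2
  have h6 := mid hN hv (R.ex z ξ)
  rw [g_half2, g_half] at h4
  linarith

/-- all minimizing vectors -/
def K0 (R : Riem M) : Set (TM M) := {p | tv p ∈ R.Ib p.proj}

theorem K0_cpt [CompactSpace M] (hT : R.Top) : IsCompact (K0 R) :=
  (hT.cpt (Metric.diam (univ : Set M))).of_isClosed_subset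
    (isClosed_eq (hT.cproj.dist hT.cex) hT.cnr) fun _ hp => R.nr_le_diam hp

theorem lim [CompactSpace M] (hT : R.Top) (F : Ultrafilter ℝ) (x : ℝ → M) (p : ℝ → En) (z : M)
    (hx : Tendsto x F (𝓝 z)) (hp : ∀ s, p s ∈ R.Ib (x s)) :
    ∃ q ∈ R.Ib z, Tendsto (fun s => tm (x s) (p s)) F (𝓝 (tm z q)) := by
  obtain ⟨P, hP, h⟩ := (K0_cpt hT).ultrafilter_le_nhds (F.map fun s => tm (x s) (p s))
    (le_principal_iff.2 (mem_map.2 (Eventually.of_forall hp)))
  have h1 : Tendsto (fun s => tm (x s) (p s)) F (𝓝 P) := h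
  have h2 : P.proj = z := tendsto_nhds_unique ((hT.cproj.tendsto P).comp h1) hx
  subst h2
  exact ⟨tv P, hP, h1⟩

theorem fib (hT : R.Top) {F : Filter ℝ} {z : M} {w : ℝ → En} {q : En}
    (h : Tendsto (fun s => tm z (w s)) F (𝓝 (tm z q))) : Tendsto w F (𝓝 q) := by
  have ho : IsOpen {p : TM M | p.proj ∈ (chartAt En z).source} :=
    (chartAt En z).open_source.preimage hT.cproj
  have h1 := ((hT.clift z).continuousAt (x := tm z q)
    (ho.mem_nhds (mem_chart_source En z))).tendsto.comp h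
  have h2 := (continuous_snd.tendsto _).comp h1
  simpa [Function.comp_def, lift, R.cf.self] using h2

theorem dir [CompactSpace M] (hT : R.Top) (hN : R.Near) (hY : R.Tay) (hK : R.Kn) (φ a : M → ℝ)
    (hφ : Continuous φ) (ha : Continuous a) (h1 : ∀ z y, a y - cst z y ≤ φ z)
    (h2 : ∀ z, ∃ y, φ z = a y - cst z y) (τ : ℝ) (hτ : 0 < τ) (z : M) (v : En)
    (hm : R.Mn φ τ z v) (u : En) : ∃ p ∈ R.Act φ a z, R.g z v u ≤ τ * R.g z p u := by
  set F : Ultrafilter ℝ := Ultrafilter.of (𝓝[>] (0 : ℝ)) with hFd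
  have hF : (F : Filter ℝ) ≤ 𝓝[>] 0 := Ultrafilter.of_le _
  have hF0 : Tendsto (fun s : ℝ => s) F (𝓝 0) := hF.trans nhdsWithin_le_nhds
  have hpos : ∀ᶠ s in (F : Filter ℝ), 0 < s := hF self_mem_nhdsWithin
  set x : ℝ → M := fun s => R.ex z (s • u) with hxd
  have hx : Tendsto x F (𝓝 z) := by
    have := ((R.geo_cont z u).tendsto 0).comp hF0
    rw [R.geo_zero] at this
    simpa [hxd, R.ex_smul, Function.comp_def] using this
  choose y hy using h2
  choose p hp hpy using fun s => hN.hr (x s) (y (x s))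
  choose w hw hwm using fun s => hN.hr z (R.ex (x s) ((1 / 2 : ℝ) • p s))
  obtain ⟨q, hq, tq⟩ := lim hT F x p z hx hp
  obtain ⟨w0, hw0, tw⟩ := lim hT F (fun _ => z) w z tendsto_const_nhds hw
  have th : Tendsto (fun s => tm (x s) ((1 / 2 : ℝ) • p s)) F (𝓝 (tm z ((1 / 2 : ℝ) • q))) :=
    (hT.csmul.tendsto ((1 / 2 : ℝ), tm z q)).comp (tendsto_const_nhds.prodMk_nhds tq)
  have hg := half_good hK hq
  have e0 : w0 = (1 / 2 : ℝ) • q := by
    refine hg.2.2 w0 hw0 (tendsto_nhds_unique ((hT.cex.tendsto _).comp tw) ?_)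
    exact ((hT.cex.tendsto _).comp th).congr fun s => (hwm s).symm
  subst e0
  have ty : Tendsto (fun s => y (x s)) F (𝓝 (R.ex z q)) :=
    ((hT.cex.tendsto _).comp tq).congr fun s => hpy s
  refine ⟨q, ⟨hq, ?_⟩, ?_⟩
  · rw [← R.cst_of_Ib hq]
    refine tendsto_nhds_unique ((hφ.tendsto z).comp hx) ?_
    refine (((ha.tendsto _).comp ty).sub
      ((continuous_cst.tendsto (z, R.ex z q)).comp (hx.prodMk_nhds ty))).congr fun s => ?_
    exact (hy (x s)).symm
  obtain ⟨C, r, hr, hsc⟩ := sc hN hY hK hm.1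
  obtain ⟨⟨C', hC'⟩, -⟩ := hY.ti {tm z ((1 / 2 : ℝ) • q)} isCompact_singleton (by
    rintro p rfl; exact hg)
  obtain ⟨N, hNm, r', hr', htl⟩ := hY.tl z _ hg.1 hg.2.1 1 one_pos
  have tn : Tendsto (fun s : ℝ => R.nr z (s • u)) F (𝓝 0) := by
    have := (hF0.abs).mul_const (R.nr z u)
    simpa [R.nr_smul] using this
  have tg : Tendsto (fun s => R.g z (w s) u) F (𝓝 (R.g z ((1 / 2 : ℝ) • q) u)) :=
    ((((R.g z).flip u).continuous.tendsto _).comp (fib hT tw))
  have t1 : Tendsto (fun s => τ * (2 * R.g z (w s) u) +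
      s * ((C + τ * (C' + 2)) * R.g z u u)) F (𝓝 (τ * R.g z q u)) := by
    have := ((tg.const_mul 2).const_mul τ).add (hF0.mul_const ((C + τ * (C' + 2)) * R.g z u u))
    rw [g_half] at this
    have e : τ * (2 * (R.g z q u / 2)) + 0 * ((C + τ * (C' + 2)) * R.g z u u) = τ * R.g z q u := by
      ring
    rwa [e] at this
  refine ge_of_tendsto t1 ?_
  filter_upwards [hpos, tn.eventually (gt_mem_nhds hr), tn.eventually (gt_mem_nhds hr'),
    tw.eventually hNm, th.eventually hNm] with s s0 s1 s2 s3 s4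
  have a1 := hm.2 (x s)
  have a2 := hsc _ s1
  have a3 := htl z (w s) _ (s • u) _ s3 (mem_of_mem_nhds hNm) (hw s) hg s2 s4 (hwm s).symm
  have a4 := (abs_le.1 (hC' z _ (s • u) rfl)).1
  have a5 := h1 z (y (x s))
  have a6 := mid hN (hp s) z
  have a7 := hy (x s)
  have a8 := R.cst_of_Ib (hp s)
  have a9 := R.cst_of_Ib (hw s)
  rw [hpy] at a6 a8
  rw [hwm] at a9
  rw [R.nr_sq, g_half2] at a3
  have e1 : R.g z v (s • u) = s * R.g z v u := by simp
  have e2 : R.g z (w s) (s • u) = s * R.g z (w s) u := by simp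
  have e3 : R.g z (s • u) (s • u) = s * (s * R.g z u u) := by simp
  rw [e1, e3] at a2
  rw [e2, e3] at a3
  rw [e3] at a4
  have b1 : φ (x s) - φ z ≤ 2 * (s * R.g z (w s) u) + (C' + 2) * (s * (s * R.g z u u)) := by
    change _ ≤ R.g (x s) (p s) (p s) / 4 / 2 at a3
    linarith
  have b2 := mul_le_mul_of_nonneg_left b1 hτ.le
  have b3 : s * R.g z v u ≤ s * (τ * (2 * R.g z (w s) u) +
      s * ((C + τ * (C' + 2)) * R.g z u u)) := by
    change cst (x s) _ ≤ _ at a2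
    nlinarith
  exact le_of_mul_le_mul_left b3 s0

theorem rep (z : M) (f : En →L[ℝ] ℝ) : ∃ u, ∀ p, f p = R.g z p u := by
  let T : En →ₗ[ℝ] En :=
    (InnerProductSpace.toDual ℝ En).symm.toLinearEquiv.toLinearMap ∘ₗ (R.g z).toLinearMap
  have hi : Function.Injective T := by
    rw [injective_iff_map_eq_zero]
    intro u hu
    by_contra h
    have h1 : R.g z u = 0 := by
      simpa [T] using hu
    have := R.g_pos z h
    rw [h1] at this
    simp at this
  obtain ⟨u, hu⟩ := LinearMap.injective_iff_surjective.1 hi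
    ((InnerProductSpace.toDual ℝ En).symm f)
  have h2 : R.g z u = f := by simpa [T] using hu
  exact ⟨u, fun p => by rw [← h2, R.g_symm]⟩

theorem closed [CompactSpace M] (hT : R.Top) (φ a : M → ℝ) (hφ : Continuous φ)
    (ha : Continuous a) (z : M) : IsClosed (convexHull ℝ (R.Act φ a z)) := by
  have := hT.t2
  have h1 : IsCompact (K0 R ∩ {p | φ p.proj = a (R.ex p.proj (tv p)) - R.nr p.proj (tv p) ^ 2 / 2}) :=
    (K0_cpt hT).inter_right (isClosed_eq (hφ.comp hT.cproj)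
      ((ha.comp hT.cex).sub ((hT.cnr.pow 2).div_const 2)))
  have h2 := (hT.hull _ h1).isClosed.preimage (hT.ctm z)
  have e : R.Act φ a z = {w | tm z w ∈ K0 R ∩
      {p | φ p.proj = a (R.ex p.proj (tv p)) - R.nr p.proj (tv p) ^ 2 / 2}} := by
    ext w
    simp only [Riem.Act, K0, mem_inter_iff, mem_ofPred_eq, tm_proj, tv_tm, R.nr_sq]
  rw [e]
  exact h2

end Oc

theorem oStmt' : OStmt' := by
  intro M _ _ _ _ _ R hT _ hN hY hK φ a hφ ha h1 h2 τ hτ z v hm
  refine ⟨τ⁻¹ • v, ?_, by rw [smul_smul, mul_inv_cancel₀ hτ.ne', one_smul]⟩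
  by_contra hc
  obtain ⟨f, c, hf1, hf2⟩ := geometric_hahn_banach_closed_point (convex_convexHull ℝ _)
    (Oc.closed hT φ a hφ ha z) hc
  obtain ⟨u, hu⟩ := Oc.rep (R := R) z f
  obtain ⟨p, hp, h3⟩ := Oc.dir hT hN hY hK φ a hφ ha h1 h2 τ hτ z v hm u
  have h4 := (hf1 p (subset_convexHull ℝ _ hp)).trans hf2
  rw [map_smul, hu, hu, smul_eq_mul, lt_inv_mul_iff₀ hτ] at h4
  linarith

end Vale.Agent.P234
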