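import Vale.Agent.P234.Base

/-! Module P: bounds on the differential of the exponential map. -/

open scoped Manifold ContDiff Topology
open Set Filter

namespace Vale.Agent.P234

variable [Dim] {M : Type} [MetricSpace M] [ChartedSpace En M] [IsManifold 𝓘(ℝ, En) ∞ M]

namespace Pm

theorem cnorm : Continuous fun B : Bil => ‖B‖ := continuous_norm (E := Bil)

theorem coer {G : En → Bil} {y0 : En} (hc : ContinuousAt G y0)
    (hp : ∀ u, u ≠ 0 → 0 < G y0 u u) :
    ∃ c > 0, ∀ᶠ y in 𝓝 y0, ∀ u, c * ‖u‖ ^ 2 ≤ G y u u := by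
  obtain ⟨u0, h0, hm⟩ := (isCompact_sphere (0 : En) 1).exists_isMinOn
    (NormedSpace.sphere_nonempty.2 zero_le_one) (f := fun u => G y0 u u) (by fun_prop)
  have c0 : 0 < G y0 u0 u0 := hp _ (Metric.ne_of_mem_sphere h0 one_ne_zero)
  refine ⟨G y0 u0 u0 / 2, by positivity, ?_⟩
  have h1 : ∀ᶠ y in 𝓝 y0, ∀ u ∈ Metric.sphere (0 : En) 1, G y0 u0 u0 / 2 < G y u u := by
    refine (isCompact_sphere (0 : En) 1).eventually_forall_of_forall_eventually fun u hu => ?_
    have h2 : ContinuousAt (fun z : En × En => G z.1 z.2 z.2) (y0, u) :=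
      ((ContinuousAt.comp (f := fun z : En × En => z.1) hc continuousAt_fst).clm_apply
        continuousAt_snd).clm_apply continuousAt_snd
    exact h2.eventually (lt_mem_nhds ((half_lt_self c0).trans_le (hm hu)))
  filter_upwards [h1] with y hy u
  by_cases hu : u = 0
  · simp [hu]
  have n0 : 0 < ‖u‖ := norm_pos_iff.2 hu
  have h2 := (hy (‖u‖⁻¹ • u) (by simp [norm_smul, n0.ne'])).le
  simp only [map_smul, smul_apply, smul_eq_mul] at h2
  rw [← le_div_iff₀ (by positivity)]
  refine h2.trans_eq ?_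
  field_simp

variable (R : Riem M) (hS : R.Sm)
include hS

theorem ex_cont (x : M) (v : En) : ContinuousAt (R.ex x) v := by
  have h := (hS.sm x (chartAt En x x, v) (mem_chart_target En x)).1
  have h2 := ContinuousAt.comp (f := fun u : En => (chartAt En x x, u)) h (by fun_prop)
  simpa only [Function.comp_def, R.exc_self] using h2

theorem ex_sm (x : M) (v : En) {b : M} (hb : R.ex x v ∈ (chartAt En b).source) :
    ContDiffAt ℝ ∞ (fun u => chartAt En b (R.ex x u)) v := by
  have h := (hS.sm x (chartAt En x x, v) (mem_chart_target En x)).2 b (by rwa [R.exc_self])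
  have h2 := ContDiffAt.comp (f := fun u : En => (chartAt En x x, u)) v h (by fun_prop)
  simpa only [Function.comp_def, R.exc_self] using h2

theorem fd_eq (x : M) (v : En) {b : M} (hb : R.ex x v ∈ (chartAt En b).source) (u : En) :
    fderiv ℝ (fun u => chartAt En b (R.ex x u)) v u = D b (R.ex x v) (R.dex x v u) := by
  set y := R.ex x v with hy
  have hs := mem_chart_source En y
  have h1 : DifferentiableAt ℝ (fun s => chartAt En b ((chartAt En y).symm s)) (chartAt En y y) := by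
    refine ((R.cf.sm y b).contDiffAt (IsOpen.mem_nhds ?_ ⟨mem_chart_target En y, ?_⟩)).differentiableAt
      (by simp)
    · exact (chartAt En y).isOpen_inter_preimage_symm (chartAt En b).open_source
    · rw [mem_preimage, (chartAt En y).left_inv hs]; exact hb
  have h2 := (ex_sm R hS x v hs).differentiableAt (by simp)
  have h3 := h1.hasFDerivAt.comp v h2.hasFDerivAt
  have h4 : (fun u => chartAt En b (R.ex x u)) =ᶠ[𝓝 v]
      (fun s => chartAt En b ((chartAt En y).symm s)) ∘ fun u => chartAt En y (R.ex x u) := by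
    filter_upwards [(ex_cont R hS x v).preimage_mem_nhds ((chartAt En y).open_source.mem_nhds hs)]
      with u hu
    rw [Function.comp_apply, (chartAt En y).left_inv hu]
  rw [h4.fderiv_eq, h3.fderiv, R.cf.chg y b y hs hb, R.cf.self]
  rfl

theorem q_eq (x : M) (v : En) {b : M} (hb : R.ex x v ∈ (chartAt En b).source) (u : En) :
    R.q x v u = locB R.g b (chartAt En b (R.ex x v))
      (fderiv ℝ (fun u => chartAt En b (R.ex x u)) v u)
      (fderiv ℝ (fun u => chartAt En b (R.ex x u)) v u) := by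
  rw [fd_eq R hS x v hb, R.cf.pull b _ hb, Riem.q]

omit hS [IsManifold 𝓘(ℝ, En) ∞ M] in
theorem locB_cont (b : M) {y : En} (hy : y ∈ (chartAt En b).target) :
    ContinuousAt (locB R.g b) y :=
  (R.cf.cm b).smooth.continuousOn.continuousAt ((chartAt En b).open_target.mem_nhds hy)

omit hS in
theorem bil_le (B : Bil) (u : En) {A K : ℝ} (hB : ‖B‖ ≤ A) (hu : ‖u‖ ≤ K) : B u u ≤ A * K ^ 2 := by
  refine (Real.le_norm_self _).trans ((B.le_opNorm₂ u u).trans ?_)
  rw [sq, ← mul_assoc]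
  have := B.opNorm_nonneg.trans hB
  have := (norm_nonneg _).trans hu
  gcongr

theorem q_loc (hT : R.Top) (p0 : TM M) : ∃ Q > 0, ∀ᶠ p in 𝓝 p0, ∀ u,
    R.q p.proj (tv p) u ≤ Q * R.g p.proj u u := by
  set a := p0.proj with ha
  set b := R.ex a (tv p0) with hb
  have sa := mem_chart_source En a
  have sb := mem_chart_source En b
  have o1 : {p : TM M | p.proj ∈ (chartAt En a).source} ∈ 𝓝 p0 :=
    hT.cproj.continuousAt.preimage_mem_nhds ((chartAt En a).open_source.mem_nhds sa)
  have o2 : {p : TM M | R.ex p.proj (tv p) ∈ (chartAt En b).source} ∈ 𝓝 p0 :=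
    hT.cex.continuousAt.preimage_mem_nhds ((chartAt En b).open_source.mem_nhds sb)
  have cl : ContinuousAt (lift a) p0 := (hT.clift a).continuousAt o1
  have hΨ : ContDiffAt ℝ ∞ (fun w => chartAt En b (R.exc a w)) (lift a p0) :=
    (hS.sm a (lift a p0) (mem_chart_target En a)).2 b (by
      rw [lift, R.exc_D sa]; exact sb)
  have hΨ1 : ContDiffAt ℝ 1 (fun w => chartAt En b (R.exc a w)) (lift a p0) := hΨ.of_le (by simp)
  have c1 : ContinuousAt (fun p => ‖fderiv ℝ (fun w => chartAt En b (R.exc a w)) (lift a p)‖) p0 :=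
    ((hΨ1.continuousAt_fderiv (by simp)).comp cl).norm
  have c2 : ContinuousAt (fun p : TM M =>
      ‖locB R.g b (chartAt En b (R.ex p.proj (tv p)))‖) p0 :=
    cnorm.continuousAt.comp (ContinuousAt.comp
      (f := fun p : TM M => chartAt En b (R.ex p.proj (tv p)))
      (locB_cont R b (mem_chart_target En b))
      (((chartAt En b).continuousAt sb).comp (f := fun p : TM M => R.ex p.proj (tv p))
        hT.cex.continuousAt))
  obtain ⟨c, c0, hc⟩ := coer (locB_cont R a (mem_chart_target En a))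
    ((R.cf.cm a).pos _ (mem_chart_target En a))
  obtain ⟨A, hA⟩ := c2.tendsto.isBoundedUnder_le
  obtain ⟨K, hK⟩ := c1.tendsto.isBoundedUnder_le
  refine ⟨(|A| * K ^ 2 + 1) / c, by positivity, ?_⟩
  filter_upwards [o1, o2, eventually_map.1 hA, eventually_map.1 hK,
    cl.eventually (hΨ1.eventually (by simp)), cl.fst.eventually hc] with p p1 p2 p3 p4 p5 p6 u
  have e1 : (fun u => chartAt En b (R.ex p.proj u)) = (fun w => chartAt En b (R.exc a w)) ∘
      fun u => (chartAt En a p.proj, D a p.proj u) := by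
    funext u; rw [Function.comp_apply, R.exc_D p1]
  have e2 : HasFDerivAt (fun u => (chartAt En a p.proj, D a p.proj u))
      ((0 : En →L[ℝ] En).prod (D a p.proj)) (tv p) :=
    (hasFDerivAt_const _ _).prodMk (D a p.proj).hasFDerivAt
  have e3 := ((p5.differentiableAt (by simp)).hasFDerivAt.comp (tv p) e2).fderiv
  have e4 : ‖fderiv ℝ (fun u => chartAt En b (R.ex p.proj u)) (tv p) u‖ ≤
      K * ‖D a p.proj u‖ := by
    rw [e1, e3, ContinuousLinearMap.comp_apply]
    refine (ContinuousLinearMap.le_opNorm _ _).trans (mul_le_mul p4 (le_of_eq ?_) (norm_nonneg _)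
      ((norm_nonneg _).trans p4))
    simp
  have e5 := p6 (D a p.proj u)
  rw [show (lift a p).1 = chartAt En a p.proj from rfl, R.cf.pull a _ p1] at e5
  rw [q_eq R hS _ _ p2]
  refine (bil_le _ _ (p3.trans (le_abs_self A)) e4).trans ?_
  rw [div_mul_eq_mul_div, le_div_iff₀ c0]
  have e6 := mul_le_mul_of_nonneg_left e5 (by positivity : 0 ≤ |A| * K ^ 2)
  nlinarith [R.g_nn p.proj u]

theorem qb (hT : R.Top) (r : ℝ) :
    ∃ Q > 0, ∀ z v u, R.nr z v ≤ r → R.q z v u ≤ Q * R.g z u u := by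
  have key : ∃ Q > 0, ∀ p ∈ {p : TM M | R.nr p.proj (tv p) ≤ r}, ∀ u,
      R.q p.proj (tv p) u ≤ Q * R.g p.proj u u := by
    refine (hT.cpt r).induction_on (p := fun S => ∃ Q > 0, ∀ p ∈ S, ∀ u,
      R.q p.proj (tv p) u ≤ Q * R.g p.proj u u) ⟨1, one_pos, by simp⟩ ?_ ?_ ?_
    · rintro S T hST ⟨Q, h0, h⟩
      exact ⟨Q, h0, fun p hp => h p (hST hp)⟩
    · rintro S T ⟨Q, h0, h⟩ ⟨Q', h0', h'⟩
      refine ⟨Q + Q', by positivity, fun p hp u => ?_⟩
      have := R.g_nn p.proj u
      rcases hp with hp | hp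
      · nlinarith [h p hp u]
      · nlinarith [h' p hp u]
    · intro p _
      obtain ⟨Q, h0, h⟩ := q_loc R hS hT p
      exact ⟨_, mem_nhdsWithin_of_mem_nhds h, Q, h0, fun p hp => hp⟩
  obtain ⟨Q, h0, h⟩ := key
  exact ⟨Q, h0, fun z v u hv => h (tm z v) hv u⟩

theorem qz (hT : R.Top) (x : M) (w ζ : En) (hζ : R.dex x w ζ = 0) :
    ∃ C > 0, ∀ t ∈ Icc (1 / 2 : ℝ) 1, R.q x (t • w) ζ ≤ C * (1 - t) ^ 2 := by
  set b := R.ex x w with hb
  have sb := mem_chart_source En b
  have hl : DifferentiableAt ℝ (fun t : ℝ => t • w) 1 := by fun_prop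
  have e0 : (1 : ℝ) • w = w := one_smul _ _
  have h1 : DifferentiableAt ℝ (fderiv ℝ fun u => chartAt En b (R.ex x u)) ((1 : ℝ) • w) := by
    rw [e0]
    exact ((ex_sm R hS x w sb).fderiv_right (m := 1) (by norm_cast)).differentiableAt (by simp)
  have h2 : DifferentiableAt ℝ
      (fun t : ℝ => fderiv ℝ (fun u => chartAt En b (R.ex x u)) (t • w) ζ) 1 :=
    (h1.comp 1 hl).clm_apply (differentiableAt_const ζ)
  obtain ⟨K, hK⟩ := h2.isBigO_sub.bound
  have c0 : ContinuousAt (fun t : ℝ => R.ex x (t • w)) 1 :=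
    ContinuousAt.comp (f := fun t : ℝ => t • w) (ex_cont R hS x _) hl.continuousAt
  have s1 : R.ex x ((1 : ℝ) • w) ∈ (chartAt En b).source := by rw [e0]; exact sb
  have c2 : ContinuousAt (fun t : ℝ => ‖locB R.g b (chartAt En b (R.ex x (t • w)))‖) 1 :=
    cnorm.continuousAt.comp (ContinuousAt.comp (f := fun t : ℝ => chartAt En b (R.ex x (t • w)))
      (locB_cont R b ((chartAt En b).map_source s1))
      (((chartAt En b).continuousAt s1).comp (f := fun t : ℝ => R.ex x (t • w)) c0))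
  obtain ⟨A, hA⟩ := c2.tendsto.isBoundedUnder_le
  have h3 : ∀ᶠ t in 𝓝 (1 : ℝ), R.q x (t • w) ζ ≤ |A| * K ^ 2 * (1 - t) ^ 2 := by
    filter_upwards [hK, eventually_map.1 hA,
      c0.preimage_mem_nhds ((chartAt En b).open_source.mem_nhds s1)] with t t1 t2 t3
    rw [e0, fd_eq R hS x w sb, hζ, map_zero, sub_zero] at t1
    rw [q_eq R hS _ _ t3]
    refine (bil_le _ _ (t2.trans (le_abs_self A)) t1).trans_eq ?_
    rw [mul_pow, Real.norm_eq_abs, sq_abs]; ring
  obtain ⟨δ, δ0, hδ⟩ := Metric.eventually_nhds_iff.1 h3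
  obtain ⟨Q, Q0, hQ⟩ := qb R hS hT (R.nr x w)
  have g0 := R.g_nn x ζ
  refine ⟨|A| * K ^ 2 + Q * R.g x ζ ζ / δ ^ 2 + 1, by positivity, fun t ht => ?_⟩
  have a1 : 0 ≤ |A| * K ^ 2 * (1 - t) ^ 2 := by positivity
  have a2 : 0 ≤ Q * R.g x ζ ζ / δ ^ 2 * (1 - t) ^ 2 := by positivity
  by_cases hc : dist t 1 < δ
  · nlinarith [hδ hc, sq_nonneg (1 - t)]
  · rw [Real.dist_eq, abs_sub_comm, abs_of_nonneg (by linarith [ht.2]), not_lt] at hc
    have a3 := hQ x (t • w) ζ (by
      rw [R.nr_smul, abs_of_nonneg (by linarith [ht.1])]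
      exact mul_le_of_le_one_left (R.nr_nn x w) ht.2)
    have a4 : Q * R.g x ζ ζ ≤ Q * R.g x ζ ζ / δ ^ 2 * (1 - t) ^ 2 := by
      rw [div_mul_eq_mul_div, le_div_iff₀ (by positivity)]
      gcongr
    nlinarith [sq_nonneg (1 - t)]

theorem lipv (x : M) (v u : En) (ε : ℝ) (hε : 0 < ε) : ∀ᶠ s in 𝓝[>] (0 : ℝ),
    dist (R.ex x v) (R.ex x (v + s • u)) ≤ s * (√(R.q x v u) + ε) := by
  set y := R.ex x v with hy
  have sy := mem_chart_source En y
  have hl : HasDerivAt (fun s : ℝ => v + s • u) u 0 := by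
    simpa using ((hasDerivAt_id (0 : ℝ)).smul_const u).const_add v
  have e0 : v + (0 : ℝ) • u = v := by simp
  have h1 : HasFDerivAt (fun u => chartAt En y (R.ex x u)) (R.dex x v) (v + (0 : ℝ) • u) := by
    rw [e0]; exact ((ex_sm R hS x v sy).differentiableAt (by simp)).hasFDerivAt
  have h2 := (h1.comp_hasDerivAt (0 : ℝ) hl).tendsto_slope_zero_right
  have n0 := Real.sqrt_nonneg (R.q x v u)
  have cn : Continuous (R.nr y) := by unfold Riem.nr; fun_prop
  have h3 := ((cn.tendsto _).comp h2).const_mul (1 + ε / (√(R.q x v u) + 1))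
  have h4 : (1 + ε / (√(R.q x v u) + 1)) * R.nr y (R.dex x v u) < √(R.q x v u) + ε := by
    change _ * √(R.q x v u) < _
    rw [add_mul, one_mul, div_mul_eq_mul_div, add_lt_add_iff_left, div_lt_iff₀ (by positivity)]
    nlinarith
  have c0 : Tendsto (fun s : ℝ => R.ex x (v + s • u)) (𝓝[>] 0) (𝓝 y) := by
    have := ContinuousAt.comp (f := fun s : ℝ => v + s • u) (ex_cont R hS x _) hl.continuousAt
    rw [ContinuousAt, Function.comp_apply, e0] at this
    exact this.mono_left nhdsWithin_le_nhds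
  filter_upwards [h3.eventually (gt_mem_nhds h4), self_mem_nhdsWithin,
    c0.eventually (R.ld y (ε / (√(R.q x v u) + 1)) (by positivity))] with s s1 s2 s3
  have s0 : 0 < s := s2
  simp only [Function.comp_apply, zero_add, e0, R.nr_smul, abs_of_pos (inv_pos.2 s0)] at s1
  refine s3.trans ?_
  rw [← mul_left_comm, ← div_eq_inv_mul, div_lt_iff₀' s0] at s1
  exact s1.le

end Pm

theorem pStmt : PStmt := fun _ _ _ _ _ _ R hS hT =>
  ⟨Pm.qb R hS hT, Pm.qz R hS hT, Pm.lipv R hS⟩

end Vale.Agent.P234
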