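import Vale.Agent.P234.Spec

/-! Module Q of P234: approximate quasi-convexity. -/

open scoped Topology
open Set Filter

namespace Vale.Agent.P234

variable [Dim]

namespace Qm

lemma coer {Y : Set En} (hY : IsCompact Y) {G : En → Bil} (hG : ContinuousOn G Y)
    (hp : ∀ y ∈ Y, ∀ ξ, ξ ≠ 0 → 0 < G y ξ ξ) :
    ∃ c > 0, ∀ y ∈ Y, ∀ ξ, c * ‖ξ‖ ^ 2 ≤ G y ξ ξ := by
  have hc : ContinuousOn (fun w : En × En => G w.1 w.2 w.2) (Y ×ˢ Metric.sphere 0 1) :=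
    ((hG.comp continuousOn_fst fun _ h => h.1).clm_apply continuousOn_snd).clm_apply
      continuousOn_snd
  obtain ⟨c, hc0, h⟩ := (hY.prod (isCompact_sphere (0 : En) 1)).exists_forall_le' hc (a := 0)
    fun w hw => hp _ hw.1 _ (ne_zero_of_mem_unit_sphere ⟨w.2, hw.2⟩)
  refine ⟨c, hc0, fun y hy ξ => ?_⟩
  rcases eq_or_ne ξ 0 with rfl | h0
  · simp
  have hn : 0 < ‖ξ‖ := norm_pos_iff.2 h0
  have h1 := h (y, ‖ξ‖⁻¹ • ξ) ⟨hy, by simp [norm_smul, hn.ne']⟩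
  simp only [map_smul, smul_apply, smul_eq_mul] at h1
  have e : ‖ξ‖⁻¹ * (‖ξ‖⁻¹ * G y ξ ξ) = G y ξ ξ / ‖ξ‖ ^ 2 := by field_simp
  rwa [e, le_div_iff₀ (by positivity)] at h1

lemma quad_le (B : Bil) (ξ : En) : |B ξ ξ| ≤ ‖B‖ * ‖ξ‖ ^ 2 := by
  have := B.le_opNorm₂ ξ ξ
  rw [Real.norm_eq_abs] at this
  linarith

lemma quad_sub (B : Bil) {K s : ℝ} (hB : ‖B‖ ≤ K) (hs : s ≤ 1) {ξ ξ' : En}
    (h : ‖ξ - ξ'‖ ≤ s * ‖ξ‖) : |B ξ ξ - B ξ' ξ'| ≤ 3 * K * s * ‖ξ‖ ^ 2 := by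
  have e : B ξ ξ - B ξ' ξ' = B ξ (ξ - ξ') + B (ξ - ξ') ξ' := by
    simp only [map_sub, sub_apply]; ring
  have h1 := B.le_opNorm₂ ξ (ξ - ξ')
  have h2 := B.le_opNorm₂ (ξ - ξ') ξ'
  rw [Real.norm_eq_abs] at h1 h2
  have hK : 0 ≤ K := (norm_nonneg B).trans hB
  have h3 : ‖ξ'‖ ≤ 2 * ‖ξ‖ := by
    have := norm_sub_norm_le ξ' ξ
    rw [norm_sub_rev] at this
    nlinarith [norm_nonneg ξ]
  have h4 : ‖B‖ * ‖ξ‖ * ‖ξ - ξ'‖ ≤ K * ‖ξ‖ * (s * ‖ξ‖) := by gcongr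
  have h5 : ‖B‖ * ‖ξ - ξ'‖ * ‖ξ'‖ ≤ K * (s * ‖ξ‖) * (2 * ‖ξ‖) :=
    mul_le_mul (mul_le_mul hB h (norm_nonneg _) hK) h3 (norm_nonneg _)
      (mul_nonneg hK ((norm_nonneg _).trans h))
  rw [e]
  refine (abs_add_le _ _).trans ?_
  nlinarith

lemma one {g : Bil} {ha hw : Bil} {a w ξ : En} {τ m K η θ k : ℝ} (hm : 0 < m) (hτ : m ≤ τ)
    (hk : 0 ≤ k) (hθ : 0 ≤ θ) (hη : 0 ≤ η) (h1 : ‖ha‖ ≤ K) (h2 : ‖hw‖ ≤ K)
    (hu : ‖w - a‖ ≤ θ → ‖ha - hw‖ ≤ η) (hξ : K * ‖ξ‖ ≤ m * k * θ)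
    (hE : k * ‖w - a‖ * ‖ξ‖ ≤ g a ξ - g w ξ) :
    τ * g w ξ - hw ξ ξ / 2 ≤ τ * g a ξ - ha ξ ξ / 2 + η * ‖ξ‖ ^ 2 := by
  have h0 : 0 ≤ g a ξ - g w ξ := le_trans (by positivity) hE
  have hq := (abs_le.1 (quad_le (ha - hw) ξ)).2
  simp only [sub_apply] at hq
  have hn : 0 ≤ ‖ξ‖ ^ 2 := by positivity
  rcases le_total ‖w - a‖ θ with k1 | k1
  · have := mul_le_mul_of_nonneg_right (hu k1) hn
    nlinarith [mul_nonneg (hm.le.trans hτ) h0, mul_nonneg hη hn]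
  · have h3 : ‖ha - hw‖ ≤ 2 * K := (norm_sub_le ha hw).trans (by linarith)
    have h4 := mul_le_mul_of_nonneg_right h3 hn
    have h5 : k * θ * ‖ξ‖ ≤ g a ξ - g w ξ := le_trans (by gcongr) hE
    have h6 : m * (k * θ * ‖ξ‖) ≤ τ * (g a ξ - g w ξ) :=
      mul_le_mul hτ h5 (by positivity) (hm.le.trans hτ)
    have h7 := mul_le_mul_of_nonneg_right hξ (norm_nonneg ξ)
    nlinarith [mul_nonneg hη hn]

lemma perp {g : Bil} {c s : ℝ} (hc : 0 < c) (hg : ∀ ξ, c * ‖ξ‖ ^ 2 ≤ g ξ ξ) (hs : 0 ≤ s) {ξ η : En}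
    (h : |g ξ η| ≤ s * c * ‖η‖ * ‖ξ‖) : ∃ ξ', g ξ' η = 0 ∧ ‖ξ - ξ'‖ ≤ s * ‖ξ‖ := by
  rcases eq_or_ne η 0 with rfl | h0
  · exact ⟨ξ, by simp, by simp; positivity⟩
  have hn : 0 < ‖η‖ := norm_pos_iff.2 h0
  have hp : 0 < g η η := lt_of_lt_of_le (by positivity) (hg η)
  refine ⟨ξ - (g ξ η / g η η) • η, ?_, ?_⟩
  · simp only [map_sub, map_smul, sub_apply, smul_apply,
      smul_eq_mul]
    field_simp
    ring
  · rw [sub_sub_cancel, norm_smul, Real.norm_eq_abs, abs_div, abs_of_pos hp, div_mul_eq_mul_div,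
      div_le_iff₀ hp]
    have h1 := mul_le_mul_of_nonneg_right h hn.le
    have h2 := mul_le_mul_of_nonneg_left (hg η) (mul_nonneg hs (norm_nonneg ξ))
    nlinarith

lemma hull {F A : Set En} {Φ : En → ℝ} {b e : ℝ} (he : 0 ≤ e) (hF : Convex ℝ F)
    (h2 : ∀ u₀ ∈ F, ∀ u₁ ∈ F, ∀ t ∈ Icc (0 : ℝ) 1,
      Φ (u₀ + t • (u₁ - u₀)) ≤ max (Φ u₀) (Φ u₁) + e)
    (hA : ∀ u ∈ A, u ∈ F ∧ Φ u ≤ b) :
    ∀ u ∈ convexHull ℝ A, Φ u ≤ b + (Module.finrank ℝ En + 1) * e := by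
  classical
  have key : ∀ t : Finset En, (t : Set En) ⊆ A → ∀ u ∈ convexHull ℝ (t : Set En),
      Φ u ≤ b + t.card * e := by
    intro t
    induction t using Finset.induction_on with
    | empty => simp
    | insert a t ha ih =>
      intro hs u hu
      rw [Finset.coe_insert] at hs hu
      have haA := hA a (hs (mem_insert _ _))
      have htA : (t : Set En) ⊆ A := (subset_insert _ _).trans hs
      rw [Finset.card_insert_of_notMem ha]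
      push_cast
      have hc : 0 ≤ (t.card : ℝ) * e := by positivity
      rcases t.eq_empty_or_nonempty with rfl | hne
      · simp only [Finset.coe_empty, insert_empty_eq, convexHull_singleton, mem_singleton_iff] at hu
        rw [hu]
        nlinarith [haA.2]
      · rw [convexHull_insert (Finset.coe_nonempty.2 hne), convexJoin_singleton_left] at hu
        simp only [mem_iUnion] at hu
        obtain ⟨v, hv, hu⟩ := hu
        rw [segment_eq_image'] at hu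
        obtain ⟨s, hs', rfl⟩ := hu
        have hvF : v ∈ F := convexHull_min (fun x hx => (hA x (htA hx)).1) hF hv
        have h3 := h2 a haA.1 v hvF s hs'
        have h4 : max (Φ a) (Φ v) ≤ b + t.card * e :=
          max_le (by linarith [haA.2]) (ih htA v hv)
        linarith
  intro u hu
  rw [convexHull_eq_union] at hu
  simp only [mem_iUnion] at hu
  obtain ⟨t, ht, hai, hu⟩ := hu
  have hc : t.card ≤ Module.finrank ℝ En + 1 := by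
    have h := hai.card_le_finrank_succ
    rw [Fintype.card_coe] at h
    exact h.trans (Nat.succ_le_succ (Submodule.finrank_le _))
  have hc' : (t.card : ℝ) ≤ Module.finrank ℝ En + 1 := by exact_mod_cast hc
  exact (key t ht u hu).trans (by gcongr)

end Qm

theorem qStmt : QStmt := by
  intro S G h hS hG hh hsy hcv hcc ε hε m hm
  obtain ⟨c, hc, hco⟩ := Qm.coer (hS.image continuous_fst) hG (by
    rintro _ ⟨w, hw, rfl⟩; exact (hsy w hw).2.1)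
  obtain ⟨K0, hK0⟩ := hS.exists_bound_of_continuousOn (f := h) hh
  set K := max K0 1 with hK
  have hK1 : 1 ≤ K := le_max_right _ _
  have hKb : ∀ w ∈ S, ‖h w‖ ≤ K := fun w hw => (hK0 w hw).trans (le_max_left _ _)
  set N : ℝ := Module.finrank ℝ En + 1 with hN
  have hN0 : 0 < N := by positivity
  set η := ε / N * c with hη
  have hη0 : 0 < η := by positivity
  obtain ⟨θ, hθ, hθ'⟩ := (Metric.uniformContinuousOn_iff_le (f := h) (s := S)).1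
    (hS.uniformContinuousOn_of_continuous (f := h) hh) η hη0
  set s := min 1 (η / (3 * K)) with hs
  have hs0 : 0 < s := lt_min one_pos (by positivity)
  have hs1 : s ≤ 1 := min_le_left _ _
  have hs2 : 3 * K * s ≤ η := by
    have := min_le_right 1 (η / (3 * K))
    rw [← hs, le_div_iff₀ (by positivity)] at this
    linarith
  refine ⟨√c * (m * (s * c) * θ / K), by positivity, fun y ξ τ b A hr hτ hA u hu => ?_⟩
  rcases A.eq_empty_or_nonempty with rfl | ⟨a, ha⟩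
  · simp at hu
  have hy : y ∈ Prod.fst '' S := ⟨_, (hA a ha).1, rfl⟩
  have hsym := (hsy _ (hA a ha).1).1
  simp only at hsym
  have hξ : K * ‖ξ‖ ≤ m * (s * c) * θ := by
    have h1 := (hco y hy ξ).trans hr.le
    rw [mul_pow, Real.sq_sqrt hc.le] at h1
    have h3 : ‖ξ‖ ≤ m * (s * c) * θ / K :=
      (pow_le_pow_iff_left₀ (norm_nonneg ξ) (by positivity) two_ne_zero).1
        (le_of_mul_le_mul_left h1 hc)
    rw [le_div_iff₀ (by positivity)] at h3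
    linarith
  have h2 := Qm.hull (F := {u | (y, u) ∈ S}) (A := A)
    (Φ := fun u => τ * G y u ξ - h (y, u) ξ ξ / 2) (b := b) (e := η * ‖ξ‖ ^ 2) (by positivity)
    (hcv y) ?_ hA u hu
  · refine h2.trans (add_le_add_right ?_ _)
    calc N * (η * ‖ξ‖ ^ 2) = ε * (c * ‖ξ‖ ^ 2) := by rw [hη]; field_simp
      _ ≤ _ := mul_le_mul_of_nonneg_left (hco y hy ξ) hε.le
  intro u₀ h0 u₁ h1 t ht
  have hw : (y, u₀ + t • (u₁ - u₀)) ∈ S := (hcv y).add_smul_sub_mem h0 h1 ht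
  have hu : ∀ a, (y, a) ∈ S → ‖u₀ + t • (u₁ - u₀) - a‖ ≤ θ →
      ‖h (y, a) - h (y, u₀ + t • (u₁ - u₀))‖ ≤ η := by
    intro a ha k
    refine (dist_eq_norm (h (y, a)) _).symm.trans_le (hθ' _ ha _ hw ?_)
    rw [Prod.dist_eq, dist_self, dist_comm, dist_eq_norm]
    exact max_le hθ.le k
  have eG : G y (u₀ + t • (u₁ - u₀)) ξ = G y u₀ ξ + t * G y ξ (u₁ - u₀) := by
    rw [hsym ξ]; simp
  have eG1 : G y u₁ ξ = G y u₀ ξ + G y ξ (u₁ - u₀) := by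
    rw [hsym ξ]; simp
  rcases le_or_gt |G y ξ (u₁ - u₀)| (s * c * ‖u₁ - u₀‖ * ‖ξ‖) with k | k
  · obtain ⟨ξ', p1, p2⟩ := Qm.perp hc (hco y hy) hs0.le k
    have q := hcc y u₀ u₁ ξ' h0 h1 p1 t ht
    have q0 := abs_le.1 (Qm.quad_sub _ (hKb _ h0) hs1 p2)
    have q1 := abs_le.1 (Qm.quad_sub _ (hKb _ h1) hs1 p2)
    have q2 := abs_le.1 (Qm.quad_sub _ (hKb _ hw) hs1 p2)
    have q3 := mul_le_mul_of_nonneg_right hs2 (sq_nonneg ‖ξ‖)
    have m0 := mul_le_mul_of_nonneg_left (le_max_left (τ * G y u₀ ξ - h (y, u₀) ξ ξ / 2)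
      (τ * G y u₁ ξ - h (y, u₁) ξ ξ / 2)) (sub_nonneg.2 ht.2)
    have m1 := mul_le_mul_of_nonneg_left (le_max_right (τ * G y u₀ ξ - h (y, u₀) ξ ξ / 2)
      (τ * G y u₁ ξ - h (y, u₁) ξ ξ / 2)) ht.1
    have r0 := mul_le_mul_of_nonneg_left q0.2 (sub_nonneg.2 ht.2)
    have r1 := mul_le_mul_of_nonneg_left q1.2 ht.1
    generalize max (τ * G y u₀ ξ - h (y, u₀) ξ ξ / 2) (τ * G y u₁ ξ - h (y, u₁) ξ ξ / 2) = Mx
      at m0 m1 ⊢
    rw [eG]
    rw [eG1] at m1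
    linarith [q2.1]
  · rcases le_total (G y ξ (u₁ - u₀)) 0 with k0 | k0
    · rw [abs_of_nonpos k0] at k
      refine (Qm.one (g := G y) hm hτ (by positivity) hθ.le hη0.le (hKb _ h0) (hKb _ hw)
        (hu u₀ h0) hξ ?_).trans (add_le_add_left (le_max_left _ _) _)
      rw [eG, add_sub_cancel_left, norm_smul, Real.norm_of_nonneg ht.1]
      nlinarith [mul_le_mul_of_nonneg_left k.le ht.1]
    · rw [abs_of_nonneg k0] at k
      refine (Qm.one (g := G y) hm hτ (by positivity) hθ.le hη0.le (hKb _ h1) (hKb _ hw)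
        (hu u₁ h1) hξ ?_).trans (add_le_add_left (le_max_right _ _) _)
      have e : u₀ + t • (u₁ - u₀) - u₁ = -((1 - t) • (u₁ - u₀)) := by module
      rw [eG, eG1, e, norm_neg, norm_smul, Real.norm_of_nonneg (sub_nonneg.2 ht.2)]
      nlinarith [mul_le_mul_of_nonneg_left k.le (sub_nonneg.2 ht.2)]

end Vale.Agent.P234
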