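import Vale.Agent.P234.Spec
import Vale.Agent.P234.A0
import Vale.Agent.P234.B0
import Vale.Agent.P234.C0
import Vale.Agent.P234.J0
import Vale.Agent.P234.Flow
import Vale.Agent.P255.O

/-! Module S: smoothness of the exponential map and the Gauss lemma. -/

open scoped Manifold ContDiff Topology
open Set Filter Metric

namespace Vale.Agent.P234
open Vale.Agent.P255 (covD GeoAt IsGeodesic oStmt)

variable [Dim]

namespace Sx
open Jm

variable {M : Type} [TopologicalSpace M] [ChartedSpace En M] {g : M → Bil}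

theorem sflow (hg : GeoFacts g) (a : M)
    {Γ : En → En →L[ℝ] En →L[ℝ] En} (hΓ : IsGam (locB g a) (chartAt En a).target Γ)
    {z₀ : En × En} (hz : z₀.1 ∈ (chartAt En a).target) :
    ∃ ε > 0, ∃ Φ : ℝ × (En × En) → En × En, ContDiffOn ℝ ∞ Φ (ball (0, z₀) ε) ∧
      ∀ γ, IsGeodesic (un g) γ → ∀ s₀, γ s₀ ∈ (chartAt En a).source → Zc a γ s₀ ∈ ball z₀ ε →
        ∀ s, s - s₀ ∈ Ioo (-ε) ε → γ s ∈ (chartAt En a).source ∧
          Zc a γ s = Φ (s - s₀, Zc a γ s₀) := by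
  obtain ⟨ε, hε, Φ, h1, h2⟩ := Vale.Agent.P234.flow (En × En) (Fg Γ) _
    ((chartAt En a).open_target.prod isOpen_univ) (Fg_smooth hΓ.smooth) z₀ ⟨hz, trivial⟩
  refine ⟨ε, hε, Φ, h1, fun γ hγ s₀ hs₀ hZ => ?_⟩
  obtain ⟨e0, h3⟩ := h2 _ hZ
  set z := Zc a γ s₀ with hzdef
  have hI : ∀ s, s ∈ Ioo (s₀ - ε) (s₀ + ε) → s - s₀ ∈ Ioo (-ε) ε := fun s hs =>
    ⟨by linarith [hs.1], by linarith [hs.2]⟩
  have hd : ∀ s ∈ Ioo (s₀ - ε) (s₀ + ε),
      HasDerivAt (fun r => Φ (r - s₀, z)) (Fg Γ (Φ (s - s₀, z))) s := fun s hs =>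
    (h3 _ (hI s hs)).2.comp_sub_const s s₀
  have hd1 : ∀ s ∈ Ioo (s₀ - ε) (s₀ + ε),
      HasDerivAt (fun r => (Φ (r - s₀, z)).1) (Φ (s - s₀, z)).2 s := fun s hs => dfst (hd s hs)
  have hd2 : ∀ s ∈ Ioo (s₀ - ε) (s₀ + ε), HasDerivAt (deriv fun r => (Φ (r - s₀, z)).1)
      (-Γ (Φ (s - s₀, z)).1 (Φ (s - s₀, z)).2 (Φ (s - s₀, z)).2) s := fun s hs => by
    refine (dsnd (hd s hs)).congr_of_eventuallyEq ?_
    filter_upwards [isOpen_Ioo.mem_nhds hs] with r hr using (hd1 r hr).deriv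
  have hs0 : s₀ ∈ Ioo (s₀ - ε) (s₀ + ε) := ⟨by linarith, by linarith⟩
  have hu := hg.uchart γ hγ a (fun r => (Φ (r - s₀, z)).1) s₀ _ _ hs0 (fun s hs => by
      have hm := (h3 _ (hI s hs)).1.1
      refine ⟨hm, (hd1 s hs).differentiableAt, (hd2 s hs).differentiableAt, ?_⟩
      rw [covD, (hd2 s hs).deriv, hΓ.eq _ hm, (hd1 s hs).deriv]
      simp) hs₀ (by simp only [sub_self, e0]; rfl)
      (by rw [(hd1 s₀ hs0).deriv]; simp only [sub_self, e0]; rfl)
  have hv : ∀ s ∈ Ioo (s₀ - ε) (s₀ + ε), chartAt En a (γ s) = (Φ (s - s₀, z)).1 := fun s hs => by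
    rw [hu s hs]
    exact (chartAt En a).right_inv (h3 _ (hI s hs)).1.1
  intro s hs
  have hs' : s ∈ Ioo (s₀ - ε) (s₀ + ε) := ⟨by linarith [hs.1], by linarith [hs.2]⟩
  refine ⟨?_, Prod.ext (hv s hs') ?_⟩
  · rw [hu s hs']
    exact (chartAt En a).map_target (h3 _ hs).1.1
  · rw [← (hd1 s hs').deriv]
    refine EventuallyEq.deriv_eq ?_
    filter_upwards [isOpen_Ioo.mem_nhds hs'] with r hr using hv r hr

variable {P : Type} [NormedAddCommGroup P] [NormedSpace ℝ P] {fam : P → ℝ → M} {w : P}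

theorem change (hc : ChartFacts g) (hg : GeoFacts g) (hf : ∀ w, IsGeodesic (un g) (fam w))
    {s : ℝ} {a b : M} (h0 : ContinuousAt (fun w' => fam w' s) w)
    (ha : fam w s ∈ (chartAt En a).source) (hb : fam w s ∈ (chartAt En b).source)
    (h : ContDiffAt ℝ ∞ (fun w' => Zc a (fam w') s) w) :
    ContDiffAt ℝ ∞ (fun w' => Zc b (fam w') s) w := by
  have t1 : ContDiffAt ℝ ∞ (fun y => chartAt En b ((chartAt En a).symm y))
      (Zc a (fam w) s).1 := tau_smooth hc ha hb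
  have t2 : ContDiffAt ℝ ∞ (fderiv ℝ fun y => chartAt En b ((chartAt En a).symm y))
      (Zc a (fam w) s).1 := t1.fderiv_right (m := ∞) (by simp)
  have h1 := (t1.comp w h.fst).prodMk ((t2.comp w h.fst).clm_apply h.snd)
  refine h1.congr_of_eventuallyEq ?_
  filter_upwards [h0.eventually_mem ((chartAt En a).open_source.mem_nhds ha),
    h0.eventually_mem ((chartAt En b).open_source.mem_nhds hb)] with v' h2 h3
  refine Prod.ext ?_ ?_
  · simp only [Zc, Function.comp_apply]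
    rw [(chartAt En a).left_inv h2]
  · simp only [Zc, Function.comp_apply]
    rw [hg.dv _ (hf v') a s h2, hg.dv _ (hf v') b s h3, hc.chg a b _ h2 h3]
    rfl

/-- regularity at time `s` -/
def Pt (fam : P → ℝ → M) (w : P) (s : ℝ) : Prop :=
  ContinuousAt (fun w' => fam w' s) w ∧
    ∀ a, fam w s ∈ (chartAt En a).source → ContDiffAt ℝ ∞ (fun w' => Zc a (fam w') s) w

theorem step (hc : ChartFacts g) (hg : GeoFacts g) (hf : ∀ w, IsGeodesic (un g) (fam w))
    (s₁ : ℝ) : ∃ U ∈ 𝓝 s₁, ∀ s₀ ∈ U, ∀ s ∈ U, Pt fam w s₀ → Pt fam w s := by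
  set a := fam w s₁
  have ha : fam w s₁ ∈ (chartAt En a).source := mem_chart_source _ _
  obtain ⟨Γ, hΓ⟩ := aStmt.1 _ _ (hc.cm a)
  obtain ⟨ε, hε, Φ, h1, h2⟩ := sflow hg a hΓ
    (z₀ := Zc a (fam w) s₁) ((chartAt En a).map_source ha)
  have hγ := hf w
  have hz : ContinuousAt (Zc a (fam w)) s₁ :=
    (hγ.2 a s₁ ha).1.continuousAt.prodMk (hγ.2 a s₁ ha).2.1.continuousAt
  refine ⟨_, inter_mem (inter_mem (hz.eventually_mem (ball_mem_nhds _ hε))
    (hγ.1.continuousAt.eventually_mem ((chartAt En a).open_source.mem_nhds ha)))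
    (Ioo_mem_nhds (a := s₁ - ε / 2) (b := s₁ + ε / 2) (by linarith) (by linarith)), ?_⟩
  rintro s₀ ⟨⟨b1, b2⟩, b3⟩ s ⟨⟨-, c2⟩, c3⟩ ⟨d1, d2⟩
  have hs : s - s₀ ∈ Ioo (-ε) ε := ⟨by linarith [b3.2, c3.1], by linarith [b3.1, c3.2]⟩
  have d3 := d2 a b2
  have ev : ∀ᶠ v' in 𝓝 w, fam v' s ∈ (chartAt En a).source ∧
      Zc a (fam v') s = Φ (s - s₀, Zc a (fam v') s₀) := by
    filter_upwards [d1.eventually_mem ((chartAt En a).open_source.mem_nhds b2),
      d3.continuousAt.eventually_mem (isOpen_ball.mem_nhds b1)] with v' e1 e2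
    exact h2 _ (hf v') s₀ e1 e2 s hs
  have hm : (s - s₀, Zc a (fam w) s₀) ∈ ball ((0 : ℝ), Zc a (fam w) s₁) ε := by
    rw [← ball_prod_same]
    exact ⟨by rwa [Real.ball_eq_Ioo, zero_sub, zero_add], b1⟩
  have d4 : ContDiffAt ℝ ∞ (fun v' => Zc a (fam v') s) w :=
    ((h1.contDiffAt (isOpen_ball.mem_nhds hm)).comp w
      (contDiffAt_const.prodMk d3)).congr_of_eventuallyEq (ev.mono fun v' h => h.2)
  have d5 : ContinuousAt (fun v' => fam v' s) w := by
    have := ((chartAt En a).continuousAt_symm ((chartAt En a).map_source c2)).comp_of_eq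
      d4.fst.continuousAt rfl
    refine this.congr (ev.mono fun v' h => ?_)
    exact (chartAt En a).left_inv h.1
  exact ⟨d5, fun b hb => change hc hg hf d5 c2 hb d4⟩

theorem pt (hc : ChartFacts g) (hg : GeoFacts g) (hf : ∀ w, IsGeodesic (un g) (fam w))
    (h0 : Pt fam w 0) (s : ℝ) : Pt fam w s := by
  have h : IsClopen {s | Pt fam w s} := by
    constructor
    · rw [← isOpen_compl_iff, isOpen_iff_mem_nhds]
      intro s₁ hs
      obtain ⟨U, hU, h⟩ := step (w := w) hc hg hf s₁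
      exact mem_of_superset hU fun r hr c => hs (h r hr s₁ (mem_of_mem_nhds hU) c)
    · rw [isOpen_iff_mem_nhds]
      intro s₁ hs
      obtain ⟨U, hU, h⟩ := step (w := w) hc hg hf s₁
      exact mem_of_superset hU fun r hr => h s₁ (mem_of_mem_nhds hU) r hr hs
  have := h.eq_univ ⟨0, h0⟩
  exact (this ▸ mem_univ s : s ∈ {s | Pt fam w s})

variable {geo : M → En → ℝ → M}

theorem pt_exc [IsManifold 𝓘(ℝ, En) ∞ M] (hc : ChartFacts g) (hg : GeoFacts g) (hf : GeoFam g geo)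
    (a : M) {w : En × En} (hw : w.1 ∈ (chartAt En a).target) (s : ℝ) :
    Pt (fun w' : En × En => geo ((chartAt En a).symm w'.1) (Di a w'.1 w'.2)) w s := by
  have h1 : ∀ w' : En × En, IsGeodesic (un g) (geo ((chartAt En a).symm w'.1) (Di a w'.1 w'.2)) :=
    fun w' => (hf _ _).1
  have h0 : ContinuousAt
      (fun w' : En × En => geo ((chartAt En a).symm w'.1) (Di a w'.1 w'.2) 0) w := by
    simp only [fun p v' => (hf p v').2.1]
    exact ((chartAt En a).continuousAt_symm hw).comp continuousAt_fst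
  refine pt hc hg h1 ⟨h0, fun b hb => change hc hg h1 h0 (a := a) ?_ hb ?_⟩ s
  · rw [(hf _ _).2.1]
    exact (chartAt En a).map_target hw
  · refine contDiffAt_id.congr_of_eventuallyEq ?_
    filter_upwards [continuousAt_fst.eventually_mem ((chartAt En a).open_target.mem_nhds hw)]
      with v hv
    have e := (hf ((chartAt En a).symm v.1) (Di a v.1 v.2)).2
    refine Prod.ext ?_ ?_
    · simp only [Zc, e.1]
      exact (chartAt En a).right_inv hv
    · simp only [Zc]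
      rw [hg.dv _ (h1 v) a 0 (by rw [e.1]; exact (chartAt En a).map_target hv), e.1, e.2]
      exact Bm.DDi hv _

theorem gsmul (hg : GeoFacts g) (hf : GeoFam g geo) (x : M) (u : En) (s : ℝ) :
    geo x (s • u) 1 = geo x u s := by
  obtain ⟨h1, h2⟩ := hg.rep _ (hf x u).1 s 0
  have := hg.uniq _ _ (hf x (s • u)).1 h1 (by simp [(hf x _).2.1])
    (by rw [h2, (hf x _).2.2]; simp [(hf x _).2.2])
  rw [this]
  simp

theorem dray [T2Space M] (hc : ChartFacts g) (hg : GeoFacts g) (hf : GeoFam g geo) (x : M)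
    (u : En) (s : ℝ) :
    fderiv ℝ (fun v => chartAt En (geo x (s • u) 1) (geo x v 1)) (s • u) u = vel (geo x u) s := by
  have h1 := ((jStmt aStmt oStmt M g geo hc hg hf x (s • u)).2.1.differentiableAt
    one_ne_zero).hasFDerivAt.comp_hasDerivAt s ((hasDerivAt_id s).smul_const u)
  simp only [Function.comp_def, id, gsmul hg hf, one_smul] at h1
  rw [vel, h1.deriv, gsmul hg hf]

end Sx

theorem sStmt : SStmt := by
  intro M _ _ _ _ _ R
  have hv : ∀ x v, R.dex x v v = R.vl x v 1 := fun x v => by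
    have := Sx.dray R.cf R.gf R.fam x v 1
    rw [one_smul] at this
    exact this
  refine ⟨fun a w hw => ?_, fun x v w => ?_, hv, fun x => ?_⟩
  · have h := Sx.pt_exc R.cf R.gf R.fam a hw 1
    exact ⟨h.1, fun b hb => (h.2 b hb).fst⟩
  · obtain ⟨J, h1, h2, h3, h4⟩ := (jStmt aStmt oStmt M R.g R.geo R.cf R.gf R.fam x v).2.2 w
    have := Cv.gauss aStmt R.cf R.gf (R.fam x v).1 h1 (R.fam x v).2.1 h2
    rw [h3, h4, (R.fam x v).2.2] at this
    rw [hv, Cv.gsymm R.cf, Cv.gsymm R.cf x]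
    exact this
  · ext1 u
    have := Sx.dray R.cf R.gf R.fam x u 0
    rw [zero_smul, (R.fam x u).2.2] at this
    exact this

end Vale.Agent.P234
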