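import Vale.Agent.P234.Spec0
import Vale.Agent.P234.Defs

/-! Module statements for P234 (weak MTW implies convex injectivity domains). -/

open scoped Manifold ContDiff Topology
open Set Filter

namespace Vale.Agent.P234
open Vale.Agent.P255 (Metric ip)

variable [Dim]

/-- a compact Riemannian manifold: metric tensor, geodesics, and the two facts linking `dist`
to the metric tensor -/
structure Riem (M : Type) [MetricSpace M] [ChartedSpace En M] where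
  g : M → Bil
  geo : M → En → ℝ → M
  cf : ChartFacts g
  gf : GeoFacts g
  fam : GeoFam g geo
  ld : ∀ p : M, ∀ ε > 0, ∀ᶠ q in 𝓝 p, dist p q ≤
    (1 + ε) * √(g p (chartAt En p q - chartAt En p p) (chartAt En p q - chartAt En p p))
  lip : ∀ ψ : M → ℝ, (∀ p : M, ∀ ε > 0, ∀ᶠ q in 𝓝 p, |ψ q - ψ p| ≤
    (1 + ε) * √(g p (chartAt En p q - chartAt En p p) (chartAt En p q - chartAt En p p))) →
    ∀ x y, |ψ x - ψ y| ≤ dist x y

/-- Module D: bridge to Mathlib's Riemannian distance. -/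
def DStmt : Prop := ∀ (M : Type) [t : TopologicalSpace M] [ChartedSpace En M]
  [IsManifold 𝓘(ℝ, En) ∞ M] [T2Space M] [CompactSpace M] [ConnectedSpace M]
  (g : Metric En M) (g' : M → Bil), un g' = ip g → ChartFacts g' →
  ∃ d : MetricSpace M, d.toUniformSpace.toTopologicalSpace = t ∧
    (∀ x y, d.dist x y = rdist g x y) ∧
    (∀ p : M, ∀ ε > 0, ∀ᶠ q in 𝓝 p, rdist g p q ≤
      (1 + ε) * √(g' p (chartAt En p q - chartAt En p p) (chartAt En p q - chartAt En p p))) ∧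
    ∀ ψ : M → ℝ, (∀ p : M, ∀ ε > 0, ∀ᶠ q in 𝓝 p, |ψ q - ψ p| ≤
      (1 + ε) * √(g' p (chartAt En p q - chartAt En p p) (chartAt En p q - chartAt En p p))) →
      ∀ x y, |ψ x - ψ y| ≤ rdist g x y

variable {M : Type} [MetricSpace M] [ChartedSpace En M]

/-- the cost -/
noncomputable def cst (z y : M) : ℝ := dist z y ^ 2 / 2

namespace Riem
variable (R : Riem M)

def ex (x : M) (v : En) : M := R.geo x v 1
noncomputable def nr (x : M) (v : En) : ℝ := √(R.g x v v)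
noncomputable def vl (x : M) (v : En) (s : ℝ) : En := vel (R.geo x v) s
/-- minimizing vectors (closure of the injectivity domain) -/
def Ib (x : M) : Set En := {v | dist x (R.ex x v) = R.nr x v}
/-- injectivity domain -/
def Io (x : M) : Set En := {v | ∃ a : ℝ, 1 < a ∧ a • v ∈ R.Ib x}
/-- differential of `exp_x` at `v` -/
noncomputable def dex (x : M) (v : En) : En →L[ℝ] En :=
  fderiv ℝ (fun u => chartAt En (R.ex x v) (R.ex x u)) v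
noncomputable def q (x : M) (v u : En) : ℝ := R.g (R.ex x v) (R.dex x v u) (R.dex x v u)
/-- non-conjugate vectors -/
def NC (x : M) (v : En) : Prop := Function.Injective (R.dex x v)
def Good (x : M) (v : En) : Prop :=
  R.NC x v ∧ v ∈ R.Ib x ∧ ∀ w ∈ R.Ib x, R.ex x w = R.ex x v → w = v
/-- Hessian of the cost in the first variable -/
noncomputable def H (x : M) (v ξ : En) : ℝ :=
  deriv (deriv fun t : ℝ => cst (R.ex x (t • ξ)) (R.ex x v)) 0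
def MTW : Prop := ∀ x, ∀ v ∈ R.Io x, ∀ ξ η, R.g x ξ η = 0 →
  deriv (deriv fun s : ℝ => R.H x (v + s • η) ξ) 0 ≤ 0
/-- the exponential map in the chart at `a` -/
noncomputable def exc (a : M) (w : En × En) : M :=
  R.ex ((chartAt En a).symm w.1) (Di a w.1 w.2)
/-- the cost in the chart at `a`: `(y, u, ξ) ↦ c(exp ξ, exp u)` -/
noncomputable def Cc (a : M) (w : En × En × En) : ℝ :=
  cst (R.exc a (w.1, w.2.2)) (R.exc a (w.1, w.2.1))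

/-- Module S: smoothness of the exponential map, Gauss lemma -/
structure Sm : Prop where
  sm : ∀ (a : M) (w : En × En), w.1 ∈ (chartAt En a).target → ContinuousAt (R.exc a) w ∧
    ∀ b : M, R.exc a w ∈ (chartAt En b).source →
      ContDiffAt ℝ ∞ (fun w' => chartAt En b (R.exc a w')) w
  gauss : ∀ x v w, R.g (R.ex x v) (R.dex x v v) (R.dex x v w) = R.g x v w
  dexv : ∀ x v, R.dex x v v = R.vl x v 1
  dex0 : ∀ x, R.dex x 0 = ContinuousLinearMap.id ℝ En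

/-- Module N1: geodesics are short maps, small vectors are minimizing, first variation -/
structure Near1 : Prop where
  up : ∀ x v s t, dist (R.geo x v s) (R.geo x v t) ≤ |s - t| * R.nr x v
  n1 : ∃ δ > 0, ∀ z u, R.nr z u < δ → R.NC z u ∧ u ∈ R.Ib z
  sph : ∃ δ > 0, ∀ z y, ∀ r ∈ Ioo 0 δ,
    (dist z y ≤ r → ∃ u, R.nr z u = dist z y ∧ R.ex z u = y) ∧
    (r ≤ dist z y → ∃ u, R.nr z u = r ∧ dist z y = r + dist (R.ex z u) y)
  an : ∀ y w, R.NC y w → ∀ e, ∀ ε > 0, ∀ᶠ t in 𝓝[>] (0 : ℝ),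
    cst (R.ex (R.ex y w) (t • e)) y ≤
      R.nr y w ^ 2 / 2 + t * R.g (R.ex y w) (R.vl y w 1) e + ε * t

/-- Module N2: Hopf-Rinow and uniqueness of extendable minimizers -/
structure Near : Prop where
  hr : ∀ x y, ∃ v ∈ R.Ib x, R.ex x v = y
  seg : ∀ x, ∀ v ∈ R.Ib x, ∀ s t : ℝ, 0 ≤ s → s ≤ t → t ≤ 1 →
    dist (R.geo x v s) (R.geo x v t) = (t - s) * R.nr x v
  uniq : ∀ x, ∀ v ∈ R.Io x, ∀ w ∈ R.Ib x, R.ex x w = R.ex x v → w = v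

/-- Module P: bounds on the differential of the exponential map -/
structure Qb : Prop where
  qb : ∀ r : ℝ, ∃ Q > 0, ∀ z v u, R.nr z v ≤ r → R.q z v u ≤ Q * R.g z u u
  qz : ∀ x w ζ, R.dex x w ζ = 0 → ∃ C > 0, ∀ t ∈ Icc (1 / 2 : ℝ) 1,
    R.q x (t • w) ζ ≤ C * (1 - t) ^ 2
  lipv : ∀ x v u, ∀ ε > 0, ∀ᶠ s in 𝓝[>] (0 : ℝ),
    dist (R.ex x v) (R.ex x (v + s • u)) ≤ s * (√(R.q x v u) + ε)

end Riem

variable [IsManifold 𝓘(ℝ, En) ∞ M]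

variable (M) in
abbrev TM : Type := TangentBundle 𝓘(ℝ, En) M
def tm (z : M) (v : En) : TM M := ⟨z, v⟩
def tv (p : TM M) : En := p.snd
/-- chart of the tangent bundle and its inverse -/
noncomputable def lift (a : M) (p : TM M) : En × En := (chartAt En a p.proj, D a p.proj (tv p))
noncomputable def unl (a : M) (w : En × En) : TM M := tm ((chartAt En a).symm w.1) (Di a w.1 w.2)

namespace Riem
variable (R : Riem M)

/-- Module T: topology of the tangent bundle -/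
structure Top : Prop where
  t2 : T2Space (TM M)
  clift : ∀ a : M, ContinuousOn (lift a) {p | p.proj ∈ (chartAt En a).source}
  cunl : ∀ a : M, ContinuousOn (unl a) {w | w.1 ∈ (chartAt En a).target}
  cproj : Continuous fun p : TM M => p.proj
  ctm : ∀ z : M, Continuous (tm z)
  csmul : Continuous fun w : ℝ × TM M => tm w.2.proj (w.1 • tv w.2)
  cnr : Continuous fun p : TM M => R.nr p.proj (tv p)
  cex : Continuous fun p : TM M => R.ex p.proj (tv p)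
  cpt : ∀ r : ℝ, IsCompact {p : TM M | R.nr p.proj (tv p) ≤ r}
  hull : ∀ A : Set (TM M), IsCompact A →
    IsCompact {p : TM M | tv p ∈ convexHull ℝ {w | tm p.proj w ∈ A}}

/-- Module B: local branches of the logarithm -/
structure Br : Prop where
  ncopen : IsOpen {p : TM M | R.NC p.proj (tv p)}
  linj : ∀ p₀ : TM M, R.NC p₀.proj (tv p₀) → ∃ N ∈ 𝓝 p₀, ∀ z v w, tm z v ∈ N → tm z w ∈ N →
    R.ex z v = R.ex z w → v = w
  gopen : IsOpen {p : TM M | R.Good p.proj (tv p)}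
  smc : ∀ a x v, x ∈ (chartAt En a).source → R.Good x v →
    ContDiffAt ℝ ∞ (R.Cc a) (chartAt En a x, D a x v, 0)
  smc2 : ∀ x v, R.Good x v → ContDiffAt ℝ ∞
    (fun s : En × En => cst ((chartAt En x).symm s.1) ((chartAt En (R.ex x v)).symm s.2))
    (chartAt En x x, chartAt En (R.ex x v) (R.ex x v))
  /-- the branch energy `B` near a non-conjugate vector -/
  br : ∀ x v, R.NC x v → ∃ B : En × En × En → ℝ, ContDiffAt ℝ ∞ B (chartAt En x x, v, 0) ∧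
    ∀ N ∈ 𝓝 (tm x v), ∀ᶠ w in 𝓝 ((chartAt En x x, v, 0) : En × En × En),
      ∃ v', tm (R.exc x (w.1, w.2.2)) v' ∈ N ∧
        R.ex (R.exc x (w.1, w.2.2)) v' = R.exc x (w.1, w.2.1) ∧
        B w = R.nr (R.exc x (w.1, w.2.2)) v' ^ 2 / 2

/-- Module Y: Taylor expansions of the cost -/
structure Tay : Prop where
  sg : ∀ x y, ∀ w ∈ R.Ib x, R.ex x w = y → ContDiffAt ℝ 1 (fun ξ => cst (R.ex x ξ) y) 0 →
    ∀ u, fderiv ℝ (fun ξ => cst (R.ex x ξ) y) 0 u = -R.g x w u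
  hb : ∀ a : M, ∃ h : En × En → Bil,
    ContinuousOn h {w | w.1 ∈ (chartAt En a).target ∧ R.Good (unl a w).proj (tv (unl a w))} ∧
    ∀ x v, x ∈ (chartAt En a).source → R.Good x v → (∀ ξ η, h (lift a (tm x v)) ξ η =
      h (lift a (tm x v)) η ξ) ∧ ∀ ξ, R.H x v ξ = h (lift a (tm x v)) (D a x ξ) (D a x ξ)
  ti : ∀ K : Set (TM M), IsCompact K → (∀ p ∈ K, R.Good p.proj (tv p)) →
    (∃ C, ∀ z v ξ, tm z v ∈ K → |R.H z v ξ| ≤ C * R.g z ξ ξ) ∧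
    ∀ ε > 0, ∃ r > 0, ∀ z v ξ, tm z v ∈ K → R.nr z ξ < r →
      |cst (R.ex z ξ) (R.ex z v) - (R.g z v v / 2 - R.g z v ξ + R.H z v ξ / 2)| ≤ ε * R.g z ξ ξ
  lb : ∀ x v, R.NC x v → v ∈ R.Ib x → ∃ N ∈ 𝓝 (tm x v), ∃ C, ∀ z w ξ, tm z w ∈ N → R.Good z w →
    |R.H z w ξ| ≤ C * R.g z ξ ξ
  tl : ∀ x v₀, R.NC x v₀ → v₀ ∈ R.Ib x → ∀ ε > 0, ∃ N ∈ 𝓝 (tm x v₀), ∃ r > 0, ∀ z v w ξ v',
    tm z v ∈ N → tm z w ∈ N → v ∈ R.Ib z → R.Good z w → R.nr z ξ < r → tm (R.ex z ξ) v' ∈ N →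
    R.ex (R.ex z ξ) v' = R.ex z v →
    R.g z v v / 2 - R.g z v ξ + R.H z w ξ / 2 - ε * R.g z ξ ξ ≤ R.nr (R.ex z ξ) v' ^ 2 / 2

/-- Module H: calculus of the Hessian at a fixed base point -/
structure Hs : Prop where
  bil : ∀ x, ∃ Hb : En → Bil, ∀ v, R.Good x v → (∀ ξ η, Hb v ξ η = Hb v η ξ) ∧
    (∀ ξ, R.H x v ξ = Hb v ξ ξ) ∧ ∀ u, Hb v v u = R.g x v u
  h0 : ∀ x ξ, R.H x 0 ξ = R.g x ξ ξ
  sm : ∀ x v ξ, R.Good x v → ContDiffAt ℝ 2 (fun u => R.H x u ξ) v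
  ric : ∀ x w ξ ζ (t ρ : ℝ), R.Good x (t • w) →
    t * deriv (fun s : ℝ => R.H x (s • w) ξ) t - R.H x (t • w) ξ ≤
      ρ ^ 2 * R.q x (t • w) ζ + 2 * ρ * R.g x ζ ξ
  sup : ∀ x (w : En) (ξ : En) (δ t : ℝ), 0 < δ → 0 < t → R.Good x (-δ • w) → R.Good x (t • w) →
    dist (R.ex x (-δ • w)) (R.ex x (t • w)) = (δ + t) * R.nr x w →
    0 ≤ R.H x (-δ • w) ξ / δ + R.H x (t • w) ξ / t

/-- Module K: conjugate points -/
structure Kn : Prop where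
  bu : ∀ x w ζ ξ, (∀ t ∈ Ioo (0 : ℝ) 1, R.Good x (t • w)) → R.dex x w ζ = 0 → R.g x ζ ξ ≠ 0 →
    ∃ C, ∃ c > 0, ∀ α ∈ Ico (1 / 2 : ℝ) 1, R.H x (α • w) ξ ≤ C - c / (1 - α)
  nci : ∀ x, ∀ v ∈ R.Io x, R.Good x v
  mg : ∀ τ₀ τ' : ℝ, 0 ≤ τ₀ → τ₀ < τ' → τ' < 1 → ∃ κ > 0, ∀ t ∈ Icc 0 τ₀, ∀ z, ∀ p ∈ R.Ib z, ∀ ξ,
    κ * R.g z ξ ξ ≤ R.H z (t • p) ξ - t / τ' * R.H z (τ' • p) ξ

/-- active vectors of a `c`-convex function `φ = sup (a - c)` -/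
def Act (φ a : M → ℝ) (z : M) : Set En :=
  {p | p ∈ R.Ib z ∧ φ z = a (R.ex z p) - R.g z p p / 2}

/-- `z` minimizes `τ φ + c(·, exp_z v)` and `v` is minimizing -/
def Mn (φ : M → ℝ) (τ : ℝ) (z : M) (v : En) : Prop :=
  v ∈ R.Ib z ∧ ∀ z', τ * φ z + R.g z v v / 2 ≤ τ * φ z' + cst z' (R.ex z v)

/-- Module F: no conjugate point on a minimizing segment with non-conjugate ends -/
def Foc : Prop := ∀ x e₀ e₁, segment ℝ e₀ e₁ ⊆ R.Ib x → R.NC x e₀ → R.NC x e₁ →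
  ∀ w ∈ segment ℝ e₀ e₁, R.NC x w

/-- Module O: first order condition -/
def Fo : Prop := ∀ φ a : M → ℝ, Continuous φ → Continuous a → (∀ z y, a y - cst z y ≤ φ z) →
  (∀ z, ∃ y, φ z = a y - cst z y) → ∀ τ > 0, ∀ z v, R.Mn φ τ z v →
  ∃ p ∈ convexHull ℝ (R.Act φ a z), v = τ • p

/-- Module L: local uniqueness -/
def Lu : Prop := ∀ τ₀ : ℝ, 0 ≤ τ₀ → τ₀ < 1 → (∀ z, ∀ p ∈ convexHull ℝ (R.Ib z), τ₀ • p ∈ R.Ib z) →
  ∀ z₀, ∀ p₀ ∈ convexHull ℝ (R.Ib z₀), R.NC z₀ (τ₀ • p₀) →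
  ∃ N ∈ 𝓝 (tm z₀ (τ₀ • p₀)), ∃ δ > 0, ∀ τ : ℝ, |τ - τ₀| < δ → 0 < τ →
    ∀ φ a : M → ℝ, (∀ z y, a y - cst z y ≤ φ z) → ∀ z' v' z p, tm z' v' ∈ N → tm z (τ • p) ∈ N →
      R.Mn φ τ z' v' → p ∈ convexHull ℝ (R.Act φ a z) → τ • p ∈ R.Ib z →
      R.ex z' v' = R.ex z (τ • p) → tm z' v' = tm z (τ • p)

end Riem

/-- shape of all manifold modules -/
def All (P : ∀ (M : Type) [MetricSpace M] [ChartedSpace En M] [IsManifold 𝓘(ℝ, En) ∞ M],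
    Riem M → Prop) : Prop :=
  ∀ (M : Type) [MetricSpace M] [ChartedSpace En M] [IsManifold 𝓘(ℝ, En) ∞ M] [CompactSpace M]
    [ConnectedSpace M] (R : Riem M), P M R

def SStmt : Prop := All fun _ _ _ _ R => R.Sm
def TStmt : Prop := All fun _ _ _ _ R => R.Sm → R.Top
def N1Stmt : Prop := All fun _ _ _ _ R => R.Sm → R.Top → R.Near1
def N2Stmt : Prop := All fun _ _ _ _ R => R.Near1 → R.Near
def PStmt : Prop := All fun _ _ _ _ R => R.Sm → R.Top → R.Qb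
def BrStmt : Prop := All fun _ _ _ _ R => R.Sm → R.Top → R.Near1 → R.Near → R.Br
def YStmt : Prop := All fun _ _ _ _ R => R.Sm → R.Top → R.Near1 → R.Near → R.Br → R.Tay
def HStmt : Prop := All fun _ _ _ _ R =>
  R.Sm → R.Top → R.Near1 → R.Near → R.Qb → R.Br → R.Tay → R.Hs
def KStmt : Prop := All fun _ _ _ _ R =>
  R.Sm → R.Top → R.Near1 → R.Near → R.Qb → R.Br → R.Tay → R.Hs → R.Kn
def FStmt : Prop := All fun _ _ _ _ R => R.Sm → R.Top → R.Near → R.Tay → R.Hs → R.Kn → R.MTW → R.Foc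
def OStmt' : Prop := All fun _ _ _ _ R => R.Top → R.Near1 → R.Near → R.Tay → R.Kn → R.Fo

/-- Module Q: approximate quasi-convexity -/
def QStmt : Prop := ∀ (S : Set (En × En)) (G : En → Bil) (h : En × En → Bil), IsCompact S →
  ContinuousOn G (Prod.fst '' S) → ContinuousOn h S →
  (∀ w ∈ S, (∀ ξ η, G w.1 ξ η = G w.1 η ξ) ∧ (∀ ξ, ξ ≠ 0 → 0 < G w.1 ξ ξ) ∧
    ∀ ξ η, h w ξ η = h w η ξ) →
  (∀ y, Convex ℝ {u | (y, u) ∈ S}) →
  (∀ y u₀ u₁ ξ, (y, u₀) ∈ S → (y, u₁) ∈ S → G y ξ (u₁ - u₀) = 0 → ∀ t ∈ Icc (0 : ℝ) 1,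
    (1 - t) * h (y, u₀) ξ ξ + t * h (y, u₁) ξ ξ ≤ h (y, u₀ + t • (u₁ - u₀)) ξ ξ) →
  ∀ ε > 0, ∀ m > 0, ∃ r > 0, ∀ (y ξ : En) (τ b : ℝ) (A : Set En), G y ξ ξ < r ^ 2 → m ≤ τ →
    (∀ u ∈ A, (y, u) ∈ S ∧ τ * G y u ξ - h (y, u) ξ ξ / 2 ≤ b) →
    ∀ u ∈ convexHull ℝ A, τ * G y u ξ - h (y, u) ξ ξ / 2 ≤ b + ε * G y ξ ξ

def LStmt : Prop := All fun _ _ _ _ R =>
  R.Top → R.Near1 → R.Near → R.Br → R.Tay → R.Hs → R.Kn → R.MTW → R.Lu

/-- Module Z: the continuity method -/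
def ZStmt : Prop := ∀ (X M : Type) [TopologicalSpace X] [TopologicalSpace M] [T2Space X]
  [T2Space M] [LocallyConnectedSpace M] (E : ℝ → X → M) (Z : ℝ → Set X) (σ τ₁ : ℝ), σ ≤ τ₁ →
  Continuous (fun w : ℝ × X => E w.1 w.2) → IsCompact (Z σ) →
  (∀ τ τ', σ ≤ τ → τ ≤ τ' → τ' ≤ τ₁ → Z τ' ⊆ Z τ) →
  (∀ τ ∈ Icc σ τ₁, ∀ y, ∃ a ∈ Z τ, E τ a = y) →
  (∀ τ₀ ∈ Ioc σ τ₁, ∀ a, (∀ τ ∈ Ico σ τ₀, a ∈ Z τ) → a ∈ Z τ₀) →
  (∀ τ₀ ∈ Icc σ τ₁, ∀ a₀ ∈ Z σ, ∃ N ∈ 𝓝 (τ₀, a₀), ∀ τ ∈ Icc σ τ₁, ∀ a ∈ Z τ, ∀ b ∈ Z σ,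
    (τ, a) ∈ N → (τ, b) ∈ N → E τ a = E τ b → a = b) →
  InjOn (E σ) (Z σ) → Z σ ⊆ Z τ₁ ∧ InjOn (E τ₁) (Z σ)

end Vale.Agent.P234
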