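import Vale.Agent.P255.Spec

/-! The Riemannian toolkit of P255 in arbitrary dimension. -/

open scoped Manifold ContDiff Topology
open Set Filter

namespace Vale.Agent.P234
open Vale.Agent.P255 (koszul chr riem covD GeoAt JacAt loc locVec IsGeodesic IsJacobi Metric ip OStmt)

/-- the dimension, as a class so that it is found automatically -/
class Dim where
  n : ℕ
  pos : 0 < n

variable [Dim]

instance : Nonempty (Fin Dim.n) := ⟨⟨0, Dim.pos⟩⟩

/-- the model space -/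
abbrev En : Type := EuclideanSpace ℝ (Fin Dim.n)

abbrev Bil : Type := En →L[ℝ] En →L[ℝ] ℝ

/-- unbundling of a coordinate metric -/
noncomputable def ub (G : En → Bil) : En → En → En → ℝ := fun y u v => G y u v

/-- a smooth Riemannian metric on an open set of the model space -/
structure CM (G : En → Bil) (Ω : Set En) : Prop where
  isOpen : IsOpen Ω
  smooth : ContDiffOn ℝ ∞ G Ω
  symm : ∀ y ∈ Ω, ∀ u v, G y u v = G y v u
  pos : ∀ y ∈ Ω, ∀ u, u ≠ 0 → 0 < G y u u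

/-- `Γ` is a bundled version of the Christoffel symbols on `Ω` -/
structure IsGam (G : En → Bil) (Ω : Set En) (Γ : En → En →L[ℝ] En →L[ℝ] En) : Prop where
  smooth : ContDiffOn ℝ ∞ Γ Ω
  eq : ∀ y ∈ Ω, ∀ u v, chr (ub G) y u v = Γ y u v
  symm : ∀ y ∈ Ω, ∀ u v, Γ y u v = Γ y v u
  low : ∀ y ∈ Ω, ∀ u v w, G y (Γ y u v) w =
    (fderiv ℝ G y u v w + fderiv ℝ G y v u w - fderiv ℝ G y w u v) / 2

/-! ### Module A: calculus in one chart -/

def GamStmt : Prop := ∀ G Ω, CM G Ω → ∃ Γ, IsGam G Ω Γ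

/-- isometries map geodesics to geodesics -/
def NatStmt : Prop := ∀ (G₁ G₂ : En → Bil) (Ω₁ Ω₂ : Set En) (τ : En → En), CM G₁ Ω₁ → CM G₂ Ω₂ →
  ContDiffOn ℝ ∞ τ Ω₁ → MapsTo τ Ω₁ Ω₂ →
  (∀ y ∈ Ω₁, ∀ u v, G₁ y u v = G₂ (τ y) (fderiv ℝ τ y u) (fderiv ℝ τ y v)) →
  ∀ (c : ℝ → En) (s : ℝ), c s ∈ Ω₁ → (∀ᶠ r in 𝓝 s, DifferentiableAt ℝ c r) →
    GeoAt (ub G₁) c s → GeoAt (ub G₂) (fun r => τ (c r)) s

/-- Jacobi equation = linearized geodesic equation -/
def LinStmt : Prop := ∀ G Ω Γ, CM G Ω → IsGam G Ω Γ → ∀ (c j : ℝ → En) (s : ℝ),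
  (∀ᶠ r in 𝓝 s, c r ∈ Ω ∧ GeoAt (ub G) c r ∧ DifferentiableAt ℝ j r) →
  (JacAt (ub G) c j s ↔ HasDerivAt (deriv j)
    (-(fderiv ℝ Γ (c s) (j s) (deriv c s) (deriv c s))
      - (2 : ℝ) • Γ (c s) (deriv c s) (deriv j s)) s)

/-- Euler-Lagrange form of the geodesic and Jacobi equations -/
def LagStmt : Prop := ∀ G Ω, CM G Ω → ∀ (c : ℝ → En) (s : ℝ),
  (c s ∈ Ω → GeoAt (ub G) c s → ∀ w, HasDerivAt (fun r => G (c r) (deriv c r) w)
    (fderiv ℝ G (c s) w (deriv c s) (deriv c s) / 2) s) ∧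
  ∀ j : ℝ → En, (∀ᶠ r in 𝓝 s, c r ∈ Ω ∧ GeoAt (ub G) c r ∧ DifferentiableAt ℝ j r) →
    JacAt (ub G) c j s → DifferentiableAt ℝ (deriv j) s ∧ ∀ w, HasDerivAt
      (fun r => G (c r) (deriv j r) w + fderiv ℝ G (c r) (j r) (deriv c r) w)
      (fderiv ℝ (fun z => fderiv ℝ G z w (deriv c s) (deriv c s)) (c s) (j s) / 2
        + fderiv ℝ G (c s) w (deriv c s) (deriv j s)) s

/-- metric compatibility -/
def CompatStmt : Prop := ∀ G Ω, CM G Ω → ∀ (c j k : ℝ → En) (s : ℝ), c s ∈ Ω →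
  DifferentiableAt ℝ c s → DifferentiableAt ℝ j s → DifferentiableAt ℝ k s →
  HasDerivAt (fun r => G (c r) (j r) (k r))
    (G (c s) (covD (ub G) c j s) (k s) + G (c s) (j s) (covD (ub G) c k s)) s

def SkewStmt : Prop := ∀ G Ω, CM G Ω → ∀ y ∈ Ω, ∀ u v w, G y (riem (ub G) y u v w) w = 0

def AStmt : Prop := GamStmt ∧ NatStmt ∧ LinStmt ∧ LagStmt ∧ CompatStmt ∧ SkewStmt

/-! ### Manifold level notions -/

section
variable {M : Type} [TopologicalSpace M] [ChartedSpace En M]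

/-- unbundling of a metric on `M` -/
noncomputable def un (g : M → Bil) : (x : M) → TangentSpace 𝓘(ℝ, En) x → TangentSpace 𝓘(ℝ, En) x → ℝ :=
  fun x v w => g x v w

/-- differential of the chart at `a`, at the point `p` -/
noncomputable def D (a p : M) : En →L[ℝ] En := mfderiv 𝓘(ℝ, En) 𝓘(ℝ, En) (chartAt En a) p

/-- differential of the inverse chart -/
noncomputable def Di (a : M) (y : En) : En →L[ℝ] En :=
  mfderiv 𝓘(ℝ, En) 𝓘(ℝ, En) (chartAt En a).symm y

noncomputable def locB (g : M → Bil) (a : M) (y : En) : Bil :=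
  (g ((chartAt En a).symm y)).bilinearComp (Di a y) (Di a y)

theorem loc_un (g : M → Bil) (a : M) : loc (un g) a = ub (locB g a) := rfl

theorem locVec_eq (a : M) (γ : ℝ → M) (J : ℝ → En) (s : ℝ) :
    locVec a γ J s = D a (γ s) (J s) := rfl

structure IsMet (g : M → Bil) : Prop where
  symm : ∀ x u v, g x u v = g x v u
  pos : ∀ x u, u ≠ 0 → 0 < g x u u
  smooth : ∀ a, ContDiffOn ℝ ∞ (locB g a) (chartAt En a).target

/-- velocity of a curve, in the chart at the point -/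
noncomputable def vel (γ : ℝ → M) (s : ℝ) : En := deriv (fun r => chartAt En (γ s) (γ r)) s

/-- a choice of the geodesic with given initial data -/
def GeoFam (g : M → Bil) (geo : M → En → ℝ → M) : Prop :=
  ∀ p v, IsGeodesic (un g) (geo p v) ∧ geo p v 0 = p ∧ vel (geo p v) 0 = v

/-- chart facts -/
structure ChartFacts (g : M → Bil) : Prop where
  cm : ∀ a, CM (locB g a) (chartAt En a).target
  pull : ∀ a p, p ∈ (chartAt En a).source → ∀ u v,
    locB g a (chartAt En a p) (D a p u) (D a p v) = g p u v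
  self : ∀ a : M, D a a = ContinuousLinearMap.id ℝ En
  bij : ∀ a p : M, p ∈ (chartAt En a).source → Function.Bijective (D a p)
  chg : ∀ a b p : M, p ∈ (chartAt En a).source → p ∈ (chartAt En b).source →
    D b p = (fderiv ℝ (fun y => chartAt En b ((chartAt En a).symm y)) (chartAt En a p)).comp (D a p)
  sm : ∀ a b : M, ContDiffOn ℝ ∞ (fun y => chartAt En b ((chartAt En a).symm y))
    ((chartAt En a).target ∩ (chartAt En a).symm ⁻¹' (chartAt En b).source)
  law : ∀ a b : M, ∀ y ∈ (chartAt En a).target ∩ (chartAt En a).symm ⁻¹' (chartAt En b).source,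
    ∀ u v, locB g a y u v = locB g b (chartAt En b ((chartAt En a).symm y))
      (fderiv ℝ (fun y => chartAt En b ((chartAt En a).symm y)) y u)
      (fderiv ℝ (fun y => chartAt En b ((chartAt En a).symm y)) y v)

/-- facts on geodesics that do not need existence -/
structure GeoFacts (g : M → Bil) : Prop where
  uchart : ∀ γ, IsGeodesic (un g) γ → ∀ (a : M) (c : ℝ → En) (s₀ l u : ℝ), s₀ ∈ Ioo l u →
    (∀ s ∈ Ioo l u, c s ∈ (chartAt En a).target ∧ GeoAt (ub (locB g a)) c s) →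
    γ s₀ ∈ (chartAt En a).source → chartAt En a (γ s₀) = c s₀ →
    deriv (fun r => chartAt En a (γ r)) s₀ = deriv c s₀ →
    ∀ s ∈ Ioo l u, γ s = (chartAt En a).symm (c s)
  uniq : ∀ γ₁ γ₂, IsGeodesic (un g) γ₁ → IsGeodesic (un g) γ₂ → γ₁ 0 = γ₂ 0 →
    vel γ₁ 0 = vel γ₂ 0 → γ₁ = γ₂
  speed : ∀ γ, IsGeodesic (un g) γ → ∀ s,
    g (γ s) (vel γ s) (vel γ s) = g (γ 0) (vel γ 0) (vel γ 0)
  rep : ∀ γ, IsGeodesic (un g) γ → ∀ α β : ℝ, IsGeodesic (un g) (fun s => γ (α * s + β)) ∧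
    ∀ s, vel (fun s => γ (α * s + β)) s = α • vel γ (α * s + β)
  one : ∀ γ : ℝ → M, Continuous γ → (∀ s, ∃ a, γ s ∈ (chartAt En a).source ∧
    ∀ᶠ r in 𝓝 s, GeoAt (ub (locB g a)) (fun r => chartAt En a (γ r)) r) → IsGeodesic (un g) γ
  dv : ∀ γ, IsGeodesic (un g) γ → ∀ a s, γ s ∈ (chartAt En a).source →
    deriv (fun r => chartAt En a (γ r)) s = D a (γ s) (vel γ s)
  ju : ∀ (γ : ℝ → M) (J : ℝ → En), IsGeodesic (un g) γ → IsJacobi (un g) γ J → ∀ s₁, J s₁ = 0 →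
    deriv (locVec (γ s₁) γ J) s₁ = 0 → ∀ s, J s = 0

/-- `C^1` dependence on the initial vector, with Jacobi fields as derivative -/
def ExpC1 (g : M → Bil) (geo : M → En → ℝ → M) : Prop :=
  ∀ p v, ContinuousAt (fun v' => geo p v' 1) v ∧
    ContDiffAt ℝ 1 (fun v' => chartAt En (geo p v 1) (geo p v' 1)) v ∧
    ∀ w, ∃ J : ℝ → En, IsJacobi (un g) (geo p v) J ∧ J 0 = 0 ∧
      deriv (locVec p (geo p v) J) 0 = w ∧
      J 1 = fderiv ℝ (fun v' => chartAt En (geo p v 1) (geo p v' 1)) v w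

end

/-! ### Module B: bridge to Mathlib's Riemannian metrics, and chart facts -/

def BStmt : Prop := ∀ (M : Type) [TopologicalSpace M] [ChartedSpace En M]
  [IsManifold 𝓘(ℝ, En) ∞ M],
  (∀ g : Metric En M, ∃ g' : M → Bil, IsMet g' ∧ un g' = ip g) ∧
  (∀ g' : M → Bil, IsMet g' → ∃ g : Metric En M, un g' = ip g) ∧
  (∀ g : M → Bil, IsMet g → ChartFacts g)

/-! ### Module G: uniqueness etc.; module E: existence; module J: `C^1` dependence -/

def GStmt : Prop := ∀ (M : Type) [TopologicalSpace M] [ChartedSpace En M] [T2Space M]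
  (g : M → Bil), ChartFacts g → GeoFacts g

def EStmt : Prop := ∀ (M : Type) [TopologicalSpace M] [ChartedSpace En M] [T2Space M]
  [CompactSpace M] (g : M → Bil), ChartFacts g → ∃ geo, GeoFam g geo

def JStmt : Prop := ∀ (M : Type) [TopologicalSpace M] [ChartedSpace En M] [T2Space M]
  (g : M → Bil) (geo : M → En → ℝ → M), ChartFacts g → GeoFacts g → GeoFam g geo → ExpC1 g geo

end Vale.Agent.P234
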