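import Vale.Agent.P234.Spec
import Vale.Agent.P234.B0

/-! Module T of P234: topology of the tangent bundle. -/

open scoped Manifold ContDiff Topology
open Set Filter Bundle

namespace Vale.Agent.P234

variable [Dim]

namespace Tm

variable {M : Type} [MetricSpace M] [ChartedSpace En M] [IsManifold 𝓘(ℝ, En) ∞ M]

lemma cproj : Continuous fun p : TM M => p.proj :=
  FiberBundle.continuous_proj En (TangentSpace 𝓘(ℝ, En))

lemma clift (a : M) : ContinuousOn (lift a) {p : TM M | p.proj ∈ (chartAt En a).source} := by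
  refine ((chartAt En a).continuousOn.comp cproj.continuousOn fun _ h => h).prodMk
    ((continuous_snd.comp_continuousOn
      (trivializationAt En (TangentSpace 𝓘(ℝ, En)) a).continuousOn).congr fun p hp => ?_)
  exact (DFunLike.congr_fun (TangentBundle.continuousLinearMapAt_trivializationAt
    (I := 𝓘(ℝ, En)) hp) p.snd).symm.trans
    (Trivialization.continuousLinearMapAt_apply_of_mem ℝ _ hp p.snd)

lemma cunl (a : M) : ContinuousOn (unl a) {w | w.1 ∈ (chartAt En a).target} := by
  refine ((trivializationAt En (TangentSpace 𝓘(ℝ, En)) a).continuousOn_symm.comp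
    (f := fun w : En × En => ((chartAt En a).symm w.1, w.2))
    (((chartAt En a).continuousOn_symm.comp continuousOn_fst fun _ h => h).prodMk
      continuousOn_snd) fun w hw => ⟨(chartAt En a).map_target hw, mem_univ _⟩).congr
    fun w hw => congrArg (tm _) ?_
  have hp := (chartAt En a).map_target hw
  have := DFunLike.congr_fun (TangentBundle.symmL_trivializationAt (I := 𝓘(ℝ, En)) hp) w.2
  rw [ModelWithCorners.range_eq_univ, mfderivWithin_univ] at this
  refine Eq.trans ?_ ((Trivialization.symmL_apply _ hp w.2).symm.trans this).symm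
  change _ = Di a (chartAt En a _) _
  rw [(chartAt En a).right_inv hw]

lemma unl_lift {a : M} {p : TM M} (hp : p.proj ∈ (chartAt En a).source) :
    unl a (lift a p) = p := by
  rw [unl, lift, Bm.DiD hp, (chartAt En a).left_inv hp]; rfl

lemma opn (a : M) : IsOpen {p : TM M | p.proj ∈ (chartAt En a).source} :=
  (chartAt En a).open_source.preimage cproj

lemma clift' {a : M} {p : TM M} (hp : p.proj ∈ (chartAt En a).source) : ContinuousAt (lift a) p :=
  (clift a).continuousAt ((opn a).mem_nhds hp)

/-- continuity criterion for maps into the tangent bundle -/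
lemma toTM {X : Type*} [TopologicalSpace X] {z : X → M} {v : X → En} {x : X} {a : M}
    (ha : z x ∈ (chartAt En a).source) (hz : ContinuousAt z x)
    (h : ContinuousAt (fun y => D a (z y) (v y)) x) : ContinuousAt (fun y => tm (z y) (v y)) x := by
  have n := (chartAt En a).open_source.mem_nhds ha
  refine (((cunl a).continuousAt (((chartAt En a).open_target.preimage continuous_fst).mem_nhds
    (show (lift a (tm (z x) (v x))).1 ∈ _ from (chartAt En a).map_source ha))).comp
    (f := fun y => lift a (tm (z y) (v y)))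
    ((((chartAt En a).continuousAt ha).comp hz).prodMk h)).congr ?_
  filter_upwards [hz n] with y hy using unl_lift hy

lemma t2 : T2Space (TM M) := ⟨fun p q h => by
  by_cases e : p.proj = q.proj
  · have hp := mem_chart_source En p.proj
    have hq : q.proj ∈ (chartAt En p.proj).source := e ▸ hp
    obtain ⟨u, v, a, b, c⟩ := t2_separation_nhds (x := lift p.proj p) (y := lift p.proj q)
      fun k => h (by rw [← unl_lift hp, k, unl_lift hq])
    obtain ⟨u', u1, u2, u3⟩ := mem_nhds_iff.1 (clift' hp a)
    obtain ⟨v', v1, v2, v3⟩ := mem_nhds_iff.1 (clift' hq b)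
    exact ⟨u', v', u2, v2, u3, v3, (c.preimage _).mono u1 v1⟩
  · exact separated_by_continuous cproj e⟩

lemma low {K : Set En} {G : En → Bil} (hK : IsCompact K) (hG : ContinuousOn G K)
    (h : ∀ y ∈ K, ∀ u, u ≠ 0 → 0 < G y u u) : ∃ c > 0, ∀ y ∈ K, ∀ u, c * ‖u‖ ^ 2 ≤ G y u u := by
  obtain ⟨c, c0, hc⟩ := (hK.prod (isCompact_sphere (0 : En) 1)).exists_forall_le'
    (f := fun w : En × En => G w.1 w.2 w.2) (((hG.comp continuousOn_fst fun _ h => h.1).clm_apply
      continuousOn_snd).clm_apply continuousOn_snd)
    fun w hw => h _ hw.1 _ (Metric.ne_of_mem_sphere hw.2 one_ne_zero)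
  refine ⟨c, c0, fun y hy u => ?_⟩
  rcases eq_or_ne u 0 with rfl | u0
  · simp
  have n := norm_pos_iff.2 u0
  have := hc (y, ‖u‖⁻¹ • u) ⟨hy, by simp [norm_smul, inv_mul_cancel₀ n.ne']⟩
  simp only [map_smul, smul_apply, smul_eq_mul] at this
  rwa [← mul_assoc, ← mul_inv, ← div_eq_inv_mul, le_div_iff₀ (by positivity), ← sq] at this

variable (R : Riem M)

lemma cnr : Continuous fun p : TM M => R.nr p.proj (tv p) := continuous_iff_continuousAt.2 fun p => by
  have hp := mem_chart_source En p.proj
  have c := clift' hp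
  have := ((R.cf.cm p.proj).smooth.continuousOn.continuousAt ((chartAt En _).open_target.mem_nhds
    ((chartAt En _).map_source hp))).comp (f := fun q => (lift p.proj q).1) c.fst
  refine ((this.clm_apply c.snd).clm_apply c.snd).sqrt.congr ?_
  filter_upwards [(opn _).mem_nhds hp] with q hq using congrArg _ (R.cf.pull _ _ hq _ _)

lemma cpt [CompactSpace M] (r : ℝ) : IsCompact {p : TM M | R.nr p.proj (tv p) ≤ r} := by
  have := t2 (M := M)
  choose K K1 K2 K3 using fun a : M =>
    exists_compact_subset (chartAt En a).open_source (mem_chart_source En a)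
  obtain ⟨t, -, ht⟩ := isCompact_univ.elim_nhds_subcover K fun a _ => mem_interior_iff_mem_nhds.1 (K2 a)
  have K4 := fun a => (K1 a).image_of_continuousOn ((chartAt En a).continuousOn.mono (K3 a))
  have K5 : ∀ a, chartAt En a '' K a ⊆ (chartAt En a).target := fun a =>
    ((chartAt En a).mapsTo.mono_left (K3 a)).image_subset
  choose c c0 hc using fun a => low (K4 a) ((R.cf.cm a).smooth.continuousOn.mono (K5 a))
    fun y hy => (R.cf.cm a).pos y (K5 a hy)
  refine (t.isCompact_biUnion fun a _ => ((K4 a).prod (isCompact_closedBall (0 : En)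
    (r / √(c a)))).image_of_continuousOn ((cunl a).mono fun w hw => K5 a hw.1)).of_isClosed_subset
    (isClosed_le (cnr R) continuous_const) fun p hp => ?_
  obtain ⟨a, ha, hK⟩ := mem_iUnion₂.1 (ht (mem_univ p.proj))
  refine mem_iUnion₂.2 ⟨a, ha, lift a p, ⟨⟨_, hK, rfl⟩, ?_⟩, unl_lift (K3 a hK)⟩
  have := Real.sqrt_le_sqrt (hc a _ ⟨_, hK, rfl⟩ (lift a p).2)
  rw [Real.sqrt_mul (c0 a).le, Real.sqrt_sq (norm_nonneg _)] at this
  rw [mem_closedBall_zero_iff, le_div_iff₀' (Real.sqrt_pos.2 (c0 a))]
  exact this.trans ((congrArg _ (R.cf.pull _ _ (K3 a hK) _ _)).trans_le hp)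

omit R in
lemma hull [CompactSpace M] (A : Set (TM M)) (hA : IsCompact A) :
    IsCompact {p : TM M | tv p ∈ convexHull ℝ {w | tm p.proj w ∈ A}} := by
  let P := fun k : ℕ => {x : M × (Fin k → ℝ) × (Fin k → TM M) |
    (x.2.1 ∈ stdSimplex ℝ (Fin k) ∧ ∀ i, x.2.2 i ∈ A) ∧ ∀ i, (x.2.2 i).proj = x.1}
  have hP : ∀ k, IsCompact (P k) := fun k => by
    have := (isCompact_univ (X := M).prod ((isCompact_stdSimplex ℝ (Fin k)).prod
      (isCompact_univ_pi fun _ : Fin k => hA))).inter_right (isClosed_iInter fun i =>
      isClosed_eq (f := fun x : M × (Fin k → ℝ) × (Fin k → TM M) => (x.2.2 i).proj)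
        (cproj.comp (by fun_prop)) continuous_fst)
    convert this using 1
    ext x
    simp [P]
  have hc : ∀ k, ContinuousOn (fun x : M × (Fin k → ℝ) × (Fin k → TM M) =>
      tm x.1 (∑ i, x.2.1 i • tv (x.2.2 i))) (P k) := fun k =>
    continuousOn_iff_continuous_domRestrict.2 (continuous_iff_continuousAt.2 fun x => by
      refine toTM (z := fun y : P k => y.1.1) (v := fun y => ∑ i, y.1.2.1 i • tv (y.1.2.2 i))
        (mem_chart_source En x.1.1) (by fun_prop) ?_
      have : ∀ i, ContinuousAt (fun y : P k => y.1.2.1 i • (lift x.1.1 (y.1.2.2 i)).2) x := fun i =>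
        ContinuousAt.smul (f := fun y : P k => y.1.2.1 i) (by fun_prop) ((clift' (by rw [x.2.2 i]; exact mem_chart_source En _)).comp
          (f := fun y : P k => y.1.2.2 i) (by fun_prop)).snd
      refine (tendsto_finsetSum Finset.univ fun i _ => this i).congr' (.of_forall fun y => ?_) |>.mono_right ?_
      · simp only [map_sum, map_smul, lift, y.2.2]
      · simp only [map_sum, map_smul, lift, x.2.2, le_refl])
  convert (Finset.range (Module.finrank ℝ En + 2)).isCompact_biUnion fun k _ =>
    (hP k).image_of_continuousOn (hc k) using 1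
  ext p
  simp only [mem_iUnion₂]
  constructor
  · intro hp
    obtain ⟨ι, _, z, w, h1, h2, h3, h4, h5⟩ := eq_pos_convex_span_of_mem_convexHull hp
    have e := (Fintype.equivFin ι).symm
    refine ⟨Fintype.card ι, Finset.mem_range.2 ?_, (p.proj, fun i => w (e i),
      fun i => tm p.proj (z (e i))), ⟨⟨⟨fun i => (h3 _).le, (e.sum_comp w).trans h4⟩,
      fun i => h1 ⟨_, rfl⟩⟩, fun _ => rfl⟩,
      congrArg (tm p.proj) ((e.sum_comp fun i => w i • z i).trans h5)⟩
    have := h2.card_le_finrank_succ
    have := (vectorSpan ℝ (range z)).finrank_le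
    omega
  · rintro ⟨k, -, x, hx, rfl⟩
    refine mem_convexHull_of_exists_fintype x.2.1 (fun i => tv (x.2.2 i)) hx.1.1.1 hx.1.1.2
      (fun i => ?_) rfl
    change tm x.1 _ ∈ A
    rw [← hx.2 i]
    exact hx.1.2 i

end Tm

open Tm in
theorem tStmt : TStmt := fun M _ _ _ _ _ R hS => by
  refine ⟨t2, clift, cunl, cproj, fun z => continuous_iff_continuousAt.2 fun v =>
    toTM (z := fun _ => z) (v := id) (mem_chart_source En z) continuousAt_const
      (D z z).continuous.continuousAt, continuous_iff_continuousAt.2 fun w => ?_, cnr R,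
    continuous_iff_continuousAt.2 fun p => ?_, cpt R, hull⟩
  · refine toTM (z := fun y : ℝ × TM M => y.2.proj) (mem_chart_source En _)
      (cproj.comp continuous_snd).continuousAt ?_
    simp only [map_smul]
    exact continuousAt_fst.smul ((clift' (mem_chart_source En _)).comp continuousAt_snd).snd
  · have hp := mem_chart_source En p.proj
    refine ((hS.sm _ (lift p.proj p) ((chartAt En _).map_source hp)).1.comp (clift' hp)).congr ?_
    filter_upwards [(opn _).mem_nhds hp] with q hq using
      congrArg (fun p : TM M => R.ex p.proj (tv p)) (unl_lift hq)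

end Vale.Agent.P234
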