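import Vale.Agent.P234.Base

/-! The induction on the scale `τ`. -/

open scoped Manifold ContDiff Topology
open Set Filter

namespace Vale.Agent.P234.Riem

variable [Dim] {M : Type} [MetricSpace M] [ChartedSpace En M] [IsManifold 𝓘(ℝ, En) ∞ M]
  [CompactSpace M] (R : Riem M)

/-- the induction hypothesis -/
def Tt (τ : ℝ) : Prop := ∀ z, ∀ p ∈ convexHull ℝ (R.Ib z), τ • p ∈ R.Ib z

theorem Tt.mono (hN : R.Near) {τ τ' : ℝ} (h : R.Tt τ) (h0 : 0 ≤ τ') (h1 : τ' ≤ τ) : R.Tt τ' := by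
  intro z p hp
  rcases h0.eq_or_lt with rfl | h0
  · simpa using R.zero_mem_Ib z
  · have hτ : 0 < τ := h0.trans_le h1
    have := R.smul_mem_Ib hN (h z p hp) (a := τ' / τ) (by positivity) ((div_le_one hτ).2 h1)
    rwa [smul_smul, div_mul_cancel₀ _ hτ.ne'] at this

theorem nc_hull (hK : R.Kn) (hF : R.Foc) {τ : ℝ} (h : R.Tt τ) (h0 : 0 ≤ τ) (h1 : τ < 1) (z : M) :
    ∀ p ∈ convexHull ℝ (R.Ib z), R.NC z (τ • p) := by
  intro p hp
  refine (convexHull_min (t := {p | p ∈ convexHull ℝ (R.Ib z) ∧ R.NC z (τ • p)})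
    (fun u hu => ⟨subset_convexHull _ _ hu, (hK.nci z _ (R.smul_mem_Io hu h0 h1)).1⟩) ?_ hp).2
  intro u hu v hv a b ha hb hab
  have e : ∀ a b : ℝ, a • τ • u + b • τ • v = τ • (a • u + b • v) := fun a b => by module
  refine ⟨convex_convexHull _ _ hu.1 hv.1 ha hb hab, hF z (τ • u) (τ • v) ?_ hu.2 hv.2 _
    ⟨a, b, ha, hb, hab, e a b⟩⟩
  rintro _ ⟨a', b', ha', hb', hab', rfl⟩
  rw [e]
  exact h z _ (convex_convexHull _ _ hu.1 hv.1 ha' hb' hab')

theorem closed_Ib (hT : R.Top) : IsClosed {p : TM M | tv p ∈ R.Ib p.proj} :=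
  isClosed_eq (hT.cproj.dist hT.cex) hT.cnr

theorem closed_Mn (hT : R.Top) {φ : M → ℝ} (hφ : Continuous φ) :
    IsClosed {w : ℝ × TM M | R.Mn φ w.1 w.2.proj (w.1 • tv w.2)} := by
  simp only [Mn, setOf_and, setOf_forall, ← nr_sq]
  refine ((R.closed_Ib hT).preimage hT.csmul).inter (isClosed_iInter fun z' => isClosed_le ?_ ?_)
  · exact (continuous_fst.mul (hφ.comp (hT.cproj.comp continuous_snd))).add
      (((hT.cnr.comp hT.csmul).pow 2).div_const 2)
  · exact (continuous_fst.mul continuous_const).add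
      (continuous_cst.comp (continuous_const.prodMk (hT.cex.comp hT.csmul)))

theorem Mn.anti (hN : R.Near) {φ : M → ℝ} {τ τ' : ℝ} (h0 : 0 < τ) (h1 : τ ≤ τ') {z : M} {p : En}
    (h : R.Mn φ τ' z (τ' • p)) : R.Mn φ τ z (τ • p) := by
  rcases h1.eq_or_lt with rfl | h1
  · exact h
  have hτ : 0 < τ' := h0.trans h1
  have l0 : 0 < τ / τ' := by positivity
  have l1 : τ / τ' < 1 := (div_lt_one hτ).2 h1
  have e : (τ / τ') • τ' • p = τ • p := by rw [smul_smul, div_mul_cancel₀ _ hτ.ne']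
  refine ⟨e ▸ R.smul_mem_Ib hN h.1 l0.le l1.le, fun z' => ?_⟩
  have a1 := h.2 z'
  have a2 := cst_tri z' (R.ex z (τ • p)) (R.ex z (τ' • p)) l0 l1
  have a3 := hN.seg z _ h.1 (τ / τ') 1 l0.le l1.le le_rfl
  rw [← R.ex_smul, e] at a3
  have a4 : cst (R.ex z (τ • p)) (R.ex z (τ' • p)) = (τ' - τ) ^ 2 * R.g z p p / 2 := by
    rw [cst]
    change dist _ (R.geo z (τ' • p) 1) ^ 2 / 2 = _
    rw [a3, mul_pow, nr_sq]
    simp only [map_smul, ContinuousLinearMap.smul_apply, smul_eq_mul]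
    field_simp
  simp only [map_smul, ContinuousLinearMap.smul_apply, smul_eq_mul] at a1 ⊢
  rw [a4] at a2
  have a5 : (τ' - τ) ^ 2 * R.g z p p / 2 / (1 - τ / τ') = τ' * (τ' - τ) * R.g z p p / 2 := by
    have : τ' - τ ≠ 0 := by linarith
    field_simp
  have a6 : cst z' (R.ex z (τ • p)) / (τ / τ') = τ' * (cst z' (R.ex z (τ • p)) / τ) := by
    field_simp
  rw [a5, a6] at a2
  have a7 : φ z + τ * R.g z p p / 2 ≤ φ z' + cst z' (R.ex z (τ • p)) / τ := by
    refine le_of_mul_le_mul_left ?_ hτ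
    nlinarith
  have a8 := mul_le_mul_of_nonneg_left a7 h0.le
  rw [mul_add, mul_add, mul_div_cancel₀ _ h0.ne'] at a8
  nlinarith

theorem good_hull (hZ : ZStmt) (hS : R.Sm) (hT : R.Top) (hN : R.Near) (hK : R.Kn) (hF : R.Foc)
    (hO : R.Fo) (hL : R.Lu) {τ₁ : ℝ} (h : R.Tt τ₁) (h0 : 0 ≤ τ₁) (h1 : τ₁ < 1) (x₀ : M) :
    ∀ p₀ ∈ convexHull ℝ (R.Ib x₀), R.Good x₀ (τ₁ • p₀) := by
  intro p₀ hp₀
  rcases h0.eq_or_lt with rfl | h0
  · simpa using R.good_zero hS x₀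
  haveI := hT.t2
  haveI : LocallyConnectedSpace M := ChartedSpace.locallyConnectedSpace En M
  set a : M → ℝ := fun y => cst x₀ y with ha
  set φ : M → ℝ := fun z => sSup ((fun y => a y - cst z y) '' univ) with hφ
  have ca : Continuous a := continuous_cst.comp (continuous_const.prodMk continuous_id)
  have cf : Continuous fun w : M × M => a w.2 - cst w.1 w.2 :=
    (ca.comp continuous_snd).sub continuous_cst
  have cφ : Continuous φ := isCompact_univ.continuous_sSup cf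
  have cz : ∀ z, Continuous fun y => a y - cst z y := fun z =>
    cf.comp (continuous_const.prodMk continuous_id)
  have φ1 : ∀ z y, a y - cst z y ≤ φ z := fun z y =>
    le_csSup (isCompact_univ.image (cz z)).bddAbove (mem_image_of_mem _ (mem_univ y))
  have φ2 : ∀ z, ∃ y, φ z = a y - cst z y := fun z => by
    obtain ⟨y, -, hy⟩ := isCompact_univ.exists_sSup_image_eq ⟨x₀, mem_univ _⟩ (cz z).continuousOn
    exact ⟨y, hy⟩
  have φ0 : φ x₀ = 0 := by obtain ⟨y, hy⟩ := φ2 x₀; simp [hy, ha]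
  have act0 : R.Ib x₀ ⊆ R.Act φ a x₀ := fun p hp => ⟨hp, by simp [φ0, ha, R.cst_of_Ib hp]⟩
  have hsub : ∀ z, convexHull ℝ (R.Act φ a z) ⊆ convexHull ℝ (R.Ib z) := fun z =>
    convexHull_mono fun p hp => hp.1
  set Z : ℝ → Set (TM M) := fun τ => {p | R.Mn φ τ p.proj (τ • tv p)} with hZd
  set E : ℝ → TM M → M := fun τ p => R.ex p.proj (τ • tv p) with hE
  have cE : Continuous fun w : ℝ × TM M => E w.1 w.2 := hT.cex.comp hT.csmul
  have ZG : ∀ τ > 0, ∀ p ∈ Z τ, tv p ∈ convexHull ℝ (R.Act φ a p.proj) := fun τ hτ p hp => by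
    obtain ⟨p', h1, h2⟩ := hO φ a cφ ca φ1 φ2 τ hτ _ _ hp
    rwa [smul_right_injective En hτ.ne' h2]
  have surj : ∀ τ > 0, ∀ y, ∃ b ∈ Z τ, E τ b = y := fun τ hτ y => by
    obtain ⟨z, -, hz⟩ := isCompact_univ.exists_isMinOn ⟨x₀, mem_univ _⟩
      (f := fun z => τ * φ z + cst z y) ((continuous_const.mul cφ).add
        (continuous_cst.comp (continuous_id.prodMk continuous_const))).continuousOn
    obtain ⟨v, hv, hy⟩ := hN.hr z y
    have e : τ • τ⁻¹ • v = v := by rw [smul_smul, mul_inv_cancel₀ hτ.ne', one_smul]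
    refine ⟨tm z (τ⁻¹ • v), ?_, by simp only [hE, tm_proj, tv_tm, e, hy]⟩
    simp only [hZd, mem_setOf_eq, tm_proj, tv_tm, e]
    refine ⟨hv, fun z' => ?_⟩
    rw [← R.cst_of_Ib hv, hy]
    exact hz (mem_univ z')
  have canc : ∀ {τ : ℝ}, 0 < τ → ∀ {p q : TM M}, tm p.proj (τ • tv p) = tm q.proj (τ • tv q) →
      p = q := fun {τ} hτ p q hpq => by
    obtain ⟨e1, e2⟩ := tm_inj.1 hpq
    rw [← tm_eta p, ← tm_eta q, e1, smul_right_injective En hτ.ne' e2]
  set K : Set (TM M) := {p | R.nr p.proj (tv p) ≤ Metric.diam (univ : Set M)} with hK'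
  have base : ∃ σ ∈ Ioc 0 τ₁, ∀ p ∈ Z σ, ∀ q : TM M, tv q ∈ convexHull ℝ (R.Act φ a q.proj) →
      E σ p = E σ q → p = q := by
    have T0 : R.Tt 0 := h.mono R hN le_rfl h0.le
    have L0 := fun z₀ => hL 0 le_rfl one_pos T0 z₀ 0
      (subset_convexHull _ _ (R.zero_mem_Ib z₀)) (by simpa using (R.good_zero hS z₀).1)
    choose N hN1 δ hδ hNδ using L0
    have := ((hT.cpt _).prod (hT.cpt _) : IsCompact (K ×ˢ K)).eventually_forall_of_forall_eventually
      (x₀ := (0 : ℝ)) (P := fun σ w => E σ w.1 = E σ w.2 → ∃ z₀, |σ - 0| < δ z₀ ∧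
        tm w.1.proj (σ • tv w.1) ∈ N z₀ ∧ tm w.2.proj (σ • tv w.2) ∈ N z₀) (by
      rintro ⟨p, q⟩ -
      have c1 : Continuous fun w : ℝ × TM M × TM M => (w.1, w.2.1) := by fun_prop
      have c2 : Continuous fun w : ℝ × TM M × TM M => (w.1, w.2.2) := by fun_prop
      by_cases hpq : p.proj = q.proj
      · have e1 := (hT.csmul.comp c1).continuousAt (x := (0, p, q)) |>.eventually
          (show N p.proj ∈ 𝓝 _ from by simpa using hN1 p.proj)
        have e2 := (hT.csmul.comp c2).continuousAt (x := (0, p, q)) |>.eventually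
          (show N p.proj ∈ 𝓝 _ from by simpa [hpq] using hN1 q.proj)
        have e3 : ∀ᶠ w : ℝ × TM M × TM M in 𝓝 (0, p, q), |w.1 - 0| < δ p.proj :=
          (by fun_prop : Continuous fun w : ℝ × TM M × TM M => |w.1 - 0|).continuousAt.eventually
            (gt_mem_nhds (by simpa using hδ p.proj))
        filter_upwards [e1, e2, e3] with w a1 a2 a3 _ using ⟨p.proj, a3, a1, a2⟩
      · have := (isOpen_ne_fun (cE.comp c1) (cE.comp c2)).mem_nhds
          (show ((0 : ℝ), p, q) ∈ _ from by simpa [hE] using hpq)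
        filter_upwards [this] with w a1 a2 using absurd a2 a1)
    obtain ⟨σ, s1, s2⟩ := ((this.filter_mono nhdsWithin_le_nhds).and
      (Ioc_mem_nhdsGT h0 : ∀ᶠ σ in 𝓝[>] (0 : ℝ), σ ∈ Ioc 0 τ₁)).exists
    refine ⟨σ, s2, fun p hp q hq hpq => ?_⟩
    obtain ⟨z₀, b1, b2, b3⟩ := s1 (p, q)
      ⟨R.nr_le_diam' (hsub _ (ZG σ s2.1 p hp)), R.nr_le_diam' (hsub _ hq)⟩ hpq
    exact canc s2.1 (hNδ z₀ σ b1 s2.1 φ a φ1 _ _ _ _ b2 b3 hp hq
      (h.mono R hN s2.1.le s2.2 _ _ (hsub _ hq)) hpq)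
  obtain ⟨σ, ⟨s0, s1⟩, hσ⟩ := base
  have clZ := R.closed_Mn hT cφ
  obtain ⟨z1, z2⟩ := hZ (TM M) M E Z σ τ₁ s1 cE
    ((hT.cpt _).of_isClosed_subset (clZ.preimage (Continuous.prodMk_right σ))
      fun p hp => R.nr_le_diam' (hsub _ (ZG σ s0 p hp)))
    (fun τ τ' a1 a2 _ p hp => Mn.anti R hN (s0.trans_le a1) a2 hp)
    (fun τ hτ => surj τ (s0.trans_le hτ.1))
    (fun τ₀ hτ p hp => clZ.mem_of_tendsto
      (((Continuous.prodMk_left p).tendsto τ₀).mono_left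
        (nhdsWithin_le_nhds : 𝓝[<] τ₀ ≤ 𝓝 τ₀))
      (Filter.mem_of_superset (Ico_mem_nhdsLT hτ.1) hp))
    (fun τ₀ hτ p hp => by
      have T0 := h.mono R hN (s0.le.trans hτ.1) hτ.2
      have hp' := hsub _ (ZG σ s0 p hp)
      obtain ⟨N, hN1, δ, hδ, hNδ⟩ := hL τ₀ (s0.le.trans hτ.1) (hτ.2.trans_lt h1) T0 _ _ hp'
        (R.nc_hull hK hF T0 (s0.le.trans hτ.1) (hτ.2.trans_lt h1) _ _ hp')
      refine ⟨{w | tm w.2.proj (w.1 • tv w.2) ∈ N ∧ |w.1 - τ₀| < δ}, ?_, ?_⟩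
      · exact ((hT.csmul.continuousAt (x := (τ₀, p))).eventually hN1).and
          ((by fun_prop : Continuous fun w : ℝ × TM M => |w.1 - τ₀|).continuousAt.eventually
            (gt_mem_nhds (by simpa using hδ)))
      · intro τ hτ' q hq q' hq' a1 a2 e
        have τ0 := s0.trans_le hτ'.1
        have := ZG σ s0 q' hq'
        exact canc τ0 (hNδ τ a1.2 τ0 φ a φ1 _ _ _ _ a1.1 a2.1 hq this
          (h.mono R hN τ0.le hτ'.2 _ _ (hsub _ this)) e))
    (fun p hp q hq e => hσ p hp q (ZG σ s0 q hq) e)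
  have m0 : tm x₀ p₀ ∈ Z σ := by
    obtain ⟨b, b1, b2⟩ := surj σ s0 (E σ (tm x₀ p₀))
    rwa [← hσ b b1 (tm x₀ p₀) (convexHull_mono act0 hp₀) b2]
  have m1 : R.Mn φ τ₁ x₀ (τ₁ • p₀) := z1 m0
  refine ⟨R.nc_hull hK hF h h0.le h1 x₀ p₀ hp₀, m1.1, fun w hw e => ?_⟩
  have e' : τ₁ • τ₁⁻¹ • w = w := by rw [smul_smul, mul_inv_cancel₀ h0.ne', one_smul]
  have m2 : tm x₀ (τ₁⁻¹ • w) ∈ Z τ₁ := by
    simp only [hZd, mem_setOf_eq, tm_proj, tv_tm, e']
    refine ⟨hw, fun z' => ?_⟩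
    rw [← R.cst_of_Ib hw, e, R.cst_of_Ib m1.1]
    exact m1.2 z'
  have := z2 (Mn.anti R hN s0 s1 m2) m0 (by simp only [hE, tm_proj, tv_tm, e', e])
  rw [← e', (tm_inj.1 this).2]

theorem convex_Ib (hZ : ZStmt) (hS : R.Sm) (hT : R.Top) (hN : R.Near) (hB : R.Br) (hK : R.Kn)
    (hF : R.Foc) (hO : R.Fo) (hL : R.Lu) (x : M) : Convex ℝ (R.Ib x) := by
  have cl : IsClosed {τ | R.Tt τ} := by
    simp only [Tt, setOf_forall]
    exact isClosed_iInter fun z => isClosed_iInter fun p => isClosed_iInter fun _ =>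
      (R.closed_Ib hT).preimage ((hT.ctm z).comp (continuous_id.smul continuous_const))
  have cK := hT.hull _ ((hT.cpt (Metric.diam (univ : Set M))).of_isClosed_subset (R.closed_Ib hT)
    fun p hp => R.nr_le_diam hp)
  have := IsClosed.Icc_subset_of_forall_exists_gt (s := {τ | R.Tt τ}) (a := 0) (b := 1)
    (cl.inter isClosed_Icc) (fun z p _ => by simpa using R.zero_mem_Ib z) (by
    rintro τ ⟨h, h0, h1⟩ y hy
    have := cK.eventually_forall_of_forall_eventually (x₀ := τ)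
      (P := fun σ p => R.Good p.proj (σ • tv p)) fun p hp =>
        (hT.csmul.continuousAt (x := (τ, p))).eventually (hB.gopen.mem_nhds
          (R.good_hull hZ hS hT hN hK hF hO hL h h0 h1 _ _ hp))
    obtain ⟨σ, s1, s2⟩ := ((this.filter_mono nhdsWithin_le_nhds).and
      (Ioc_mem_nhdsGT hy : ∀ᶠ σ in 𝓝[>] τ, σ ∈ Ioc τ y)).exists
    exact ⟨σ, fun z p hp => (s1 (tm z p) hp).2.1, s2⟩)
  have T1 : R.Tt 1 := this ⟨zero_le_one, le_rfl⟩
  refine convexHull_eq_self.1 (Subset.antisymm (fun p hp => ?_) (subset_convexHull _ _))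
  simpa using T1 x p hp

theorem convex_Io (hN : R.Near) {x : M} (h : Convex ℝ (R.Ib x)) : Convex ℝ (R.Io x) := by
  rintro u ⟨a, ha, hu⟩ v ⟨b, hb, hv⟩ s t hs ht hst
  have k : ∀ {c : ℝ} {w : En}, 1 < c → min a b ≤ c → c • w ∈ R.Ib x → min a b • w ∈ R.Ib x :=
    fun {c w} hc h1 h2 => by
      have := R.smul_mem_Ib hN h2 (a := min a b / c)
        (div_nonneg (by positivity) (by positivity)) ((div_le_one (by positivity)).2 h1)
      rwa [smul_smul, div_mul_cancel₀ _ (by positivity)] at this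
  refine ⟨min a b, lt_min ha hb, ?_⟩
  have := h (k ha (min_le_left _ _) hu) (k hb (min_le_right _ _) hv) hs ht hst
  rwa [show s • min a b • u + t • min a b • v = min a b • (s • u + t • v) by module] at this

end Vale.Agent.P234.Riem
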