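import Vale.Agent.P234.Y2

/-! Module Y: Taylor expansions of the cost. -/

open scoped Manifold ContDiff Topology
open Set Filter Metric

namespace Vale.Agent.P234
namespace Yt

variable [Dim] {M : Type} [MetricSpace M] [ChartedSpace En M] [IsManifold 𝓘(ℝ, En) ∞ M]

lemma d2near (R : Riem M) (hT : R.Top) {x : M} {v : En} {B : (En × En) × En → ℝ}
    (hB : ContDiffAt ℝ ∞ B (lift x (tm x v), 0)) {ε : ℝ} (hε : 0 < ε) : ∀ᶠ p in 𝓝 (tm x v), ∀ u,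
      |D2 B (lift x p, 0) u u - D2 B (lift x (tm x v), 0) u u| ≤ ε * ‖u‖ ^ 2 :=
  nearB (G := fun p => D2 B (lift x p, 0)) (ContinuousAt.comp (g := D2 B)
    (f := fun p => (lift x p, (0 : En)))
    (d2_smooth (k := 0) (m := 1) hB (by norm_cast) (by norm_num)).continuousAt
    ((lift_cont R hT (p := tm x v) (mem_chart_source En x)).prodMk continuousAt_const)) hε

lemma lb [CompactSpace M] (R : Riem M) (hS : R.Sm) (hT : R.Top) (h1 : R.Near1) (h2 : R.Near)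
    (hB : R.Br) {x : M} {v : En} (hv : R.NC x v) : ∃ C, ∀ᶠ p in 𝓝 (tm x v),
      R.Good p.proj (tv p) → ∀ ξ, |R.H p.proj (tv p) ξ| ≤ C * R.g p.proj ξ ξ := by
  obtain ⟨B, N, b1, n1, n2, n3, -⟩ := setup R hS hT h2 hB hv
  obtain ⟨c, hc, h3⟩ := cmp R x
  refine ⟨(‖D2 B (lift x (tm x v), 0)‖ + 1) * c, ?_⟩
  filter_upwards [n1.mem_nhds n2, d2near R hT b1 one_pos,
    (hT.cproj.continuousAt (x := tm x v)).eventually h3] with p hp h4 h5 hg ξ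
  rw [← (jet R h1 hB h5.1 hg).2.2.2 ξ, tm_eta, ← (congr12 ((n3 p hp).2.2.2 hg)).2.2, mul_assoc]
  refine le_trans ?_ (mul_le_mul_of_nonneg_left (h5.2 ξ) (by positivity))
  have := abs_sub_abs_le_abs_sub (D2 B (lift x p, 0) (D x p.proj ξ) (D x p.proj ξ))
    (D2 B (lift x (tm x v), 0) (D x p.proj ξ) (D x p.proj ξ))
  linarith [h4 (D x p.proj ξ), abs_bil (D2 B (lift x (tm x v), 0)) (D x p.proj ξ)]

lemma ti2 (R : Riem M) (hT : R.Top) (h1 : R.Near1) (hB : R.Br) {x : M} {v : En} (hv : R.Good x v)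
    {ε : ℝ} (hε : 0 < ε) : ∃ r > 0, ∀ᶠ p in 𝓝 (tm x v), R.Good p.proj (tv p) → ∀ ξ,
      R.nr p.proj ξ < r → |cst (R.ex p.proj ξ) (R.ex p.proj (tv p)) - (R.g p.proj (tv p) (tv p) / 2 -
        R.g p.proj (tv p) ξ + R.H p.proj (tv p) ξ / 2)| ≤ ε * R.g p.proj ξ ξ := by
  obtain ⟨c, hc, h3⟩ := cmp R x
  have s := (jet R h1 hB (mem_chart_source En x) hv).1
  have e0 : 0 < ε / (2 * c) := by positivity
  obtain ⟨r, hr, h4⟩ := unif R hT x v (taylor (s.of_le (m := 2) (by norm_cast)) e0)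
  refine ⟨r, hr, ?_⟩
  filter_upwards [h4, d2near R hT s e0, (hT.cproj.continuousAt (x := tm x v)).eventually h3]
    with p h5 h6 h7 hg ξ hξ
  obtain ⟨-, j1, j2, j3⟩ := jet R h1 hB h7.1 hg
  have a1 := h5 ξ hξ
  have a2 := h6 (D x p.proj ξ)
  have a3 := Cp_D R h7.1 (tv p) ξ
  rw [tm_eta] at j1 j2 j3 a3
  simp only [j1, j2, a3] at a1
  rw [j3] at a2
  have a4 : 2 * (ε / (2 * c) * ‖D x p.proj ξ‖ ^ 2) ≤ ε * R.g p.proj ξ ξ := by
    rw [← mul_assoc]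
    refine (mul_le_mul_of_nonneg_left (h7.2 ξ) (by positivity)).trans (le_of_eq ?_)
    field_simp
  have a5 : 0 ≤ ε / (2 * c) * ‖D x p.proj ξ‖ ^ 2 := by positivity
  rw [abs_le] at a1 a2 ⊢
  constructor <;> linarith [a1.1, a1.2, a2.1, a2.2]

lemma first (R : Riem M) (hT : R.Top) (h1 : R.Near1) (h2 : R.Near) (hB : R.Br) {x : M}
    {B : (En × En) × En → ℝ} {N : Set (TM M)} (n1 : IsOpen N)
    (n3 : ∀ p ∈ N, p.proj ∈ (chartAt En x).source ∧ R.NC p.proj (tv p) ∧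
      ContDiffAt ℝ 2 B (lift x p, 0) ∧ (R.Good p.proj (tv p) → B =ᶠ[𝓝 (lift x p, 0)] Cp R x))
    {z : M} {v : En} (hv : tm z v ∈ N) (hi : v ∈ R.Ib z) (ξ : En) :
    D1 B (lift x (tm z v), 0) (D x z ξ) = -R.g z v ξ := by
  have c0 : Tendsto (fun α : ℝ => tm z (α • v)) (𝓝[<] 1) (𝓝 (tm z v)) := by
    have : Continuous fun α : ℝ => tm z (α • v) := (hT.ctm z).comp (by fun_prop)
    simpa using (this.tendsto 1).mono_left nhdsWithin_le_nhds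
  have c1 : ContinuousAt (fun p => D1 B (lift x p, 0) (D x z ξ)) (tm z v) :=
    (ContinuousAt.comp (g := D1 B) (f := fun p => (lift x p, (0 : En)))
      (d1_smooth (m := 1) (n3 _ hv).2.2.1 (by norm_num)).continuousAt
      ((lift_cont R hT (n3 _ hv).1).prodMk continuousAt_const)).clm_apply continuousAt_const
  have c2 : Tendsto (fun α : ℝ => -R.g z (α • v) ξ) (𝓝[<] 1) (𝓝 (-R.g z v ξ)) := by
    have : Continuous fun α : ℝ => -R.g z (α • v) ξ := by fun_prop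
    simpa using (this.tendsto 1).mono_left nhdsWithin_le_nhds
  refine tendsto_nhds_unique (c1.tendsto.comp c0) (c2.congr' ?_)
  filter_upwards [c0.eventually_mem (n1.mem_nhds hv), Ioo_mem_nhdsLT zero_lt_one] with α h3 h4
  have h5 := R.smul_mem_Io hi h4.1.le h4.2
  have hg : R.Good z (α • v) := ⟨(n3 _ h3).2.1, R.Io_subset_Ib h2 z h5, h2.uniq z _ h5⟩
  rw [Function.comp_apply, (congr12 ((n3 _ h3).2.2.2 hg)).2.1, (jet R h1 hB (z := z) (n3 _ h3).1 hg).2.2.1]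

lemma tl [CompactSpace M] (R : Riem M) (hS : R.Sm) (hT : R.Top) (h1 : R.Near1) (h2 : R.Near)
    (hB : R.Br) {x : M} {v₀ : En} (hv : R.NC x v₀) {ε : ℝ} (hε : 0 < ε) :
    ∃ N ∈ 𝓝 (tm x v₀), ∃ r > 0, ∀ z v w ξ v',
    tm z v ∈ N → tm z w ∈ N → v ∈ R.Ib z → R.Good z w → R.nr z ξ < r → tm (R.ex z ξ) v' ∈ N →
    R.ex (R.ex z ξ) v' = R.ex z v →
    R.g z v v / 2 - R.g z v ξ + R.H z w ξ / 2 - ε * R.g z ξ ξ ≤ R.nr (R.ex z ξ) v' ^ 2 / 2 := by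
  obtain ⟨B, N, b1, n1, n2, n3, n4⟩ := setup R hS hT h2 hB hv
  obtain ⟨c, hc, h3⟩ := cmp R x
  have e0 : 0 < ε / (2 * c) := by positivity
  obtain ⟨r, hr, h4⟩ := unif R hT x v₀ ((taylor (b1.of_le (m := 2) (by norm_cast)) e0).and n4)
  refine ⟨_, ((h4.and (d2near R hT b1 e0)).and
    ((hT.cproj.continuousAt (x := tm x v₀)).eventually h3)).and (n1.mem_nhds n2), r, hr, ?_⟩
  rintro z v w ξ v' ⟨⟨⟨h5, -⟩, h7⟩, h8⟩ ⟨⟨⟨-, h6⟩, -⟩, h9⟩ hi hg hξ ⟨-, h10⟩ he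
  have hz : z ∈ (chartAt En x).source := h7.1
  have x1 : ∀ ζ, R.exc x ((lift x (tm z v)).1, D x z ζ) = R.ex z ζ := fun ζ => R.exc_D hz ζ
  have x2 : R.exc x (lift x (tm z v)) = R.ex z v := R.exc_D hz v
  obtain ⟨a1, a2⟩ := h5 ξ hξ
  have a0 := (h5 0 (by simpa using hr)).2
  simp only [tm_proj, x1, x2, R.ex_zero] at a0 a1 a2
  have a3 := a0 v h8 rfl
  rw [map_zero, R.nr_sq] at a3
  rw [a2 v' h10 he, a3, first R hT h1 h2 hB n1 n3 h8 hi] at a1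
  have a6 := h6 (D x z ξ)
  rw [(congr12 ((n3 _ h9).2.2.2 hg)).2.2, (jet R h1 hB hz hg).2.2.2] at a6
  have a4 : 2 * (ε / (2 * c) * ‖D x z ξ‖ ^ 2) ≤ ε * R.g z ξ ξ := by
    rw [← mul_assoc]
    refine (mul_le_mul_of_nonneg_left (h7.2 ξ) (by positivity)).trans (le_of_eq ?_)
    rw [tm_proj]
    field_simp
  have a5 : 0 ≤ ε / (2 * c) * ‖D x z ξ‖ ^ 2 := by positivity
  rw [abs_le] at a1 a6
  linarith [a1.1, a6.2]

end Yt

open Yt in
theorem yStmt [Dim] : YStmt := by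
  intro M _ _ _ _ _ R hS hT h1 h2 hB
  refine ⟨fun x y w hw hy hf => sg R h1 hw hy (hf.differentiableAt one_ne_zero), fun a => ?_,
    fun K hK hg => ⟨?_, fun ε hε => ?_⟩, fun x v hv _ => ?_, fun x v hv _ ε hε => tl R hS hT h1 h2 hB hv hε⟩
  · refine ⟨fun w => D2 (Cp R a) (w, 0), fun w hw => ContinuousAt.continuousWithinAt ?_,
      fun x v hx hg => ⟨?_, fun ξ => ((jet R h1 hB hx hg).2.2.2 ξ).symm⟩⟩
    · have s := (jet R h1 hB ((chartAt En a).map_target hw.1) hw.2).1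
      rw [show lift a (tm ((chartAt En a).symm w.1) (tv (unl a w))) = w from lift_unl hw.1] at s
      exact ContinuousAt.comp (g := D2 (Cp R a)) (f := fun w : En × En => (w, (0 : En)))
        (d2_smooth (k := 0) (m := 1) s (by norm_cast) (by norm_num)).continuousAt (by fun_prop)
    · exact (slice (jet R h1 hB hx hg).1).isSymmSndFDerivAt (by simp; norm_cast)
  · suffices h : ∃ C, ∀ p ∈ K, R.Good p.proj (tv p) → ∀ ξ,
        |R.H p.proj (tv p) ξ| ≤ C * R.g p.proj ξ ξ by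
      obtain ⟨C, h⟩ := h
      exact ⟨C, fun z v ξ hp => h _ hp (hg _ hp) ξ⟩
    refine hK.induction_on (p := fun s => ∃ C, ∀ p ∈ s, R.Good p.proj (tv p) → ∀ ξ,
      |R.H p.proj (tv p) ξ| ≤ C * R.g p.proj ξ ξ) ⟨0, by simp⟩
      (fun s t hst ⟨C, h⟩ => ⟨C, fun p hp => h p (hst hp)⟩) ?_ fun p hp => ?_
    · rintro s t ⟨C, h⟩ ⟨C', h'⟩
      refine ⟨max C C', fun p hp hg ξ => ?_⟩
      rcases hp with hp | hp
      · exact (h p hp hg ξ).trans (mul_le_mul_of_nonneg_right (le_max_left _ _) (R.g_nn _ _))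
      · exact (h' p hp hg ξ).trans (mul_le_mul_of_nonneg_right (le_max_right _ _) (R.g_nn _ _))
    · obtain ⟨C, h⟩ := lb R hS hT h1 h2 hB (hg p hp).1
      exact ⟨_, mem_nhdsWithin_of_mem_nhds h, C, fun p hp => hp⟩
  · suffices h : ∃ r > 0, ∀ p ∈ K, R.Good p.proj (tv p) → ∀ ξ, R.nr p.proj ξ < r →
        |cst (R.ex p.proj ξ) (R.ex p.proj (tv p)) - (R.g p.proj (tv p) (tv p) / 2 -
          R.g p.proj (tv p) ξ + R.H p.proj (tv p) ξ / 2)| ≤ ε * R.g p.proj ξ ξ by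
      obtain ⟨r, hr, h⟩ := h
      exact ⟨r, hr, fun z v ξ hp => h _ hp (hg _ hp) ξ⟩
    refine hK.induction_on (p := fun s => ∃ r > 0, ∀ p ∈ s, R.Good p.proj (tv p) → ∀ ξ,
      R.nr p.proj ξ < r → |cst (R.ex p.proj ξ) (R.ex p.proj (tv p)) -
        (R.g p.proj (tv p) (tv p) / 2 - R.g p.proj (tv p) ξ + R.H p.proj (tv p) ξ / 2)| ≤
          ε * R.g p.proj ξ ξ) ⟨1, one_pos, by simp⟩
      (fun s t hst ⟨r, hr, h⟩ => ⟨r, hr, fun p hp => h p (hst hp)⟩) ?_ fun p hp => ?_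
    · rintro s t ⟨r, hr, h⟩ ⟨r', hr', h'⟩
      refine ⟨min r r', lt_min hr hr', fun p hp hg ξ hξ => ?_⟩
      rcases hp with hp | hp
      · exact h p hp hg ξ (hξ.trans_le (min_le_left _ _))
      · exact h' p hp hg ξ (hξ.trans_le (min_le_right _ _))
    · obtain ⟨r, hr, h⟩ := ti2 R hT h1 hB (hg p hp) hε
      exact ⟨_, mem_nhdsWithin_of_mem_nhds h, r, hr, fun p hp => hp⟩
  · obtain ⟨C, h⟩ := lb R hS hT h1 h2 hB hv
    exact ⟨_, h, C, fun z w ξ hp hg => hp hg ξ⟩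

end Vale.Agent.P234
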