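import Vale.Agent.P234.Base

/-! Module Y, generic calculus: uniform second order Taylor expansion with parameters. -/

open scoped ContDiff Topology
open Set Filter Metric

namespace Vale.Agent.P234
namespace Yt

variable {P F : Type} [NormedAddCommGroup P] [NormedSpace ℝ P] [NormedAddCommGroup F]
  [NormedSpace ℝ F]

noncomputable def D1 (B : P × F → ℝ) (q : P × F) : F →L[ℝ] ℝ := fderiv ℝ (fun ξ => B (q.1, ξ)) q.2

noncomputable def D2 (B : P × F → ℝ) (q : P × F) : F →L[ℝ] F →L[ℝ] ℝ :=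
  fderiv ℝ (fderiv ℝ fun ξ => B (q.1, ξ)) q.2

lemma d1_smooth {B : P × F → ℝ} {q : P × F} {m n : ℕ∞ω} (h : ContDiffAt ℝ n B q) (hmn : m + 1 ≤ n) :
    ContDiffAt ℝ m (D1 B) q := by
  refine ContDiffAt.fderiv (f := fun (q : P × F) ξ => B (q.1, ξ)) (g := Prod.snd) ?_
    contDiffAt_snd hmn
  exact ContDiffAt.comp (q, q.2) (g := B) (f := fun s : (P × F) × F => (s.1.1, s.2)) h (by fun_prop)

lemma d2_smooth {B : P × F → ℝ} {q : P × F} {k m n : ℕ∞ω} (h : ContDiffAt ℝ n B q)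
    (hmn : m + 1 ≤ n) (hkm : k + 1 ≤ m) : ContDiffAt ℝ k (D2 B) q := by
  refine ContDiffAt.fderiv (f := fun (q : P × F) ξ => D1 B (q.1, ξ)) (g := Prod.snd) ?_
    contDiffAt_snd hkm
  exact ContDiffAt.comp (q, q.2) (g := D1 B) (f := fun s : (P × F) × F => (s.1.1, s.2))
    (d1_smooth h hmn) (by fun_prop)

lemma slice {B : P × F → ℝ} {q : P × F} {n : ℕ∞ω} (h : ContDiffAt ℝ n B q) :
    ContDiffAt ℝ n (fun ξ => B (q.1, ξ)) q.2 :=
  ContDiffAt.comp q.2 (g := B) (f := fun ξ : F => (q.1, ξ)) h (by fun_prop)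

omit [NormedSpace ℝ P] in
lemma congr12 {B B' : P × F → ℝ} {q : P × F} (h : B =ᶠ[𝓝 q] B') :
    B q = B' q ∧ D1 B q = D1 B' q ∧ D2 B q = D2 B' q := by
  have h1 : (fun ξ => B (q.1, ξ)) =ᶠ[𝓝 q.2] fun ξ => B' (q.1, ξ) :=
    (show ContinuousAt (fun ξ : F => (q.1, ξ)) q.2 by fun_prop).eventually h
  exact ⟨h.eq_of_nhds, h1.fderiv_eq, h1.fderiv.fderiv_eq⟩

lemma line2 {k : F → ℝ} (hk : ContDiffAt ℝ 2 k 0) (ζ : F) :
    deriv (deriv fun t : ℝ => k (t • ζ)) 0 = fderiv ℝ (fderiv ℝ k) 0 ζ ζ := by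
  have c : ContinuousAt (fun t : ℝ => t • ζ) 0 := by fun_prop
  have l : ∀ t : ℝ, HasDerivAt (fun t : ℝ => t • ζ) ζ t := fun t => by
    simpa using (hasDerivAt_id t).smul_const ζ
  have e : (deriv fun t : ℝ => k (t • ζ)) =ᶠ[𝓝 0] fun t => fderiv ℝ k (t • ζ) ζ := by
    have := hk.eventually (by simp)
    rw [← zero_smul ℝ ζ] at this
    filter_upwards [c.eventually this] with t ht
    exact ((ht.differentiableAt (by simp)).hasFDerivAt.comp_hasDerivAt t (l t)).deriv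
  rw [e.deriv_eq]
  have h2 : HasFDerivAt (fderiv ℝ k) (fderiv ℝ (fderiv ℝ k) 0) ((0 : ℝ) • ζ) := by
    rw [zero_smul]
    exact ((hk.fderiv_right (m := 1) (by norm_num)).differentiableAt (by simp)).hasFDerivAt
  have h3 : HasDerivAt (fun t : ℝ => fderiv ℝ k (t • ζ)) (fderiv ℝ (fderiv ℝ k) 0 ζ) 0 :=
    h2.comp_hasDerivAt (0 : ℝ) (l 0)
  have h4 := h3.clm_apply (hasDerivAt_const (0 : ℝ) ζ)
  rw [map_zero, add_zero] at h4
  exact h4.deriv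

lemma near2 {B : P × F → ℝ} {q₀ : P × F} (h : ContDiffAt ℝ 2 B q₀) {ε : ℝ} (hε : 0 < ε) :
    ∀ᶠ q in 𝓝 q₀, ‖D2 B q - D2 B q₀‖ ≤ ε := by
  have c1 := (d2_smooth (k := 0) (m := 1) h (by norm_num) (by norm_num)).continuousAt
  have c2 := (Metric.continuousAt_iff' (β := P × F) (α := F →L[ℝ] F →L[ℝ] ℝ)).1 c1 ε hε
  exact c2.mono fun q hq =>
    le_of_eq_of_le (dist_eq_norm (E := F →L[ℝ] F →L[ℝ] ℝ) (D2 B q) (D2 B q₀)).symm hq.le

lemma taylor {B : P × F → ℝ} {p₀ : P} (h : ContDiffAt ℝ 2 B (p₀, 0)) {ε : ℝ} (hε : 0 < ε) :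
    ∀ᶠ q in 𝓝 (p₀, (0 : F)), |B q - (B (q.1, 0) + D1 B (q.1, 0) q.2 +
      D2 B (p₀, 0) q.2 q.2 / 2)| ≤ ε * ‖q.2‖ ^ 2 := by
  set Q := D2 B (p₀, 0)
  obtain ⟨δ, hδ, h1⟩ := Metric.eventually_nhds_iff_ball.1
    ((h.eventually (by simp)).and (near2 h hε))
  filter_upwards [ball_mem_nhds _ hδ] with q hq
  obtain ⟨p, ξ⟩ := q
  rw [← ball_prod_same] at hq h1
  have m : ∀ t ∈ Icc (0 : ℝ) 1, t • ξ ∈ ball (0 : F) δ := fun t ht => by
    have := (convex_ball (0 : F) δ).smul_mem_of_zero_mem (mem_ball_self hδ) hq.2 ht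
    exact this
  have a1 : ∀ ζ ∈ ball (0 : F) δ, HasFDerivAt (fun ζ => B (p, ζ)) (D1 B (p, ζ)) ζ := fun ζ hζ =>
    ((slice (h1 (p, ζ) ⟨hq.1, hζ⟩).1).differentiableAt (by simp)).hasFDerivAt
  have a2 : ∀ ζ ∈ ball (0 : F) δ, HasFDerivAt (fun ζ => D1 B (p, ζ)) (D2 B (p, ζ)) ζ := fun ζ hζ =>
    (((slice (h1 (p, ζ) ⟨hq.1, hζ⟩).1).fderiv_right (m := 1) (by norm_num)).differentiableAt
      (by simp)).hasFDerivAt
  have a3 : ∀ ζ ∈ ball (0 : F) δ, ‖D1 B (p, ζ) - D1 B (p, 0) - Q (ζ - 0)‖ ≤ ε * ‖ζ - 0‖ :=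
    fun ζ hζ => (convex_ball (0 : F) δ).norm_image_sub_le_of_norm_hasFDerivWithin_le'
      (f := fun ζ => D1 B (p, ζ)) (fun z hz => (a2 z hz).hasFDerivWithinAt)
      (fun z hz => (h1 (p, z) ⟨hq.1, hz⟩).2) (mem_ball_self hδ) hζ
  have l : ∀ t : ℝ, HasDerivAt (fun t : ℝ => t • ξ) ξ t := fun t => by
    simpa using (hasDerivAt_id t).smul_const ξ
  have a4 : ∀ t ∈ Icc (0 : ℝ) 1, HasDerivWithinAt
      (fun t : ℝ => B (p, t • ξ) - t * D1 B (p, 0) ξ - t ^ 2 * (Q ξ ξ / 2))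
      ((D1 B (p, t • ξ) - D1 B (p, 0) - Q (t • ξ - 0)) ξ) (Icc 0 1) t := fun t ht => by
    refine ((((a1 _ (m t ht)).comp_hasDerivAt t (l t)).sub ((hasDerivAt_id t).mul_const _)).sub
      ((hasDerivAt_pow 2 t).mul_const _)).hasDerivWithinAt.congr_deriv ?_
    simp
    ring
  have a5 := norm_image_sub_le_of_norm_deriv_le_segment_01' (C := ε * ‖ξ‖ ^ 2) a4 fun t ht => by
    refine (ContinuousLinearMap.le_opNorm _ _).trans ?_
    refine (mul_le_mul_of_nonneg_right (a3 _ (m t (Ico_subset_Icc_self ht))) (norm_nonneg _)).trans ?_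
    rw [sub_zero, norm_smul, Real.norm_of_nonneg ht.1, sq, mul_assoc]
    gcongr
    exact mul_le_of_le_one_left (norm_nonneg _) ht.2.le
  simp only [one_smul, zero_smul, Real.norm_eq_abs] at a5
  refine le_of_eq_of_le (congrArg _ ?_) a5
  ring

lemma der_nonneg {k : ℝ → ℝ} {k' : ℝ} (h : HasDerivAt k k' 0) (h1 : ∀ t ∈ Ioo (0 : ℝ) 1, k 0 ≤ k t) :
    0 ≤ k' := by
  refine ge_of_tendsto h.tendsto_slope_zero_right ?_
  filter_upwards [Ioo_mem_nhdsGT zero_lt_one] with t ht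
  rw [zero_add, smul_eq_mul]
  exact mul_nonneg (inv_nonneg.2 ht.1.le) (sub_nonneg.2 (h1 t ht))

lemma abs_bil (Q : F →L[ℝ] F →L[ℝ] ℝ) (u : F) : |Q u u| ≤ ‖Q‖ * ‖u‖ ^ 2 := by
  have := Q.le_opNorm₂ u u
  rwa [Real.norm_eq_abs, mul_assoc, ← sq] at this

lemma coer [FiniteDimensional ℝ F] (Q : F →L[ℝ] F →L[ℝ] ℝ) (h : ∀ u, u ≠ 0 → 0 < Q u u) :
    ∃ c > 0, ∀ u, c * ‖u‖ ^ 2 ≤ Q u u := by
  have : ProperSpace F := FiniteDimensional.proper_real F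
  obtain ⟨c, hc, h1⟩ := (isCompact_sphere (0 : F) 1).exists_forall_le' (f := fun v => Q v v)
    (Q.continuous₂.comp (continuous_id.prodMk continuous_id)).continuousOn (a := 0)
    fun v hv => h v (Metric.ne_of_mem_sphere hv one_ne_zero)
  refine ⟨c, hc, fun u => ?_⟩
  rcases eq_or_ne u 0 with rfl | hu
  · simp
  have v0 : 0 < ‖u‖ := norm_pos_iff.2 hu
  have := h1 (‖u‖⁻¹ • u) (by simp [norm_smul, inv_mul_cancel₀ v0.ne'])
  simp only [map_smul, smul_apply, smul_eq_mul] at this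
  rw [← mul_assoc, ← mul_inv, ← div_eq_inv_mul, le_div_iff₀ (by positivity)] at this
  rwa [sq]

end Yt
end Vale.Agent.P234
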