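import Vale.Agent.P234.Y1

/-! Module Y, geometric lemmas. -/

open scoped Manifold ContDiff Topology
open Set Filter Metric

namespace Vale.Agent.P234
namespace Yt

variable [Dim] {M : Type} [MetricSpace M] [ChartedSpace En M]

lemma nearB {X : Type} [TopologicalSpace X] {G : X → Bil} {x : X} (h : ContinuousAt G x) {ε : ℝ}
    (hε : 0 < ε) : ∀ᶠ z in 𝓝 x, ∀ u, |G z u u - G x u u| ≤ ε * ‖u‖ ^ 2 := by
  filter_upwards [(Metric.continuousAt_iff' (β := X) (α := Bil)).1 h ε hε] with z hz u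
  have h1 : ‖G z - G x‖ ≤ ε := le_of_eq_of_le (dist_eq_norm (E := Bil) (G z) (G x)).symm hz.le
  exact (abs_bil (G z - G x) u).trans (mul_le_mul_of_nonneg_right h1 (sq_nonneg _))

lemma sg (R : Riem M) (h1 : R.Near1) {x y : M} {w : En} (hw : w ∈ R.Ib x) (hy : R.ex x w = y)
    (hf : DifferentiableAt ℝ (fun ξ => cst (R.ex x ξ) y) 0) (u : En) :
    fderiv ℝ (fun ξ => cst (R.ex x ξ) y) 0 u = -R.g x w u := by
  set L := fderiv ℝ (fun ξ => cst (R.ex x ξ) y) 0
  set a := R.nr x w with ha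
  have a0 : 0 ≤ a := R.nr_nn x w
  have e0 : dist x y = a := hy ▸ hw
  have hd : ∀ u, HasDerivAt (fun t : ℝ => cst (R.ex x (t • u)) y) (L u) 0 := fun u => by
    have l : HasDerivAt (fun t : ℝ => t • u) u 0 := by simpa using (hasDerivAt_id (0 : ℝ)).smul_const u
    have h2 : HasFDerivAt (fun ξ => cst (R.ex x ξ) y) L ((0 : ℝ) • u) := by
      rw [zero_smul]; exact hf.hasFDerivAt
    exact h2.comp_hasDerivAt (0 : ℝ) l
  have A : ∀ u, 0 ≤ L u + 1 * ((a ^ 2 + R.g x u u) / 2) := fun u => by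
    refine der_nonneg ((hd u).add ((hasDerivAt_id (0 : ℝ)).mul_const _)) fun t ht => ?_
    have b := h1.up x u 0 t
    rw [R.geo_zero, zero_sub, abs_neg, abs_of_pos ht.1, ← R.ex_smul] at b
    have c := dist_triangle x (R.ex x (t • u)) y
    simp only [Pi.add_apply, zero_smul, R.ex_zero, cst, id, e0, ← R.nr_sq x u] at c ⊢
    nlinarith [sq_nonneg (a - dist (R.ex x (t • u)) y), mul_nonneg ht.1.le (sq_nonneg (a - R.nr x u)),
      mul_le_mul_of_nonneg_left (c.trans (add_le_add b le_rfl)) a0]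
  have B : 0 ≤ (2 : ℕ) * (1 - (0 : ℝ)) ^ (2 - 1) * (-1) * (a ^ 2 / 2) - L w := by
    refine der_nonneg (((((hasDerivAt_id (0 : ℝ)).const_sub 1).pow 2).mul_const _).sub (hd w))
      fun t ht => ?_
    have b := h1.up x w t 1
    rw [abs_sub_comm, abs_of_pos (sub_pos.2 ht.2), ← R.ex_smul, ← ha] at b
    change dist _ (R.ex x w) ≤ _ at b
    rw [hy] at b
    simp only [Pi.sub_apply, Pi.pow_apply, zero_smul, R.ex_zero, cst, id, e0]
    nlinarith [pow_le_pow_left₀ dist_nonneg b 2]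
  have C : ∀ t : ℝ, 0 ≤ R.g x u u / 2 * (t * t) + (L u + R.g x w u) * t + 0 := fun t => by
    have := A (w + t • u)
    simp only [map_add, map_smul, add_apply, smul_apply, smul_eq_mul, R.g_symm x u w,
      ← R.nr_sq x w, ← ha] at this
    norm_num at B
    linarith
  have := discrim_le_zero C
  rw [discrim] at this
  nlinarith [sq_nonneg (L u + R.g x w u)]

variable [IsManifold 𝓘(ℝ, En) ∞ M]

/-- the cost in a chart, with the base vector as parameter -/
noncomputable def Cp (R : Riem M) (a : M) (q : (En × En) × En) : ℝ := R.Cc a (q.1.1, q.1.2, q.2)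

lemma Cp_D (R : Riem M) {a z : M} (hz : z ∈ (chartAt En a).source) (v ξ : En) :
    Cp R a (lift a (tm z v), D a z ξ) = cst (R.ex z ξ) (R.ex z v) := by
  simp only [Cp, Riem.Cc, lift, tm_proj, tv_tm, R.exc_D hz]

lemma jet (R : Riem M) (h1 : R.Near1) (hB : R.Br) {a z : M} (hz : z ∈ (chartAt En a).source)
    {v : En} (hg : R.Good z v) : ContDiffAt ℝ ∞ (Cp R a) (lift a (tm z v), 0) ∧
      Cp R a (lift a (tm z v), 0) = R.g z v v / 2 ∧
      (∀ ξ, D1 (Cp R a) (lift a (tm z v), 0) (D a z ξ) = -R.g z v ξ) ∧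
      ∀ ξ, D2 (Cp R a) (lift a (tm z v), 0) (D a z ξ) (D a z ξ) = R.H z v ξ := by
  have s : ContDiffAt ℝ ∞ (Cp R a) (lift a (tm z v), 0) :=
    ContDiffAt.comp (lift a (tm z v), (0 : En)) (g := R.Cc a)
      (f := fun q : (En × En) × En => (q.1.1, q.1.2, q.2)) (hB.smc a z v hz hg) (by fun_prop)
  have k := slice s
  refine ⟨s, ?_, fun ξ => ?_, fun ξ => ?_⟩
  · rw [← map_zero (D a z), Cp_D R hz, R.ex_zero, R.cst_of_Ib hg.2.1]
  · have h2 : HasFDerivAt (fun ζ => Cp R a (lift a (tm z v), ζ))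
        (D1 (Cp R a) (lift a (tm z v), 0)) (D a z 0) := by
      rw [map_zero]; exact (k.differentiableAt (by simp)).hasFDerivAt
    have h3 := h2.comp (0 : En) (D a z).hasFDerivAt
    simp only [Function.comp_def, Cp_D R hz] at h3
    rw [← sg R h1 hg.2.1 rfl h3.differentiableAt, h3.fderiv]
    rfl
  · have := line2 (k.of_le (m := 2) (by norm_cast)) (D a z ξ)
    simp only [← map_smul, Cp_D R hz] at this
    exact this.symm

lemma cmp (R : Riem M) (x : M) : ∃ c > 0, ∀ᶠ z in 𝓝 x, z ∈ (chartAt En x).source ∧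
    ∀ ξ, ‖D x z ξ‖ ^ 2 ≤ c * R.g z ξ ξ := by
  have hx := mem_chart_target En x
  obtain ⟨c, hc, h1⟩ := coer (locB R.g x (chartAt En x x)) ((R.cf.cm x).pos _ hx)
  have c1 : ContinuousAt (fun z => locB R.g x (chartAt En x z)) x :=
    ContinuousAt.comp (g := locB R.g x) ((R.cf.cm x).smooth.continuousOn.continuousAt
      ((chartAt En x).open_target.mem_nhds hx)) ((chartAt En x).continuousAt (mem_chart_source En x))
  refine ⟨2 / c, by positivity, ?_⟩
  filter_upwards [nearB c1 (half_pos hc), chart_source_mem_nhds En x] with z h2 hz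
  refine ⟨hz, fun ξ => ?_⟩
  have h3 := (abs_le.1 (h2 (D x z ξ))).1
  rw [R.cf.pull x z hz] at h3
  rw [div_mul_eq_mul_div, le_div_iff₀ hc]
  linarith [h1 (D x z ξ)]

lemma lift_cont (R : Riem M) (hT : R.Top) {a : M} {p : TM M} (hp : p.proj ∈ (chartAt En a).source) :
    ContinuousAt (lift a) p :=
  (hT.clift a).continuousAt (((chartAt En a).open_source.preimage hT.cproj).mem_nhds hp)

lemma unif (R : Riem M) (hT : R.Top) (x : M) (v : En) {Q : (En × En) × En → Prop}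
    (hQ : ∀ᶠ q in 𝓝 (lift x (tm x v), (0 : En)), Q q) :
    ∃ r > 0, ∀ᶠ p in 𝓝 (tm x v), ∀ ξ, R.nr p.proj ξ < r → Q (lift x p, D x p.proj ξ) := by
  obtain ⟨c, hc, h1⟩ := cmp R x
  obtain ⟨δ, hδ, h2⟩ := Metric.eventually_nhds_iff_ball.1 hQ
  rw [← ball_prod_same] at h2
  refine ⟨δ / √c, by positivity, ?_⟩
  filter_upwards [(lift_cont R hT (p := tm x v) (mem_chart_source En x)).eventually_mem
    (ball_mem_nhds _ hδ), (hT.cproj.continuousAt (x := tm x v)).eventually h1] with p h3 h4 ξ hξ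
  refine h2 _ ⟨h3, mem_ball_zero_iff.2 (lt_of_pow_lt_pow_left₀ 2 hδ.le ((h4.2 ξ).trans_lt ?_))⟩
  rw [lt_div_iff₀ (by positivity)] at hξ
  have := pow_lt_pow_left₀ hξ (mul_nonneg (R.nr_nn _ _) (Real.sqrt_nonneg _)) two_ne_zero
  rwa [mul_pow, R.nr_sq, Real.sq_sqrt hc.le, mul_comm] at this

lemma usc [CompactSpace M] (R : Riem M) (hT : R.Top) {z : M} {w : En} (hg : R.Good z w)
    {N : Set (TM M)} (hN : IsOpen N) (hw : tm z w ∈ N) : ∀ᶠ s in 𝓝 (z, R.ex z w),
      ∀ u ∈ R.Ib s.1, R.ex s.1 u = s.2 → tm s.1 u ∈ N := by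
  have := hT.t2
  have k : IsCompact ({p : TM M | dist p.proj (R.ex p.proj (tv p)) = R.nr p.proj (tv p)} ∩ Nᶜ) :=
    (hT.cpt (diam univ)).of_isClosed_subset
      ((isClosed_eq (hT.cproj.dist hT.cex) hT.cnr).inter hN.isClosed_compl)
      fun p hp => R.nr_le_diam hp.1
  have c := (k.image (hT.cproj.prodMk hT.cex)).isClosed.isOpen_compl.mem_nhds
    (x := (z, R.ex z w)) (by
      rintro ⟨p, ⟨h1, h2⟩, h3⟩
      obtain ⟨z', u⟩ := p
      obtain ⟨rfl, h4⟩ := Prod.mk.inj h3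
      exact h2 ((hg.2.2 u h1 h4) ▸ hw))
  filter_upwards [c] with s hs u hu he
  by_contra hn
  exact hs ⟨tm s.1 u, ⟨hu, hn⟩, Prod.ext rfl he⟩

lemma setup [CompactSpace M] (R : Riem M) (hS : R.Sm) (hT : R.Top) (h2 : R.Near) (hB : R.Br)
    {x : M} {v : En} (hv : R.NC x v) : ∃ (B : (En × En) × En → ℝ) (N : Set (TM M)),
      ContDiffAt ℝ ∞ B (lift x (tm x v), 0) ∧ IsOpen N ∧ tm x v ∈ N ∧
      (∀ p ∈ N, p.proj ∈ (chartAt En x).source ∧ R.NC p.proj (tv p) ∧
        ContDiffAt ℝ 2 B (lift x p, 0) ∧ (R.Good p.proj (tv p) → B =ᶠ[𝓝 (lift x p, 0)] Cp R x)) ∧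
      ∀ᶠ q in 𝓝 (lift x (tm x v), (0 : En)), ∀ v', tm (R.exc x (q.1.1, q.2)) v' ∈ N →
        R.ex (R.exc x (q.1.1, q.2)) v' = R.exc x q.1 → B q = R.nr (R.exc x (q.1.1, q.2)) v' ^ 2 / 2 := by
  obtain ⟨B, b1, b2⟩ := hB.br x v hv
  obtain ⟨N0, n0, n1⟩ := hB.linj (tm x v) hv
  have e : lift x (tm x v) = (chartAt En x x, v) := by simp [lift, R.cf.self]
  have c0 : ContDiffAt ℝ ∞ (fun q : (En × En) × En => (q.1.1, q.1.2, q.2)) (lift x (tm x v), 0) := by
    fun_prop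
  have b3 : ContDiffAt ℝ ∞ (fun q : (En × En) × En => B (q.1.1, q.1.2, q.2)) (lift x (tm x v), 0) :=
    ContDiffAt.comp (g := B) _ (by rw [e]; exact b1) c0
  have b4 : ∀ᶠ q in 𝓝 (lift x (tm x v), (0 : En)), ∀ v', tm (R.exc x (q.1.1, q.2)) v' ∈ interior N0 →
      R.ex (R.exc x (q.1.1, q.2)) v' = R.exc x q.1 →
        B (q.1.1, q.1.2, q.2) = R.nr (R.exc x (q.1.1, q.2)) v' ^ 2 / 2 := by
    have := b2 N0 n0
    rw [show ((chartAt En x x, v, 0) : En × En × En) = (fun q : (En × En) × En =>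
      (q.1.1, q.1.2, q.2)) (lift x (tm x v), 0) by rw [e]] at this
    filter_upwards [c0.continuousAt.eventually this] with q ⟨u, u1, u2, u3⟩ v' h3 h4
    rw [u3, n1 _ _ _ u1 (interior_subset h3) (u2.trans h4.symm)]
  have l0 : ContinuousAt (fun p => (lift x p, (0 : En))) (tm x v) :=
    (lift_cont R hT (p := tm x v) (mem_chart_source En x)).prodMk continuousAt_const
  obtain ⟨N, N1, N2, N3⟩ := eventually_nhds_iff.1
    ((l0.eventually (((b3.of_le (m := 2) (by norm_cast)).eventually (by simp)).and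
      b4.eventually_nhds)).and (((hT.cproj.continuousAt (x := tm x v)).eventually_mem
      (chart_source_mem_nhds En x)).and ((show ∀ᶠ p in 𝓝 (tm x v), R.NC p.proj (tv p) from
        hB.ncopen.mem_nhds hv).and (show ∀ᶠ p in 𝓝 (tm x v), p ∈ interior N0 from
          interior_mem_nhds.2 n0))))
  refine ⟨_, N, b3, N2, N3, fun p hp => ⟨(N1 p hp).2.1, (N1 p hp).2.2.1, (N1 p hp).1.1, fun hg => ?_⟩,
    b4.mono fun q hq v' h3 => hq v' (N1 _ h3).2.2.2⟩
  have hz := (N1 p hp).2.1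
  have ht := (chartAt En x).map_source hz
  have c1 : ContinuousAt (fun q : (En × En) × En => (R.exc x (q.1.1, q.2), R.exc x q.1))
      (lift x p, 0) :=
    (ContinuousAt.comp (g := R.exc x) (f := fun q : (En × En) × En => (q.1.1, q.2))
      (hS.sm x (_, 0) ht).1 (by fun_prop)).prodMk
      (ContinuousAt.comp (g := R.exc x) (f := fun q : (En × En) × En => q.1)
        (hS.sm x (lift x p) ht).1 (by fun_prop))
  have e1 : (R.exc x ((lift x p).1, 0), R.exc x (lift x p)) = (p.proj, R.ex p.proj (tv p)) := by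
    rw [← map_zero (D x p.proj)]
    simp only [lift, R.exc_D hz, R.ex_zero]
  have u := usc R hT hg isOpen_interior (N1 p hp).2.2.2
  rw [← e1] at u
  filter_upwards [c1.eventually u, (N1 p hp).1.2] with q h3 h4
  obtain ⟨u, u1, u2⟩ := h2.hr (R.exc x (q.1.1, q.2)) (R.exc x q.1)
  rw [h4 u (h3 u u1 u2) u2, ← show dist _ _ = _ from u1, u2]
  rfl

end Yt
end Vale.Agent.P234
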