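import Vale.Agent.P234.Spec

/-! Module Z of P234: the continuity method. -/

open scoped Topology
open Set Filter

namespace Vale.Agent.P234

namespace Zm

variable {X M : Type} [TopologicalSpace X] [TopologicalSpace M] [T2Space M]

lemma opn {E : ℝ → X → M} {Z : ℝ → Set X} {σ τ₁ τ₀ : ℝ}
    (hE : Continuous fun w : ℝ × X => E w.1 w.2) (hK : IsCompact (Z σ))
    (hm : ∀ τ τ', σ ≤ τ → τ ≤ τ' → τ' ≤ τ₁ → Z τ' ⊆ Z τ)
    (hs : ∀ τ ∈ Icc σ τ₁, ∀ y, ∃ a ∈ Z τ, E τ a = y)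
    (hl : ∀ a₀ ∈ Z σ, ∃ N ∈ 𝓝 (τ₀, a₀), ∀ τ ∈ Icc σ τ₁, ∀ a ∈ Z τ, ∀ b ∈ Z σ,
      (τ, a) ∈ N → (τ, b) ∈ N → E τ a = E τ b → a = b)
    (hP : InjOn (E τ₀) (Z σ)) : ∀ᶠ τ in 𝓝 τ₀, τ ∈ Icc σ τ₁ → InjOn (E τ) (Z σ) := by
  have h := (hK.prod hK).eventually_forall_of_forall_eventually (x₀ := τ₀)
    (P := fun τ (p : X × X) => τ ∈ Icc σ τ₁ → p.1 ∈ Z τ → p.2 ∈ Z σ → E τ p.1 = E τ p.2 → p.1 = p.2)
    (by
      rintro ⟨a, b⟩ ⟨ha, hb⟩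
      have c1 : Continuous fun z : ℝ × X × X => (z.1, z.2.1) := by fun_prop
      have c2 : Continuous fun z : ℝ × X × X => (z.1, z.2.2) := by fun_prop
      by_cases hab : E τ₀ a = E τ₀ b
      · obtain rfl : a = b := hP ha hb hab
        obtain ⟨N, hN, hN'⟩ := hl a ha
        filter_upwards [c1.continuousAt.preimage_mem_nhds (x := (τ₀, a, a)) hN,
          c2.continuousAt.preimage_mem_nhds (x := (τ₀, a, a)) hN] with z h1 h2 k1 k2 k3 k4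
        exact hN' _ k1 _ k2 _ k3 h1 h2 k4
      · have ho : IsOpen {z : ℝ × X × X | E z.1 z.2.1 ≠ E z.1 z.2.2} :=
          isOpen_ne_fun (hE.comp c1) (hE.comp c2)
        filter_upwards [ho.mem_nhds (x := (τ₀, a, b)) hab] with z h1 _ _ _ k4
        exact absurd k4 h1)
  filter_upwards [h] with τ hτ hI a ha b hb hab
  obtain ⟨c, hc, hy⟩ := hs τ hI (E τ a)
  have hc' := hm σ τ le_rfl hI.1 hI.2 hc
  have e1 : c = a := hτ (c, a) ⟨hc', ha⟩ hI hc ha hy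
  have e2 : c = b := hτ (c, b) ⟨hc', hb⟩ hI hc hb (hy.trans hab)
  rw [← e1, ← e2]

lemma cls [T2Space X] [LocallyConnectedSpace M] {E : ℝ → X → M} {K : Set X} {σ τ₀ : ℝ}
    (hσ : σ < τ₀) (hE : Continuous fun w : ℝ × X => E w.1 w.2) (hK : IsCompact K)
    (hs : ∀ τ ∈ Ico σ τ₀, ∀ y, ∃ a ∈ K, E τ a = y)
    (hl : ∀ a ∈ K, ∃ W ∈ 𝓝 a, ∀ b ∈ K, b ∈ W → E τ₀ a = E τ₀ b → a = b)
    (hP : ∀ τ ∈ Ico σ τ₀, InjOn (E τ) K) : InjOn (E τ₀) K := by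
  intro a ha b hb hab
  by_contra hne
  obtain ⟨W, hW, hW'⟩ := hl a ha
  have hc1 : IsCompact (K \ interior W) := hK.diff isOpen_interior
  obtain ⟨U', U, hU', hU, h1, h2, h3⟩ := hc1.separation_of_notMem (x := a)
    fun h => h.2 (mem_interior_iff_mem_nhds.2 hW)
  have hC : IsCompact (K \ U') := hK.diff hU'
  have hD : IsCompact (K \ U) := hK.diff hU
  have hB : IsCompact ((K \ U') ∩ (K \ U)) := hC.inter_right hD.isClosed
  have haC : a ∈ K \ U' := ⟨ha, fun h => Set.disjoint_left.1 h3 h h2⟩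
  have hbD : b ∈ K \ U := ⟨hb, fun h => Set.disjoint_left.1 h3
    (h1 ⟨hb, fun k => hne (hW' b hb (interior_subset k) hab)⟩) h⟩
  have h := hB.eventually_forall_of_forall_eventually (x₀ := (τ₀, E τ₀ a))
    (P := fun (w : ℝ × M) c => E w.1 c ≠ w.2) (by
      intro c hc
      have c1 : Continuous fun z : (ℝ × M) × X => (z.1.1, z.2) := by fun_prop
      have ho : IsOpen {z : (ℝ × M) × X | E z.1.1 z.2 ≠ z.1.2} :=
        isOpen_ne_fun (hE.comp c1) (by fun_prop)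
      refine ho.mem_nhds fun k => ?_
      have hcW : c ∈ W := by
        by_contra k2
        exact hc.1.2 (h1 ⟨hc.1.1, fun k3 => k2 (interior_subset k3)⟩)
      have : a = c := hW' c hc.1.1 hcW (Eq.symm k)
      exact hc.2.2 (this ▸ h2))
  rw [nhds_prod_eq] at h
  obtain ⟨pa, hpa, pb, hpb, hp⟩ := eventually_prod_iff.1 h
  obtain ⟨V, hVs, hVo, hVy, hVc⟩ := locallyConnectedSpace_iff_subsets_isOpen_isConnected.1
    inferInstance (E τ₀ a) _ hpb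
  have ca : ∀ c, ContinuousAt (fun τ => E τ c) τ₀ := fun c =>
    (hE.comp (Continuous.prodMk_left c)).continuousAt
  have e1 : ∀ᶠ τ in 𝓝[<] τ₀, E τ a ∈ V :=
    ((ca a).eventually (hVo.mem_nhds hVy)).filter_mono nhdsWithin_le_nhds
  have e2 : ∀ᶠ τ in 𝓝[<] τ₀, E τ b ∈ V :=
    ((ca b).eventually (hVo.mem_nhds (show E τ₀ b ∈ V from hab ▸ hVy))).filter_mono nhdsWithin_le_nhds
  obtain ⟨τ, ⟨⟨k1, k2⟩, k3⟩, k4⟩ := (((e1.and e2).and (hpa.filter_mono nhdsWithin_le_nhds)).and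
    (Ico_mem_nhdsLT hσ)).exists
  have cτ : Continuous (E τ) := hE.comp (Continuous.prodMk_right τ)
  obtain ⟨y, hyV, ⟨c, hc, hcy⟩, c', hc', hcy'⟩ := isPreconnected_closed_iff.1 hVc.isPreconnected
    _ _ (hC.image cτ).isClosed (hD.image cτ).isClosed (fun y _ => by
      obtain ⟨c, hc, rfl⟩ := hs τ k4 y
      by_cases k : c ∈ U'
      · exact Or.inr ⟨c, ⟨hc, fun k' => Set.disjoint_left.1 h3 k k'⟩, rfl⟩
      · exact Or.inl ⟨c, ⟨hc, k⟩, rfl⟩) ⟨_, k1, a, haC, rfl⟩ ⟨_, k2, b, hbD, rfl⟩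
  obtain rfl : c = c' := hP τ k4 hc.1 hc'.1 (hcy.trans hcy'.symm)
  exact hp k3 (hVs hyV) c ⟨hc, hc'⟩ hcy

end Zm

theorem zStmt : ZStmt := by
  intro X M _ _ _ _ _ E Z σ τ₁ hσ hE hK hm hs hc hl h0
  have sub : ∀ τ ∈ Icc σ τ₁, InjOn (E τ) (Z σ) → Z σ ⊆ Z τ := by
    intro τ hτ hP a ha
    obtain ⟨c, hc, hy⟩ := hs τ hτ (E τ a)
    rwa [← hP (hm σ τ le_rfl hτ.1 hτ.2 hc) ha hy]
  set T := {τ | τ ∈ Icc σ τ₁ ∧ ∀ τ' ∈ Icc σ τ, InjOn (E τ') (Z σ)} with hT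
  have hσT : σ ∈ T := ⟨⟨le_rfl, hσ⟩, fun τ' h => by rw [le_antisymm h.2 h.1]; exact h0⟩
  have hb : BddAbove T := ⟨τ₁, fun τ h => h.1.2⟩
  have hI : sSup T ∈ Icc σ τ₁ := ⟨le_csSup hb hσT, csSup_le ⟨σ, hσT⟩ fun τ h => h.1.2⟩
  have hlt : ∀ τ ∈ Ico σ (sSup T), InjOn (E τ) (Z σ) := by
    intro τ hτ
    obtain ⟨t, ht, h⟩ := exists_lt_of_lt_csSup ⟨σ, hσT⟩ hτ.2
    exact ht.2 τ ⟨hτ.1, h.le⟩
  have hP : InjOn (E (sSup T)) (Z σ) := by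
    rcases hI.1.eq_or_lt with e | e
    · rw [← e]; exact h0
    · have hI' : ∀ τ ∈ Ico σ (sSup T), τ ∈ Icc σ τ₁ := fun τ h => ⟨h.1, h.2.le.trans hI.2⟩
      have hZ : Z σ ⊆ Z (sSup T) := fun a ha =>
        hc _ ⟨e, hI.2⟩ a fun τ hτ => sub τ (hI' τ hτ) (hlt τ hτ) ha
      refine Zm.cls e hE hK (fun τ hτ y => ?_) (fun a ha => ?_) hlt
      · obtain ⟨c, k, hy⟩ := hs τ (hI' τ hτ) y
        exact ⟨c, hm σ τ le_rfl hτ.1 (hI' τ hτ).2 k, hy⟩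
      · obtain ⟨N, hN, hN'⟩ := hl _ hI a ha
        exact ⟨_, (Continuous.prodMk_right (sSup T)).continuousAt.preimage_mem_nhds hN,
          fun b hb k => hN' _ hI a (hZ ha) b hb (mem_of_mem_nhds hN) k⟩
  have he : sSup T = τ₁ := by
    by_contra hne
    have hlt' := lt_of_le_of_ne hI.2 hne
    obtain ⟨δ, hδ, hδ'⟩ := Metric.eventually_nhds_iff.1 (Zm.opn hE hK hm hs (hl _ hI) hP)
    have k : min τ₁ (sSup T + δ / 2) ∈ T := by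
      refine ⟨⟨le_min hσ (by linarith [hI.1]), min_le_left _ _⟩, fun τ hτ => ?_⟩
      rcases lt_or_ge τ (sSup T) with k | k
      · exact hlt τ ⟨hτ.1, k⟩
      · refine hδ' ?_ ⟨hτ.1, hτ.2.trans (min_le_left _ _)⟩
        rw [Real.dist_eq, abs_of_nonneg (by linarith)]
        linarith [hτ.2.trans (min_le_right _ _)]
    have := le_csSup hb k
    rcases min_le_iff.1 this with k | k <;> linarith
  rw [he] at hP
  exact ⟨sub τ₁ ⟨hσ, le_rfl⟩ hP, hP⟩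

end Vale.Agent.P234
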